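import Vale.Agent.P150.Beyond.Stability.Stable

/-!
# P150 beyond one half: stability for every field up to `3/5`

Operator bound, the nets of means and strengths, and the choice of parameters.
-/

open Finset MeasureTheory ProbabilityTheory Real Filter

namespace Vale.Agent.P150.Beyond.Stability

open Vale.Agent.P150.Fast Vale.Agent.P150.Beyond

variable {n : ℕ}

/-- The couplings have quadratic form at most `3` with high probability. -/
theorem opEvent : ∀ η : ℝ, 0 < η → ∃ n₀ : ℕ, ∀ n ≥ n₀,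
    (stdPi (Edge n)).real {g | ¬OpBound g 3} ≤ η := by
  intro η hη
  have hz4 : Integrable (fun x : ℝ => (x ^ 2) ^ 2) std := by
    refine Integrable.mono' ((exp_sq_std (s := 1 / 4) (by norm_num)).1.const_mul 32) (by fun_prop)
      (Eventually.of_forall fun x => ?_)
    rw [Real.norm_of_nonneg (sq_nonneg _), show (1 : ℝ) / 4 * x ^ 2 = x ^ 2 / 4 by ring]
    have h := Real.pow_div_factorial_le_exp (x ^ 2 / 4) (by positivity) 2
    norm_num [Nat.factorial] at h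
    nlinarith
  have hz1 : ∫ x : ℝ, x ^ 2 ∂std < 9 / 4 := by
    have h := integral_sqc
    simp only [sqc] at h
    have hi : Integrable (fun x : ℝ => x ^ 2) std := (memLp_id_gaussianReal' 2 (by norm_num)).integrable_sq
    rw [integral_sub hi (integrable_const _)] at h
    simp at h
    linarith
  obtain ⟨n1, hn1⟩ := sum_tail (by fun_prop) hz4 hz1 (by linarith : 0 < η / 4)
  refine ⟨max n1 1, fun n hn => ?_⟩
  have hnpos : (0 : ℝ) < n := by
    exact_mod_cast (lt_of_lt_of_le Nat.zero_lt_one ((le_max_right _ _).trans hn))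
  let ι := {v : Fin n → ℝ // ∑ i, v i ^ 2 = 1}
  set B := {g : Edge n → ℝ | ∃ v : ι, 3 * √(n : ℝ) < quad g v.1 + 0}
  have hBm : MeasurableSet B := by
    have ho : IsOpen B := by
      simp only [B, Set.ofPred_exists]
      exact isOpen_iUnion fun k => isOpen_lt continuous_const (by unfold quad; fun_prop)
    exact ho.measurableSet
  have hB : (stdPi (Edge n)).real B ≤ η / 2 := by
    refine (quad_offset_tail (fun v : ι => v.1) (fun _ => 0) _).trans ?_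
    have hsub : {z : Fin n → ℝ | ∃ v : ι,
        3 * √(n : ℝ) < 2 * √(∑ i, v.1 i ^ 2) * (∑ i, z i * v.1 i) + 0}
        ⊆ {z | (n : ℝ) * (9 / 4) ≤ ∑ i, z i ^ 2} := by
      rintro z ⟨v, hv⟩
      rw [v.2, sqrt_one, mul_one, add_zero] at hv
      have h1 := Finset.sum_mul_sq_le_sq_mul_sq univ z v.1
      rw [v.2, mul_one] at h1
      have h2 : (3 / 2 * √(n : ℝ)) ^ 2 ≤ (∑ i, z i * v.1 i) ^ 2 :=
        pow_le_pow_left₀ (by positivity) (by linarith) 2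
      rw [mul_pow, sq_sqrt hnpos.le] at h2
      show (n : ℝ) * (9 / 4) ≤ ∑ i, z i ^ 2
      linarith
    linarith [(measureReal_mono (μ := stdPi (Fin n)) hsub).trans (hn1 n ((le_max_left _ _).trans hn))]
  have hneg : MeasurePreserving (fun (g : Edge n → ℝ) e => -g e) (stdPi (Edge n)) (stdPi (Edge n)) :=
    measurePreserving_pi (fun _ => std) (fun _ => std) fun _ =>
      ⟨measurable_neg, by rw [std, gaussianReal_map_neg, neg_zero]⟩
  have hsub : {g : Edge n → ℝ | ¬OpBound g 3} ⊆ B ∪ (fun (g : Edge n → ℝ) e => -g e) ⁻¹' B := by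
    intro g hg
    simp only [Set.mem_ofPred_eq, OpBound, not_forall, not_le] at hg
    obtain ⟨v, hv⟩ := hg
    set S := ∑ i, v i ^ 2
    have hS : 0 < S := by
      rcases (Finset.sum_nonneg fun i (_ : i ∈ univ) => sq_nonneg (v i)).eq_or_lt with h0 | h0
      · have hv0 : ∀ i, v i = 0 := fun i => pow_eq_zero_iff two_ne_zero |>.1
          ((Finset.sum_eq_zero_iff_of_nonneg fun i _ => sq_nonneg (v i)).1 h0.symm i (Finset.mem_univ i))
        simp [bil, S, hv0] at hv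
      · exact h0
    let w : ι := ⟨fun i => (1 / √S) * v i, by
      simp only [mul_pow, one_div, inv_pow, sq_sqrt hS.le, ← Finset.mul_sum]
      exact inv_mul_cancel₀ hS.ne'⟩
    have hq : quad g w.1 = bil g v v * √(n : ℝ) / S := by
      rw [show w.1 = fun i => (1 / √S) * v i from rfl, quad_smul, div_pow, one_pow, sq_sqrt hS.le,
        bil, form_eq_quad, div_mul_cancel₀ _ (sqrt_pos.2 hnpos).ne']
      ring
    rcases lt_abs.1 hv with h | h
    · refine Or.inl ⟨w, ?_⟩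
      rw [add_zero, hq, lt_div_iff₀ hS]
      linarith [mul_lt_mul_of_pos_right h (sqrt_pos.2 hnpos)]
    · refine Or.inr ⟨w, ?_⟩
      have : quad (fun e => -g e) w.1 = -quad g w.1 := by simp [quad, Finset.sum_neg_distrib]
      rw [add_zero, this, hq, ← neg_div, lt_div_iff₀ hS]
      linarith [mul_lt_mul_of_pos_right h (sqrt_pos.2 hnpos)]
  refine (measureReal_mono hsub).trans ((measureReal_union_le _ _).trans ?_)
  simp only [Measure.real, hneg.measure_preimage hBm.nullMeasurableSet] at hB ⊢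
  linarith

/-- The grid of reference values: interval midpoints and the two ends. -/
noncomputable def gridVal (L : ℕ) (j : Fin (L + 2)) : ℝ :=
  if (j : ℕ) < L then (2 * (j : ℕ) + 1) / L - 1 else if (j : ℕ) = L then 1 else -1

theorem abs_gridVal_le (L : ℕ) (j : Fin (L + 2)) : |gridVal L j| ≤ 1 := by
  unfold gridVal
  split_ifs with h1 h2
  · have hL : (0 : ℝ) < L := by exact_mod_cast (lt_of_le_of_lt (Nat.zero_le _) h1)
    have hj : ((j : ℕ) : ℝ) + 1 ≤ L := by exact_mod_cast h1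
    have : (2 * ((j : ℕ) : ℝ) + 1) / L ≤ 2 := by rw [div_le_iff₀ hL]; linarith
    rw [abs_le]
    constructor <;> linarith [show 0 ≤ (2 * ((j : ℕ) : ℝ) + 1) / L by positivity]
  · simp
  · simp

theorem exists_mid {L : ℕ} (hL : 0 < L) {a : ℝ} (ha : |a| ≤ 1) :
    ∃ j : Fin (L + 2), |gridVal L j| ≤ 1 - 1 / L ∧ |a - gridVal L j| ≤ 1 / L := by
  obtain ⟨a1, a2⟩ := abs_le.1 ha
  have hL' : (0 : ℝ) < L := by exact_mod_cast hL
  set j := min ⌊(a + 1) * L / 2⌋₊ (L - 1) with hj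
  have hjL : j < L := by omega
  refine ⟨⟨j, by omega⟩, ?_⟩
  have hg : gridVal L ⟨j, by omega⟩ = (2 * (j : ℝ) + 1) / L - 1 := if_pos hjL
  have hlo : (2 * (j : ℝ)) ≤ (a + 1) * L := by
    have h0 : (0 : ℝ) ≤ (a + 1) * L / 2 := by
      have : 0 ≤ a + 1 := by linarith
      positivity
    have : (j : ℝ) ≤ (⌊(a + 1) * L / 2⌋₊ : ℕ) := by exact_mod_cast min_le_left _ _
    linarith [Nat.floor_le h0]
  have hhi : (a + 1) * L ≤ 2 * (j : ℝ) + 2 := by
    rcases le_total ⌊(a + 1) * L / 2⌋₊ (L - 1) with h | h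
    · rw [hj, min_eq_left h]
      linarith [Nat.lt_floor_add_one ((a + 1) * (L : ℝ) / 2)]
    · rw [hj, min_eq_right h]
      have h1 : ((L - 1 : ℕ) : ℝ) = L - 1 := by rw [Nat.cast_sub (by omega : 1 ≤ L)]; norm_num
      rw [h1]
      nlinarith
  rw [hg]
  have hj1 : (j : ℝ) + 1 ≤ L := by exact_mod_cast hjL
  refine ⟨?_, ?_⟩ <;> rw [abs_le] <;> constructor
  · rw [show -(1 - 1 / (L : ℝ)) = 1 / L - 1 by ring]
    have : 1 / (L : ℝ) ≤ (2 * (j : ℝ) + 1) / L := div_le_div_of_nonneg_right (by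
      linarith [(Nat.cast_nonneg j : (0 : ℝ) ≤ j)]) hL'.le
    linarith
  · have : (2 * (j : ℝ) + 1) / L ≤ 2 - 1 / L := by
      rw [le_sub_iff_add_le, ← add_div, div_le_iff₀ hL']; linarith
    linarith
  · have : (2 * (j : ℝ) + 1) / L - 1 / L ≤ a + 1 := by
      rw [← sub_div, div_le_iff₀ hL']; linarith
    linarith
  · have : a + 1 ≤ (2 * (j : ℝ) + 1) / L + 1 / L := by
      rw [← add_div, le_div_iff₀ hL']; linarith
    linarith

theorem exists_clip {L : ℕ} {τ : ℝ} (hτ : 0 < τ) (hτ1 : τ ≤ 1 / 2) (hL : 2 / τ ≤ L) {m : Fin n → ℝ}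
    (hm : ∀ i, |m i| < 1) :
    ∃ j : Fin n → Fin (L + 2), Clip τ (1 / L) m (fun i => gridVal L (j i)) := by
  have hL' : (0 : ℝ) < L := lt_of_lt_of_le (by positivity) hL
  have hLn : 0 < L := by exact_mod_cast hL'
  have hsmall : 1 / (L : ℝ) ≤ τ / 2 := by
    rw [div_le_div_iff₀ hL' two_pos]
    rw [div_le_iff₀ hτ] at hL
    linarith
  suffices h : ∀ i, ∃ j : Fin (L + 2), (|gridVal L j| = 1 ∧ |m i - gridVal L j| ≤ τ) ∨
      (|gridVal L j| ≤ 1 - τ / 2 ∧ |m i| ≤ 1 - τ / 2 ∧ |m i - gridVal L j| ≤ 1 / L) by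
    choose j hj using h
    exact ⟨j, hj⟩
  intro i
  obtain ⟨m1, m2⟩ := abs_lt.1 (hm i)
  by_cases hhi : 1 - τ < m i
  · have hv : gridVal L ⟨L, by omega⟩ = 1 := by simp [gridVal]
    refine ⟨⟨L, by omega⟩, Or.inl ?_⟩
    rw [hv]
    exact ⟨abs_one, abs_le.2 ⟨by linarith, by linarith⟩⟩
  by_cases hlo : m i < -(1 - τ)
  · have hv : gridVal L ⟨L + 1, by omega⟩ = -1 := by simp [gridVal]
    refine ⟨⟨L + 1, by omega⟩, Or.inl ?_⟩
    rw [hv]
    exact ⟨by simp, abs_le.2 ⟨by linarith, by linarith⟩⟩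
  have habs : |m i| ≤ 1 - τ := abs_le.2 ⟨by linarith, by linarith⟩
  obtain ⟨j, -, h2⟩ := exists_mid hLn (hm i).le
  refine ⟨j, Or.inr ⟨?_, by linarith, h2⟩⟩
  have := abs_sub_abs_le_abs_sub (gridVal L j) (m i)
  rw [abs_sub_comm] at h2
  linarith

/-- Good moments at every reference point and strength of the nets. -/
def NetGood (k L : ℕ) (M : ℕ) (ρ ε : ℝ) (g : Edge n → ℝ) : Prop :=
  ∀ (a : Fin (M + 1)) (j : Fin n → Fin (L + 2)),
    rep k (3 / 5 * (a : ℕ) / M) (fun i => gridVal L (j i)) ρ g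
        ≤ exp (k * n * ((3 / 5 * (a : ℕ) / M) ^ 2 * (1 - qOf fun i => gridVal L (j i)) ^ 2 / 4 + ε)) ∧
      exp (k * n * ((3 / 5 * (a : ℕ) / M) ^ 2 * (1 - qOf fun i => gridVal L (j i)) ^ 2 / 4 - ε) - log 4)
        ≤ rep k (3 / 5 * (a : ℕ) / M) (fun i => gridVal L (j i)) ρ g

theorem netGood_prob {n k L M : ℕ} {ρ ε : ℝ} (hn : 0 < n) (hk : 0 < k) (hM : 0 < M) (hρ0 : 0 ≤ ρ) (hρ1 : ρ ≤ 1)
    (hρk : 2 * ρ + k * ρ ≤ 3 / 10) (hε0 : 0 ≤ ε) (hε1 : ε ≤ 1 / 2) (herr : vErr k n ρ ≤ ε / 2)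
    (hmix : 2 * ((k : ℝ) * k + k) * exp (-(ρ ^ 2 * n / 8)) ≤ 1 / 2)
    (hnet : log ((L : ℝ) + 2) + 1 ≤ ε ^ 2 / (2 * π ^ 2) * k) :
    (stdPi (Edge n)).real {g | ¬NetGood k L M ρ ε g}
      ≤ ((M : ℝ) + 1) * (1 + 16 * 2 ^ (k * k)) * exp (-(n : ℝ)) := by
  set κ := ε ^ 2 / (2 * π ^ 2) with hκ
  set C : ℝ := 16 * 2 ^ (k * k)
  have hkn : (0 : ℝ) ≤ k * n := by positivity
  set T := exp (-(κ * (k * n)))
  have hπ : 1 ≤ π ^ 2 := one_le_pow₀ (by linarith [pi_gt_three])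
  let bad : Fin (M + 1) × (Fin n → Fin (L + 2)) → Set (Edge n → ℝ) := fun p =>
    {g | exp (k * n * ((3 / 5 * (p.1 : ℕ) / M) ^ 2 * (1 - qOf fun i => gridVal L (p.2 i)) ^ 2 / 4 + ε))
        < rep k (3 / 5 * (p.1 : ℕ) / M) (fun i => gridVal L (p.2 i)) ρ g}
    ∪ {g | rep k (3 / 5 * (p.1 : ℕ) / M) (fun i => gridVal L (p.2 i)) ρ g
        ≤ exp (k * n * ((3 / 5 * (p.1 : ℕ) / M) ^ 2 * (1 - qOf fun i => gridVal L (p.2 i)) ^ 2 / 4
          - vErr k n ρ - ε / 2) - log 4)}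
  have hsub : {g : Edge n → ℝ | ¬NetGood k L M ρ ε g} ⊆ ⋃ p, bad p := fun g hg => by
    by_contra hc
    simp only [Set.mem_iUnion, bad, Set.mem_union, Set.mem_ofPred_eq, not_exists, not_or, not_lt, not_le] at hc
    refine hg fun a j => ⟨(hc (a, j)).1, le_trans (exp_le_exp.2 ?_) (hc (a, j)).2.le⟩
    have := mul_le_mul_of_nonneg_left (show vErr k n ρ + ε / 2 ≤ ε by linarith) hkn
    linarith [mul_sub ((k : ℝ) * n) ((3 / 5 * (a : ℕ) / M : ℝ) ^ 2
        * (1 - qOf fun i => gridVal L (j i)) ^ 2 / 4) ε,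
      mul_sub ((k : ℝ) * n) ((3 / 5 * (a : ℕ) / M : ℝ) ^ 2
        * (1 - qOf fun i => gridVal L (j i)) ^ 2 / 4 - vErr k n ρ) (ε / 2),
      mul_sub ((k : ℝ) * n) ((3 / 5 * (a : ℕ) / M : ℝ) ^ 2
        * (1 - qOf fun i => gridVal L (j i)) ^ 2 / 4) (vErr k n ρ),
      mul_add ((k : ℝ) * n) (vErr k n ρ) (ε / 2)]
  have hone : ∀ p, (stdPi (Edge n)).real (bad p) ≤ (1 + C) * T := by
    intro p
    set θ := 3 / 5 * ((p.1 : ℕ) : ℝ) / M with hθ
    have hθ0 : 0 ≤ θ := by positivity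
    have hθ1 : θ ≤ 3 / 5 := by
      rw [hθ, div_le_iff₀ (by exact_mod_cast hM)]
      exact mul_le_mul_of_nonneg_left (by exact_mod_cast Nat.le_of_lt_succ p.1.2) (by norm_num)
    have habs : |θ| ≤ 1 := by rw [abs_of_nonneg hθ0]; linarith
    have hm : ∀ i, |gridVal L (p.2 i)| ≤ 1 := fun i => abs_gridVal_le L _
    have hθ2 : θ ^ 2 ≤ 9 / 25 := by nlinarith
    have hlow := rep_lower (θ := θ) hn hk habs hρ0 hρ1
      ((mul_le_mul_of_nonneg_right hθ2 (by positivity)).trans (by linarith)) (by linarith) hm hmix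
      (r := ε / 2) (by linarith)
    have hup := rep_upper (k := k) (θ := θ) hn habs hρ0 hρ1 hm
      (k * n * (θ ^ 2 * (1 - qOf fun i => gridVal L (p.2 i)) ^ 2 / 4 + ε))
    refine (measureReal_union_le _ _).trans ((add_le_add hup hlow).trans ?_)
    rw [add_mul, one_mul]
    refine add_le_add (exp_le_exp.2 ?_) (mul_le_mul_of_nonneg_left (exp_le_exp.2 (le_of_eq ?_)) (by positivity))
    · have h1 := mul_le_mul_of_nonneg_left herr hkn
      have h2 : κ ≤ ε / 2 := by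
        rw [hκ, div_le_iff₀ (by positivity)]; nlinarith
      have h3 := mul_le_mul_of_nonneg_right h2 hkn
      linarith [mul_add ((k : ℝ) * n) (θ ^ 2 * (1 - qOf fun i => gridVal L (p.2 i)) ^ 2 / 4) (vErr k n ρ),
        mul_add ((k : ℝ) * n) (θ ^ 2 * (1 - qOf fun i => gridVal L (p.2 i)) ^ 2 / 4) ε]
    · rw [hκ]; field_simp
  refine (measureReal_mono hsub).trans ((measureReal_iUnion_fintype_le _).trans
    ((Finset.sum_le_sum fun p _ => hone p).trans ?_))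
  simp only [Finset.sum_const, Finset.card_univ, Fintype.card_prod, Fintype.card_fin, Fintype.card_fun,
    nsmul_eq_mul, Nat.cast_mul, Nat.cast_pow, Nat.cast_add, Nat.cast_one, Nat.cast_ofNat]
  have hpow : ((L : ℝ) + 2) ^ n * T ≤ exp (-(n : ℝ)) := by
    rw [← exp_log (show (0 : ℝ) < (L : ℝ) + 2 by positivity), ← exp_nat_mul, ← exp_add, exp_le_exp]
    have := mul_le_mul_of_nonneg_left hnet (Nat.cast_nonneg' n : (0 : ℝ) ≤ n)
    linarith
  calc ((M : ℝ) + 1) * ((L : ℝ) + 2) ^ n * ((1 + C) * T)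
      = ((M : ℝ) + 1) * (1 + C) * (((L : ℝ) + 2) ^ n * T) := by ring
    _ ≤ _ := mul_le_mul_of_nonneg_left hpow (by positivity)

/-- The replica count beats the logarithm of the size of the net. -/
theorem exists_count (C : ℝ) (hC : 1 ≤ C) {κ : ℝ} (hκ : 0 < κ) :
    ∃ k : ℕ, 0 < k ∧ log ((⌈(k : ℝ) ^ 2 * C⌉₊ : ℕ) + 2 : ℝ) + 1 ≤ κ * k := by
  set k := ⌈2 / κ * (log (C + 3) - 1 - 2 * log (κ / 4))⌉₊ + 1
  refine ⟨k, Nat.succ_pos _, ?_⟩
  have hk1 : (1 : ℝ) ≤ k := by exact_mod_cast Nat.succ_pos _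
  have hlogk : log (k : ℝ) ≤ k * (κ / 4) - 1 - log (κ / 4) := by
    have h := log_le_sub_one_of_pos (show 0 < (k : ℝ) * (κ / 4) by positivity)
    rw [log_mul (by positivity) (by positivity)] at h
    linarith
  have hL : ((⌈(k : ℝ) ^ 2 * C⌉₊ : ℕ) : ℝ) + 2 ≤ (k : ℝ) ^ 2 * (C + 3) := by
    have h1 := (Nat.ceil_lt_add_one (show 0 ≤ (k : ℝ) ^ 2 * C by positivity)).le
    nlinarith [one_le_pow₀ (n := 2) hk1]
  have h2 : log ((⌈(k : ℝ) ^ 2 * C⌉₊ : ℕ) + 2 : ℝ) ≤ 2 * log k + log (C + 3) := by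
    refine (Real.log_le_log (by positivity) hL).trans (le_of_eq ?_)
    rw [log_mul (by positivity) (by positivity), log_pow]
    norm_num
  have h3 : 2 / κ * (log (C + 3) - 1 - 2 * log (κ / 4)) ≤ k := by
    refine (Nat.le_ceil _).trans ?_
    exact_mod_cast Nat.le_succ _
  rw [div_mul_eq_mul_div, div_le_iff₀ hκ] at h3
  linarith

theorem tapBounds_grid {n k L : ℕ} {θ ζ ρ : ℝ} {g : Edge n → ℝ} (hn : 0 < n) (hk : 0 < k) (hθ0 : 0 ≤ θ)
    (hθ1 : θ ≤ 1) (hop : OpBound g 3) (hH : HessBelow θ g (1 / 10000)) (hζ0 : 0 < ζ) (hζ1 : ζ ≤ 1 / 100)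
    (hρ : ρ = ζ / k) (hL : (k : ℝ) ^ 2 * (3 / ζ ^ 4) ≤ L)
    (hn1 : 1 / (n : ℝ) ≤ ζ)
    (hn2 : ((6 * ((2 * k ^ 2 + k / (ζ * ρ ^ 2 / k)) / ρ ^ 2) + 1) / ζ + 1) / n ≤ ζ)
    (hgood : ∀ j : Fin n → Fin (L + 2),
      rep k θ (fun i => gridVal L (j i)) ρ g
          ≤ exp (k * n * (θ ^ 2 * (1 - qOf fun i => gridVal L (j i)) ^ 2 / 4 + 8 * ζ)) ∧
        exp (k * n * (θ ^ 2 * (1 - qOf fun i => gridVal L (j i)) ^ 2 / 4 - 8 * ζ) - log 4)
          ≤ rep k θ (fun i => gridVal L (j i)) ρ g) :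
    TapBounds θ g (40 * ζ) := by
  have hk1 : (1 : ℝ) ≤ k := by exact_mod_cast hk
  have hk2 : (1 : ℝ) ≤ (k : ℝ) ^ 2 := one_le_pow₀ hk1
  have hρ0 : 0 < ρ := by rw [hρ]; positivity
  have hρζ : ρ ≤ ζ := by rw [hρ]; exact div_le_self hζ0.le hk1
  have hL0 : 3 / ζ ^ 4 ≤ (L : ℝ) := le_trans (le_mul_of_one_le_left (by positivity) hk2) hL
  have hLpos : (0 : ℝ) < L := lt_of_lt_of_le (by positivity) hL0
  have hLn : 0 < L := by exact_mod_cast hLpos
  have he : 1 / (L : ℝ) ≤ ζ ^ 4 / 3 := by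
    rw [one_div, show ζ ^ 4 / 3 = (3 / ζ ^ 4)⁻¹ by rw [inv_div]]
    exact inv_anti₀ (by positivity) hL0
  have hζ4 : ζ ^ 4 ≤ ζ := pow_le_of_le_one hζ0.le (by linarith) (by norm_num)
  have heζ : 1 / (L : ℝ) ≤ ζ := by linarith
  set α := ζ * ρ ^ 2 / k with hα
  set K := 6 * ((2 * (k : ℝ) ^ 2 + k / α) / ρ ^ 2) with hK
  have hK0 : 0 ≤ K := by positivity
  refine ⟨fun ν hν => ?_, fun h x hx => ?_⟩
  · have hδ : 0 < ζ / (K + 1) := by positivity
    have hK2 : (((2 : ℝ) * k ^ 2 + k / α) * (1 / (L : ℝ)) ^ 4 + k * α / 2) / ρ ^ 2 ≤ 2 * ζ := by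
      rw [add_div]
      have h1 : k * α / 2 / ρ ^ 2 ≤ ζ := by
        rw [hα, show (k : ℝ) * (ζ * ρ ^ 2 / k) / 2 / ρ ^ 2 = ζ / 2 by field_simp]
        linarith
      have h2 : ((2 : ℝ) * k ^ 2 + k / α) ≤ 3 * k ^ 4 / ζ ^ 3 := by
        rw [hα, hρ, show (k : ℝ) / (ζ * (ζ / k) ^ 2 / k) = k ^ 4 / ζ ^ 3 by field_simp]
        have : (k : ℝ) ^ 2 ≤ k ^ 4 / ζ ^ 3 := by
          rw [le_div_iff₀ (by positivity)]
          have : ζ ^ 3 ≤ 1 := pow_le_one₀ hζ0.le (by linarith)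
          have : (k : ℝ) ^ 2 ≤ k ^ 4 := pow_le_pow_right₀ hk1 (by norm_num)
          nlinarith
        rw [show 3 * (k : ℝ) ^ 4 / ζ ^ 3 = 3 * (k ^ 4 / ζ ^ 3) by ring]
        linarith
      have he2 : 1 / (L : ℝ) ≤ ζ ^ 4 / (3 * k ^ 2) := by
        rw [one_div, show ζ ^ 4 / (3 * (k : ℝ) ^ 2) = ((k : ℝ) ^ 2 * (3 / ζ ^ 4))⁻¹ by field_simp]
        exact inv_anti₀ (by positivity) hL
      have h3 : ((2 : ℝ) * k ^ 2 + k / α) * (1 / (L : ℝ)) ^ 4 / ρ ^ 2 ≤ ζ := by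
        calc ((2 : ℝ) * k ^ 2 + k / α) * (1 / (L : ℝ)) ^ 4 / ρ ^ 2
            ≤ 3 * k ^ 4 / ζ ^ 3 * (ζ ^ 4 / (3 * k ^ 2)) ^ 4 / ρ ^ 2 := by gcongr
          _ = ζ * ((1 / 27) * (ζ ^ 10 / k ^ 2)) := by rw [hρ]; field_simp; ring
          _ ≤ ζ * 1 := by
              refine mul_le_mul_of_nonneg_left ?_ hζ0.le
              have h4 : ζ ^ 10 / (k : ℝ) ^ 2 ≤ 1 :=
                div_le_one_of_le₀ ((pow_le_one₀ hζ0.le (by linarith)).trans hk2) (by positivity)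
              linarith
          _ = ζ := mul_one ζ
      linarith
    set E0 := 1 / (L : ℝ) + 3 * (1 / (L : ℝ)) ^ 2 + 1 / L + 8 * ζ + 1 / n
      + 2 * 3 * ((((2 : ℝ) * k ^ 2 + k / α) * (1 / (L : ℝ)) ^ 4 + k * α / 2) / ρ ^ 2)
    have hone : ∀ μ, IsLaw μ → tap θ g (bary μ) ≤ freeE θ g μ + n * E0 + K * (covSq μ / n) := by
      intro μ hμ
      choose j hj1 hj2 using fun i => exists_mid hLn (abs_bary_le hμ i)
      have hjlt : ∀ i, |gridVal L (j i)| < 1 := fun i =>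
        lt_of_le_of_lt (hj1 i) (by linarith [show 0 < 1 / (L : ℝ) by positivity])
      have he2 : ∀ i, (bary μ i - gridVal L (j i)) ^ 2 / (1 - gridVal L (j i) ^ 2) ≤ 1 / (L : ℝ) := fun i => by
        have hden : 1 / (L : ℝ) ≤ 1 - gridVal L (j i) ^ 2 := by
          have h1 : gridVal L (j i) ^ 2 ≤ |gridVal L (j i)| := by
            rw [← sq_abs]
            exact (sq _).trans_le (mul_le_of_le_one_left (abs_nonneg _) (hjlt i).le)
          linarith [hj1 i]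
        calc (bary μ i - gridVal L (j i)) ^ 2 / (1 - gridVal L (j i) ^ 2) ≤ (1 / (L : ℝ)) ^ 2 / (1 / L) := by
              refine div_le_div₀ (by positivity) ?_ (by positivity) hden
              rw [← sq_abs]
              exact pow_le_pow_left₀ (abs_nonneg _) (hj2 i) 2
          _ = 1 / (L : ℝ) := by field_simp
      refine (upper_one (Λ := 3) (ε := 8 * ζ) (α := α) hn hk hθ0 hθ1 (by norm_num) hop hρ0 (by positivity)
        (by positivity) hjlt hμ hj2 he2 (hgood j).1).trans (le_of_eq ?_)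
      simp only [E0, hK]
      ring
    refine (upper_all hn hK0 hδ (tap_convex hn (by norm_num) hH) hone hν).trans ?_
    have h1 : K * (ζ / (K + 1)) ≤ ζ := by
      rw [← mul_div_assoc, div_le_iff₀ (by positivity)]
      linarith
    have h2 : (1 / (ζ / (K + 1)) + 1) / n ≤ ζ := by rw [one_div_div]; exact hn2
    have h3 : (1 / (L : ℝ)) ^ 2 ≤ ζ :=
      (pow_le_pow_left₀ (by positivity) heζ 2).trans (pow_le_of_le_one hζ0.le (by linarith) two_ne_zero)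
    have hE : E0 + K * (ζ / (K + 1)) + (1 / (ζ / (K + 1)) + 1) / n ≤ 40 * ζ := by
      simp only [E0]; linarith
    linarith [mul_le_mul_of_nonneg_left hE (Nat.cast_nonneg' n : (0 : ℝ) ≤ n)]
  · have hLτ : 2 / ζ ≤ (L : ℝ) := by
      refine le_trans ?_ hL0
      rw [div_le_div_iff₀ hζ0 (by positivity)]
      linarith
    have hlow := lower_all (Λ := 3) (τ := ζ) (e1 := 1 / (L : ℝ)) (ρ := ρ) (ε := 8 * ζ) hn hk hθ0 hθ1
      (by norm_num) hop hζ0 (by linarith) (by positivity) heζ (fun m hm => by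
        obtain ⟨j, hj⟩ := exists_clip hζ0 (by linarith) hLτ hm
        exact ⟨_, hj, (hgood j).2⟩) h x hx
    refine le_trans ?_ hlow
    have h1 : 1 / (L : ℝ) / ζ ≤ ζ := by
      rw [div_le_iff₀ hζ0]
      have : ζ ^ 4 ≤ ζ ^ 2 := pow_le_pow_of_le_one hζ0.le (by linarith) (by norm_num)
      nlinarith
    have h2 : 2 * (1 / (L : ℝ)) ^ 2 / ζ ≤ 2 * ζ := by
      rw [show 2 * (1 / (L : ℝ)) ^ 2 / ζ = 2 * (1 / (L : ℝ) * (1 / (L : ℝ) / ζ)) by ring]
      refine mul_le_mul_of_nonneg_left ?_ zero_le_two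
      calc 1 / (L : ℝ) * (1 / (L : ℝ) / ζ) ≤ 1 * ζ := mul_le_mul (by linarith) h1 (by positivity) zero_le_one
        _ = ζ := one_mul ζ
    have h3 : 4 * (1 / (L : ℝ)) / ζ ≤ 4 * ζ := by
      rw [mul_div_assoc]; linarith
    have h4 : ζ ^ 2 ≤ ζ := pow_le_of_le_one hζ0.le (by linarith) two_ne_zero
    have h5 : (2 : ℝ) / n = 2 * (1 / n) := by ring
    have hE : ζ + 2 * (1 / (L : ℝ)) ^ 2 / ζ + 3 * ζ ^ 2 + 2 * ζ
        + (4 * (1 / (L : ℝ)) / ζ + 3 * 3 * ζ + ρ + 2 * ζ) + 8 * ζ + 2 / n ≤ 40 * ζ := by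
      rw [h5]; linarith
    linarith [mul_le_mul_of_nonneg_left hE (Nat.cast_nonneg' n : (0 : ℝ) ≤ n)]

end Vale.Agent.P150.Beyond.Stability

namespace Vale.Agent.P150.Beyond

open Vale.Agent.P150.Fast Stability

/-- (Stability). -/
theorem stabilityBound : StabilityBound := by
  refine ⟨1 / 40000, by norm_num, fun ε hε η hη => ?_⟩
  set ζ := min (ε / 400) (1 / 100) with hζ
  have hζ0 : 0 < ζ := lt_min (by linarith) (by norm_num)
  have hζ1 : ζ ≤ 1 / 100 := min_le_right _ _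
  have hζε : ζ ≤ ε / 400 := min_le_left _ _
  have hC : 1 ≤ 3 / ζ ^ 4 := by
    rw [le_div_iff₀ (by positivity)]
    linarith [pow_le_one₀ (n := 4) hζ0.le (by linarith)]
  obtain ⟨k, hk, hcount⟩ := exists_count (3 / ζ ^ 4) hC (κ := (8 * ζ) ^ 2 / (2 * π ^ 2)) (by positivity)
  set L := ⌈(k : ℝ) ^ 2 * (3 / ζ ^ 4)⌉₊
  have hk1 : (1 : ℝ) ≤ k := by exact_mod_cast hk
  set ρ := ζ / (k : ℝ) with hρ
  have hρ0 : 0 < ρ := by positivity
  have hρζ : ρ ≤ ζ := div_le_self hζ0.le hk1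
  set M := ⌈8 / ζ⌉₊ with hMdef
  have hM : 0 < M := Nat.ceil_pos.2 (by positivity)
  have hM' : (0 : ℝ) < M := by exact_mod_cast hM
  set K := 6 * ((2 * (k : ℝ) ^ 2 + k / (ζ * ρ ^ 2 / k)) / ρ ^ 2) with hK
  obtain ⟨n1, hn1⟩ := hessEvent (η / 3) (by linarith)
  obtain ⟨n2, hn2⟩ := opEvent (η / 3) (by linarith)
  obtain ⟨n3, hn3⟩ := exists_nat_gt (max (max (1 / ζ) (((K + 1) / ζ + 1) / ζ))
    (max (4 * k / ζ) (max (32 * ((k : ℝ) * k + k) / ρ ^ 2)
      (3 * ((M : ℝ) + 1) * (1 + 16 * 2 ^ (k * k)) / η))))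
  refine ⟨max (max n1 n2) (max n3 1), fun n hn => ?_⟩
  simp only [ge_iff_le, max_le_iff] at hn
  have hn0 : 0 < n := hn.2.2
  have hn0' : (0 : ℝ) < n := by exact_mod_cast hn0
  have hbig := hn3.trans_le (show (n3 : ℝ) ≤ n by exact_mod_cast hn.2.1)
  simp only [max_lt_iff] at hbig
  obtain ⟨⟨hb1, hb2⟩, hb3, hb4, hb5⟩ := hbig
  have h1n : 1 / (n : ℝ) ≤ ζ := by
    rw [div_lt_iff₀ hζ0] at hb1
    rw [div_le_iff₀ hn0']; linarith
  have h2n : ((K + 1) / ζ + 1) / n ≤ ζ := by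
    rw [div_lt_iff₀ hζ0] at hb2
    rw [div_le_iff₀ hn0']; linarith
  have herr : vErr k n ρ ≤ 8 * ζ / 2 := by
    have h : 4 * (k : ℝ) / n ≤ ζ := by
      rw [div_lt_iff₀ hζ0] at hb3
      rw [div_le_iff₀ hn0']; linarith
    have h2 : (k : ℝ) * ρ ^ 2 ≤ ζ := by
      rw [hρ, show (k : ℝ) * (ζ / k) ^ 2 = ζ * (ζ / k) by field_simp]
      exact mul_le_of_le_one_right hζ0.le (by linarith)
    unfold vErr; linarith
  have hmix : 2 * ((k : ℝ) * k + k) * exp (-(ρ ^ 2 * n / 8)) ≤ 1 / 2 := by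
    rw [exp_neg, ← div_eq_mul_inv, div_le_iff₀ (exp_pos _)]
    rw [div_lt_iff₀ (by positivity)] at hb4
    linarith [add_one_le_exp (ρ ^ 2 * (n : ℝ) / 8)]
  have hρk : 2 * ρ + k * ρ ≤ 3 / 10 := by
    rw [show (k : ℝ) * ρ = ζ by rw [hρ]; field_simp]; linarith
  have hnet := netGood_prob (L := L) (ε := 8 * ζ) hn0 hk hM hρ0.le (by linarith) hρk (by positivity)
    (by linarith) herr hmix hcount
  set G := {g : Edge n → ℝ | ∀ θ : ℝ, 0 ≤ θ → θ ≤ 3 / 5 →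
    ∀ m v : Fin n → ℝ, (∀ i, |m i| < 1) → 1 / 10000 * ∑ i, v i ^ 2 ≤ hess θ g m v}
  set U := {g : Edge n → ℝ | ¬OpBound g 3} ∪ {g | ¬NetGood k L M ρ (8 * ζ) g}
  have hU : (stdPi (Edge n)).real U ≤ 2 * η / 3 := by
    refine (measureReal_union_le _ _).trans ?_
    have h := hn2 n hn.1.2
    have h3 : ((M : ℝ) + 1) * (1 + 16 * 2 ^ (k * k)) * exp (-(n : ℝ)) ≤ η / 3 := by
      rw [exp_neg, ← div_eq_mul_inv, div_le_iff₀ (exp_pos _)]
      rw [div_lt_iff₀ hη] at hb5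
      have := mul_le_mul_of_nonneg_left (add_one_le_exp (n : ℝ)) hη.le
      linarith
    linarith
  have hgood : G \ U ⊆ {g | ∀ θ : ℝ, 0 ≤ θ → θ ≤ 3 / 5 → StableFields n θ g (1 / 40000) ε} := by
    rintro g ⟨hG, hgU⟩ θ hθ0 hθ
    simp only [U, Set.mem_union, Set.mem_ofPred_eq, not_or, not_not] at hgU
    obtain ⟨hop, hng⟩ := hgU
    set a : ℕ := ⌊θ / (3 / 5) * M⌋₊ with ha
    have hx0 : 0 ≤ θ / (3 / 5) * M := by positivity
    have haM : a ≤ M := by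
      refine Nat.floor_le_of_le (mul_le_of_le_one_left hM'.le ?_)
      rw [div_le_one (by norm_num)]; exact hθ
    set θ' := 3 / 5 * (a : ℝ) / M with hθ'
    have hθ'1 : θ' ≤ 3 / 5 := by
      rw [hθ', div_le_iff₀ hM']
      exact mul_le_mul_of_nonneg_left (by exact_mod_cast haM) (by norm_num)
    have hdiff : |θ - θ'| * (3 + 1) ≤ ζ := by
      have h1 : |θ - θ'| ≤ 1 / M := by
        have e : θ - θ' = 3 / 5 * ((θ / (3 / 5) * M - a) / M) := by rw [hθ']; field_simp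
        have hfl : (a : ℝ) ≤ θ / (3 / 5) * M := Nat.floor_le hx0
        have hfl2 : θ / (3 / 5) * (M : ℝ) < a + 1 := Nat.lt_floor_add_one _
        rw [e, abs_mul, abs_of_pos (by norm_num : (0 : ℝ) < 3 / 5), abs_of_nonneg (div_nonneg (by linarith) hM'.le)]
        calc 3 / 5 * ((θ / (3 / 5) * M - a) / M) ≤ 1 * (1 / M) :=
              mul_le_mul (by norm_num) (div_le_div_of_nonneg_right (by linarith) hM'.le)
                (div_nonneg (by linarith) hM'.le) zero_le_one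
          _ = 1 / M := one_mul _
      have h2 : 1 / (M : ℝ) ≤ ζ / 8 := by
        rw [one_div, show ζ / 8 = (8 / ζ)⁻¹ by rw [inv_div]]
        exact inv_anti₀ (by positivity) (Nat.le_ceil _)
      linarith
    have hTB := tapBounds_grid (L := L) (ρ := ρ) hn0 hk (θ := θ') (by positivity) (by linarith) hop
      (fun m v hm => hG θ' (by positivity) hθ'1 m v hm) hζ0 hζ1 hρ (Nat.le_ceil _) h1n h2n
      (fun j => hng ⟨a, Nat.lt_succ_of_le haM⟩ j)
    have hT := tapBounds_shift (θ := θ) ⟨hθ0, by linarith⟩ ⟨by positivity, by linarith⟩ hop (by norm_num) hTB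
    have := stable_of_bounds hn0 (fun m v hm => hG θ hθ0 hθ m v hm) hT (ε := ε) (by linarith)
    rwa [show (1 : ℝ) / 40000 = 1 / 10000 / 4 by norm_num]
  refine le_trans ?_ (measure_mono (μ := disorder n) hgood)
  have hG : ENNReal.ofReal (1 - η / 3) ≤ stdPi (Edge n) G := hn1 n hn.1.1
  change _ ≤ stdPi (Edge n) (G \ U)
  refine le_trans ?_ le_measure_sdiff
  rw [← ofReal_measureReal (measure_ne_top _ U)]
  refine le_trans ?_ (tsub_le_tsub_right hG _)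
  rw [← ENNReal.ofReal_sub _ measureReal_nonneg]
  exact ENNReal.ofReal_le_ofReal (by linarith)

end Vale.Agent.P150.Beyond
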