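import Vale.Agent.P150.Beyond.Stability.Event
import Vale.Agent.P150.Fast.Bridge

/-!
# P150 beyond one half: calculus of the TAP free energy

Strong convexity from the Hessian bound, and the interior stationary point of the tilted free energy.
-/

open Finset MeasureTheory Real Filter Topology

namespace Vale.Agent.P150.Beyond.Stability

open Vale.Agent.P150.Fast Vale.Agent.P150.Beyond

variable {n : ℕ}

/-- The derivative of `binEnt`. -/
noncomputable def slope (m : ℝ) : ℝ := (Real.log (1 + m) - Real.log (1 - m)) / 2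

theorem slope_neg (m : ℝ) : slope (-m) = -slope m := by
  simp only [slope, sub_neg_eq_add, ← sub_eq_add_neg]
  ring

theorem hasDerivAt_binEnt {m : ℝ} (hm : |m| < 1) : HasDerivAt binEnt (slope m) m := by
  obtain ⟨h1, h2⟩ := abs_lt.1 hm
  have d1 : HasDerivAt (fun x : ℝ => 1 + x) 1 m := (hasDerivAt_id' m).const_add 1
  have d2 : HasDerivAt (fun x : ℝ => 1 - x) (-1) m := (hasDerivAt_id' m).const_sub 1
  refine (((hasDerivAt_mul_log (by linarith : (1 + m) ≠ 0)).comp m d1).add
    ((hasDerivAt_mul_log (by linarith : (1 - m) ≠ 0)).comp m d2) |>.div_const 2).congr_deriv ?_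
  rw [slope]
  ring

theorem hasDerivAt_slope {m : ℝ} (hm : |m| < 1) : HasDerivAt slope (1 / (1 - m ^ 2)) m := by
  obtain ⟨h1, h2⟩ := abs_lt.1 hm
  have e1 : (1 + m) ≠ 0 := by linarith
  have e2 : (1 - m) ≠ 0 := by linarith
  have d1 : HasDerivAt (fun x : ℝ => 1 + x) 1 m := (hasDerivAt_id' m).const_add 1
  have d2 : HasDerivAt (fun x : ℝ => 1 - x) (-1) m := (hasDerivAt_id' m).const_sub 1
  refine (((d1.log e1).sub (d2.log e2)).div_const 2).congr_deriv ?_
  rw [show 1 - m ^ 2 = (1 + m) * (1 - m) by ring]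
  field_simp
  ring

theorem continuous_binEnt : Continuous binEnt := by
  have h := continuous_mul_log
  exact ((h.comp (continuous_const.add continuous_id)).add
    (h.comp (continuous_const.sub continuous_id))).div_const 2

theorem continuous_tap (θ : ℝ) (g : Edge n → ℝ) : Continuous (tap θ g) := by
  have := continuous_binEnt
  unfold tap qOf
  fun_prop

/-- The bilinear form of the couplings. -/
noncomputable def bil (g : Edge n → ℝ) (a b : Fin n → ℝ) : ℝ :=
  ∑ i, ∑ j, skMat n 1 g i j * a i * b j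

theorem bil_comm (g : Edge n → ℝ) (a b : Fin n → ℝ) : bil g a b = bil g b a := by
  rw [bil, bil, Finset.sum_comm]
  exact Finset.sum_congr rfl fun i _ => Finset.sum_congr rfl fun j _ => by
    rw [(isCoupling_skMat n 1 g).1 j i]; ring

theorem bil_line (g : Edge n → ℝ) (m d : Fin n → ℝ) (r : ℝ) :
    bil g (fun i => m i + r * d i) (fun i => m i + r * d i)
      = bil g m m + 2 * r * bil g m d + r ^ 2 * bil g d d := by
  have e : bil g (fun i => m i + r * d i) (fun i => m i + r * d i)
      = bil g m m + r * bil g m d + r * bil g d m + r ^ 2 * bil g d d := by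
    simp only [bil, Finset.mul_sum, ← Finset.sum_add_distrib]
    exact Finset.sum_congr rfl fun i _ => Finset.sum_congr rfl fun j _ => by ring
  rw [e, bil_comm g d m]
  ring

/-- The first derivative of the free energy along a line. -/
noncomputable def tapD (θ : ℝ) (g : Edge n → ℝ) (m d : Fin n → ℝ) (r : ℝ) : ℝ :=
  (∑ i, slope (m i + r * d i) * d i) - θ * (bil g m d + r * bil g d d)
    + θ ^ 2 * (1 - qOf fun i => m i + r * d i) * ∑ i, (m i + r * d i) * d i

theorem hasDerivAt_qOf_line (m d : Fin n → ℝ) (r : ℝ) :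
    HasDerivAt (fun r => qOf fun i => m i + r * d i)
      (2 * (∑ i, (m i + r * d i) * d i) / n) r := by
  have hl : ∀ i, HasDerivAt (fun r => m i + r * d i) (d i) r := fun i => by
    simpa using ((hasDerivAt_id r).mul_const (d i)).const_add (m i)
  refine ((HasDerivAt.fun_sum fun i _ => (hl i).pow 2).div_const (n : ℝ)).congr_deriv ?_
  rw [Finset.mul_sum]
  congr 1
  exact Finset.sum_congr rfl fun i _ => by simp; ring

theorem hasDerivAt_tap_line (θ : ℝ) (g : Edge n → ℝ) (hn : 0 < n) (m d : Fin n → ℝ) {r : ℝ}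
    (hr : ∀ i, d i = 0 ∨ |m i + r * d i| < 1) :
    HasDerivAt (fun r => tap θ g fun i => m i + r * d i) (tapD θ g m d r) r := by
  have h1 : ∀ i, HasDerivAt (fun r => binEnt (m i + r * d i)) (slope (m i + r * d i) * d i) r := fun i => by
    rcases hr i with h | h
    · simp only [h, mul_zero, add_zero]
      exact hasDerivAt_const r _
    · have hl : HasDerivAt (fun r => m i + r * d i) (d i) r := by
        simpa using ((hasDerivAt_id r).mul_const (d i)).const_add (m i)
      exact (hasDerivAt_binEnt h).comp r hl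
  have h2 : HasDerivAt (fun r => bil g m m + 2 * r * bil g m d + r ^ 2 * bil g d d)
      (2 * bil g m d + 2 * r * bil g d d) r := by
    refine ((((hasDerivAt_id r).const_mul 2).mul_const (bil g m d)).const_add (bil g m m)).add
      ((hasDerivAt_pow 2 r).mul_const (bil g d d)) |>.congr_deriv ?_
    simp
  have h3 := ((hasDerivAt_qOf_line m d r).const_sub 1).pow 2
  refine (((HasDerivAt.fun_sum (u := univ) fun i _ => h1 i).sub ((h2.const_mul (θ / 2)))).sub
    (h3.const_mul ((n : ℝ) * θ ^ 2 / 4))).congr_of_eventuallyEq (Eventually.of_forall fun r => ?_) |>.congr_deriv ?_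
  · simp only [tap, Pi.sub_apply, Pi.pow_apply]
    rw [← bil_line]
    rfl
  · have hn' : (n : ℝ) ≠ 0 := by exact_mod_cast hn.ne'
    simp only [tapD]
    field_simp
    ring

theorem hasDerivAt_tapD (θ : ℝ) (g : Edge n → ℝ) (m d : Fin n → ℝ) {r : ℝ}
    (hr : ∀ i, |m i + r * d i| < 1) :
    HasDerivAt (tapD θ g m d) (hess θ g (fun i => m i + r * d i) d) r := by
  have hl : ∀ i, HasDerivAt (fun r => m i + r * d i) (d i) r := fun i => by
    simpa using ((hasDerivAt_id r).mul_const (d i)).const_add (m i)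
  have h1 := HasDerivAt.fun_sum (u := univ) fun i (_ : i ∈ univ) =>
    ((hasDerivAt_slope (hr i)).comp r (hl i)).mul_const (d i)
  have h2 : HasDerivAt (fun r => θ * (bil g m d + r * bil g d d)) (θ * bil g d d) r := by
    simpa using (((hasDerivAt_id r).mul_const (bil g d d)).const_add (bil g m d)).const_mul θ
  have h3 := HasDerivAt.fun_sum (u := univ) fun i (_ : i ∈ univ) => (hl i).mul_const (d i)
  refine ((h1.sub h2).add ((((hasDerivAt_qOf_line m d r).const_sub 1).const_mul (θ ^ 2)).mul h3)).congr_deriv ?_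
  simp only [hess, bil]
  have e1 : ∑ i, 1 / (1 - (m i + r * d i) ^ 2) * d i * d i = ∑ i, d i ^ 2 / (1 - (m i + r * d i) ^ 2) :=
    Finset.sum_congr rfl fun i _ => by ring
  have e2 : ∑ i, d i * d i = ∑ i, d i ^ 2 := Finset.sum_congr rfl fun i _ => by ring
  rw [e1, e2]
  ring

/-- The Hessian bound at one strength. -/
def HessBelow (θ : ℝ) (g : Edge n → ℝ) (c : ℝ) : Prop :=
  ∀ m v : Fin n → ℝ, (∀ i, |m i| < 1) → c * ∑ i, v i ^ 2 ≤ hess θ g m v

theorem line_abs_lt {a b r : ℝ} (ha : |a| < 1) (hb : |b| < 1) (h0 : 0 ≤ r) (h1 : r ≤ 1) :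
    |a + r * (b - a)| < 1 := by
  have e : a + r * (b - a) = (1 - r) * a + r * b := by ring
  rw [e, abs_lt]
  obtain ⟨a1, a2⟩ := abs_lt.1 ha
  obtain ⟨b1, b2⟩ := abs_lt.1 hb
  rcases eq_or_lt_of_le h0 with rfl | h0'
  · constructor <;> linarith
  constructor <;>
    nlinarith [mul_le_mul_of_nonneg_left a1.le (sub_nonneg.2 h1), mul_le_mul_of_nonneg_left a2.le (sub_nonneg.2 h1),
      mul_lt_mul_of_pos_left b1 h0', mul_lt_mul_of_pos_left b2 h0']

/-- Strong convexity on the open cube. -/
theorem tap_strong {θ c : ℝ} {g : Edge n → ℝ} (hn : 0 < n) (hH : HessBelow θ g c) {x y : Fin n → ℝ}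
    (hx : ∀ i, |x i| < 1) (hy : ∀ i, |y i| < 1) {t : ℝ} (ht0 : 0 ≤ t) (ht1 : t ≤ 1) :
    tap θ g (fun i => x i + t * (y i - x i)) + c / 2 * (t * (1 - t)) * ∑ i, (y i - x i) ^ 2
      ≤ (1 - t) * tap θ g x + t * tap θ g y := by
  set d : Fin n → ℝ := fun i => y i - x i
  set S := ∑ i, d i ^ 2
  have hin : ∀ r ∈ Set.Icc (0 : ℝ) 1, ∀ i, |x i + r * d i| < 1 :=
    fun r hr i => line_abs_lt (hx i) (hy i) hr.1 hr.2
  have hd1 : ∀ r ∈ Set.Icc (0 : ℝ) 1, HasDerivAt
      (fun r => tap θ g (fun i => x i + r * d i) - c / 2 * S * r ^ 2) (tapD θ g x d r - c * S * r) r :=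
    fun r hr => ((hasDerivAt_tap_line θ g hn x d fun i => Or.inr (hin r hr i)).sub
      ((hasDerivAt_pow 2 r).const_mul (c / 2 * S))).congr_deriv (by simp; ring)
  have hd2 : ∀ r ∈ Set.Icc (0 : ℝ) 1, HasDerivAt (fun r => tapD θ g x d r - c * S * r)
      (hess θ g (fun i => x i + r * d i) d - c * S) r :=
    fun r hr => ((hasDerivAt_tapD θ g x d (hin r hr)).sub
      ((hasDerivAt_id r).const_mul (c * S))).congr_deriv (by simp)
  have hcv : ConvexOn ℝ (Set.Icc (0 : ℝ) 1) (fun r => tap θ g (fun i => x i + r * d i) - c / 2 * S * r ^ 2) := by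
    refine convexOn_of_hasDerivWithinAt2_nonneg (convex_Icc _ _)
      (fun r hr => (hd1 r hr).continuousAt.continuousWithinAt)
      (fun r hr => (hd1 r (interior_subset hr)).hasDerivWithinAt)
      (fun r hr => (hd2 r (interior_subset hr)).hasDerivWithinAt) fun r hr => ?_
    exact sub_nonneg.2 (hH _ d (hin r (interior_subset hr)))
  have h := hcv.2 (Set.left_mem_Icc.2 zero_le_one) (Set.right_mem_Icc.2 zero_le_one) (sub_nonneg.2 ht1) ht0
    (by ring)
  have e0 : (fun i => x i + 0 * d i) = x := funext fun i => by ring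
  have e1 : (fun i => x i + 1 * d i) = y := funext fun i => by simp [d]
  simp only [smul_eq_mul, mul_zero, mul_one, zero_add, e0, e1, one_pow, zero_pow two_ne_zero, sub_zero] at h
  linarith

/-- Midpoint form of strong convexity. -/
theorem tap_mid {θ c : ℝ} {g : Edge n → ℝ} (hn : 0 < n) (hH : HessBelow θ g c) {x y : Fin n → ℝ}
    (hx : ∀ i, |x i| < 1) (hy : ∀ i, |y i| < 1) :
    tap θ g (fun i => (x i + y i) / 2) + c / 8 * ∑ i, (x i - y i) ^ 2 ≤ (tap θ g x + tap θ g y) / 2 := by
  have h := tap_strong hn hH hx hy (t := 1 / 2) (by norm_num) (by norm_num)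
  rw [show (fun i => x i + 1 / 2 * (y i - x i)) = fun i => (x i + y i) / 2 from funext fun i => by ring,
    show ∑ i, (y i - x i) ^ 2 = ∑ i, (x i - y i) ^ 2 from Finset.sum_congr rfl fun i _ => by ring] at h
  linarith

theorem tap_convex {θ c : ℝ} {g : Edge n → ℝ} (hn : 0 < n) (hc : 0 ≤ c) (hH : HessBelow θ g c) :
    ConvexOn ℝ (Set.Icc (-1 : Fin n → ℝ) 1) (tap θ g) := by
  refine ⟨convex_Icc _ _, fun x hx y hy a b ha hb hab => ?_⟩
  have hmem : ∀ {z : Fin n → ℝ}, z ∈ Set.Icc (-1 : Fin n → ℝ) 1 → ∀ δ ∈ Set.Ioo (0 : ℝ) 1,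
      ∀ i, |δ * z i| < 1 := fun {z} hz δ hδ i => by
    have : |z i| ≤ 1 := abs_le.2 ⟨hz.1 i, hz.2 i⟩
    rw [abs_mul, abs_of_pos hδ.1]
    exact lt_of_le_of_lt (mul_le_of_le_one_right hδ.1.le this) hδ.2
  have key : ∀ δ ∈ Set.Ioo (0 : ℝ) 1,
      tap θ g (δ • (a • x + b • y)) ≤ a * tap θ g (δ • x) + b * tap θ g (δ • y) := fun δ hδ => by
    have h := tap_strong hn hH (x := δ • x) (y := δ • y) (hmem hx δ hδ) (hmem hy δ hδ) hb (by linarith)
    rw [show (fun i => (δ • x) i + b * ((δ • y) i - (δ • x) i)) = δ • (a • x + b • y) from funext fun i => by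
      simp [← hab]; rw [show a = 1 - b by linarith]; ring, show 1 - b = a by linarith] at h
    have h0 : 0 ≤ c / 2 * (b * a) * ∑ i, ((δ • y) i - (δ • x) i) ^ 2 := by positivity
    linarith
  have hlim : ∀ z : Fin n → ℝ, Tendsto (fun δ : ℝ => tap θ g (δ • z)) (𝓝[<] 1) (𝓝 (tap θ g z)) := fun z => by
    have : Continuous fun δ : ℝ => tap θ g (δ • z) :=
      (continuous_tap θ g).comp (continuous_id.smul continuous_const)
    exact (this.tendsto' 1 _ (by rw [one_smul])).mono_left nhdsWithin_le_nhds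
  exact le_of_tendsto_of_tendsto (hlim _) (((hlim x).const_mul a).add ((hlim y).const_mul b))
    (Filter.mem_of_superset (Ioo_mem_nhdsLT zero_lt_one) fun δ hδ => key δ hδ)

/-- The tilted free energy. -/
noncomputable def tilted (θ : ℝ) (g : Edge n → ℝ) (h m : Fin n → ℝ) : ℝ :=
  tap θ g m - ∑ i, h i * m i

theorem hasDerivAt_tilted_line (θ : ℝ) (g : Edge n → ℝ) (hn : 0 < n) (h m d : Fin n → ℝ) {r : ℝ}
    (hr : ∀ i, d i = 0 ∨ |m i + r * d i| < 1) :
    HasDerivAt (fun r => tilted θ g h fun i => m i + r * d i) (tapD θ g m d r - ∑ i, h i * d i) r := by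
  refine (hasDerivAt_tap_line θ g hn m d hr).sub (HasDerivAt.fun_sum fun i _ => ?_)
  simpa using (((hasDerivAt_id r).mul_const (d i)).const_add (m i)).const_mul (h i)

theorem tapD_single (θ : ℝ) (g : Edge n → ℝ) (m : Fin n → ℝ) (k : Fin n) (w r : ℝ) :
    tapD θ g m (Pi.single k w) r = slope (m k + r * w) * w - θ * (∑ j, skMat n 1 g k j * m j) * w
      + θ ^ 2 * (1 - qOf fun i => m i + r * Pi.single (M := fun _ => ℝ) k w i) * ((m k + r * w) * w) := by
  have e1 : ∀ F : Fin n → ℝ, ∑ i, F i * Pi.single (M := fun _ => ℝ) k w i = F k * w := fun F => by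
    simp [Pi.single_apply]
  have e2 : bil g (Pi.single k w) (Pi.single k w) = 0 := by
    simp [bil, Pi.single_apply, (isCoupling_skMat n 1 g).2]
  have e3 : bil g m (Pi.single k w) = (∑ j, skMat n 1 g k j * m j) * w := by
    rw [bil_comm, bil, Finset.sum_eq_single k (fun i _ hi => by simp [hi]) (by simp), Finset.sum_mul]
    exact Finset.sum_congr rfl fun j _ => by simp; ring
  simp only [tapD, e1, e2, e3, Pi.single_eq_same]
  ring

/-- A stationary minimiser of the tilted free energy, in the open cube. -/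
theorem exists_stationary (θ : ℝ) (g : Edge n → ℝ) (hn : 0 < n) (h : Fin n → ℝ) :
    ∃ m : Fin n → ℝ, (∀ i, |m i| < 1) ∧
      (∀ i, slope (m i) = h i + θ * (∑ j, skMat n 1 g i j * m j) - θ ^ 2 * (1 - qOf m) * m i) ∧
      ∀ m' : Fin n → ℝ, (∀ i, |m' i| ≤ 1) → tilted θ g h m ≤ tilted θ g h m' := by
  have hne : (Set.Icc (-1 : Fin n → ℝ) 1).Nonempty := ⟨0, by simp [Set.mem_Icc, Pi.le_def]⟩
  have hcont : Continuous (tilted θ g h) := by
    have := continuous_tap θ g
    unfold tilted
    fun_prop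
  obtain ⟨m, hm, hmin⟩ := isCompact_Icc.exists_isMinOn hne hcont.continuousOn
  have hmin' : ∀ m' : Fin n → ℝ, (∀ i, |m' i| ≤ 1) → tilted θ g h m ≤ tilted θ g h m' := fun m' h' =>
    hmin ⟨fun i => (abs_le.1 (h' i)).1, fun i => (abs_le.1 (h' i)).2⟩
  have hab : ∀ i, |m i| ≤ 1 := fun i => abs_le.2 ⟨hm.1 i, hm.2 i⟩
  have hopen : ∀ i, |m i| < 1 := by
    intro k
    by_contra hk
    have hk1 : |m k| = 1 := le_antisymm (hab k) (not_lt.1 hk)
    set w : ℝ := -m k with hw
    have hw2 : w * w = 1 := by rw [hw, neg_mul_neg, ← sq, ← sq_abs, hk1, one_pow]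
    set d : Fin n → ℝ := Pi.single k w
    set B := |θ * ∑ j, skMat n 1 g k j * m j| + |h k| + 2 * θ ^ 2 + 1
    set r0 := exp (-2 * B) with hr0
    have hB : 1 ≤ B := by
      have := abs_nonneg (θ * ∑ j, skMat n 1 g k j * m j)
      have := abs_nonneg (h k)
      simp only [B]
      nlinarith
    have hr0' : r0 < 1 := exp_lt_one_iff.2 (by linarith)
    have hval : ∀ r : ℝ, m k + r * w = m k * (1 - r) := fun r => by rw [hw]; ring
    have hin : ∀ r : ℝ, 0 ≤ r → r ≤ 1 → ∀ i, |m i + r * d i| ≤ 1 := fun r h0 h1 i => by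
      rcases eq_or_ne i k with rfl | hi
      · simp only [d, Pi.single_eq_same, hval, abs_mul, hk1, one_mul]
        rw [abs_le]; constructor <;> linarith
      · simp only [d, Pi.single_eq_of_ne hi, mul_zero, add_zero]; exact hab i
    have hneg : ∀ r ∈ Set.Ioo (0 : ℝ) r0, deriv (fun r => tilted θ g h fun i => m i + r * d i) r < 0 := by
      intro r hr
      have hdr : ∀ i, d i = 0 ∨ |m i + r * d i| < 1 := fun i => by
        rcases eq_or_ne i k with rfl | hi
        · refine Or.inr ?_
          simp only [d, Pi.single_eq_same, hval, abs_mul, hk1, one_mul]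
          rw [abs_lt]; constructor <;> linarith [hr.1, hr.2]
        · exact Or.inl (by simp [d, Pi.single_eq_of_ne hi])
      rw [(hasDerivAt_tilted_line θ g hn h m d hdr).deriv, tapD_single, hval]
      simp only [d, Pi.single_apply, mul_ite, mul_zero, Finset.sum_ite_eq', Finset.mem_univ, if_true]
      have hs : slope (m k * (1 - r)) * w = -slope (1 - r) := by
        rcases abs_eq (zero_le_one) |>.1 hk1 with e | e
        · simp [e, hw]
        · rw [hw, e, neg_neg, mul_one, neg_one_mul, slope_neg]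
      have hbig : B ≤ slope (1 - r) := by
        rw [slope, show 1 - (1 - r) = r by ring, show 1 + (1 - r) = 2 - r by ring]
        have h1 : Real.log r ≤ -2 * B := by
          rw [← log_exp (-2 * B)]
          exact Real.log_le_log hr.1 hr.2.le
        have h2 : 0 ≤ Real.log (2 - r) := Real.log_nonneg (by linarith [hr.2])
        linarith
      rw [hs]
      set q := qOf fun i => m i + if i = k then r * w else 0
      have hq : |1 - q| ≤ 2 := by
        have h0 : 0 ≤ q := by simp only [q, qOf]; positivity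
        have h1 : q ≤ 1 := by
          simp only [q, qOf]
          rw [div_le_one (by exact_mod_cast hn)]
          refine (Finset.sum_le_sum (g := fun _ => (1 : ℝ)) fun i _ => ?_).trans (by simp)
          have := hin r hr.1.le (by linarith [hr.2]) i
          simp only [d, Pi.single_apply, mul_ite, mul_zero] at this
          exact (sq_le_one_iff_abs_le_one _).2 this
        rw [abs_le]; constructor <;> linarith
      have habw : |w| = 1 := by rw [hw, abs_neg, hk1]
      have t1 : |θ * (∑ j, skMat n 1 g k j * m j) * w| = |θ * ∑ j, skMat n 1 g k j * m j| := by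
        rw [abs_mul, habw, mul_one]
      have t2 : |h k * w| = |h k| := by rw [abs_mul, habw, mul_one]
      have t3 : |θ ^ 2 * (1 - q) * (m k * (1 - r) * w)| ≤ 2 * θ ^ 2 := by
        have : |m k * (1 - r) * w| ≤ 1 := by
          rw [abs_mul, abs_mul, hk1, habw, one_mul, mul_one, abs_le]
          constructor <;> linarith [hr.1, hr.2]
        rw [abs_mul, abs_mul, abs_of_nonneg (sq_nonneg θ)]
        calc θ ^ 2 * |1 - q| * |m k * (1 - r) * w| ≤ θ ^ 2 * 2 * 1 := by gcongr
          _ = 2 * θ ^ 2 := by ring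
      linarith [neg_abs_le (θ * (∑ j, skMat n 1 g k j * m j) * w), neg_abs_le (h k * w),
        le_abs_self (θ ^ 2 * (1 - q) * (m k * (1 - r) * w)),
        show B = |θ * ∑ j, skMat n 1 g k j * m j| + |h k| + 2 * θ ^ 2 + 1 from rfl]
    have hanti := strictAntiOn_of_deriv_neg (convex_Icc (0 : ℝ) r0)
      (f := fun r => tilted θ g h fun i => m i + r * d i) (hcont.comp (by fun_prop)).continuousOn
      (by rw [interior_Icc]; exact hneg)
    have h1 := hanti (Set.left_mem_Icc.2 (exp_pos _).le) (Set.right_mem_Icc.2 (exp_pos _).le) (exp_pos _)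
    simp only [zero_mul, add_zero] at h1
    exact absurd (hmin' _ (hin r0 (exp_pos _).le hr0'.le)) (not_le.2 h1)
  refine ⟨m, hopen, fun k => ?_, hmin'⟩
  have hd := hasDerivAt_tilted_line θ g hn h m (Pi.single k 1) (r := 0) fun i => Or.inr (by simpa using hopen i)
  have hloc : IsLocalMin (fun r : ℝ => tilted θ g h fun i => m i + r * Pi.single (M := fun _ => ℝ) k 1 i) 0 := by
    have hev : ∀ᶠ r : ℝ in 𝓝 0, |m k + r * 1| < 1 :=
      (isOpen_lt (by fun_prop) continuous_const).mem_nhds (by simpa using hopen k)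
    filter_upwards [hev] with r hr
    simp only [zero_mul, add_zero]
    refine hmin' _ fun i => ?_
    rcases eq_or_ne i k with rfl | hi
    · simpa using hr.le
    · simpa [Pi.single_eq_of_ne hi] using hab i
  have h0 := hloc.hasDerivAt_eq_zero hd
  rw [tapD_single] at h0
  simp [Pi.single_apply] at h0
  linarith

end Vale.Agent.P150.Beyond.Stability
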