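import Vale.Agent.P150.Gauss
import Vale.Agent.P245.Rotation

/-!
# P150 beyond one half: deviations of a log partition function in the Gaussian couplings

The Maurey-Pisier inequality, in the form `P (f >= u) P (f <= u - s) <= exp (-2 s^2 / (pi^2 L))`.
-/

open MeasureTheory ProbabilityTheory Real
open scoped ENNReal RealInnerProductSpace

namespace Vale.Agent.P150.Beyond.Stability

/-- The log partition function of weights `c` and coefficient vectors `a`. -/
noncomputable def lse {κ ι : Type*} [Fintype κ] [Fintype ι] (c : ι → ℝ) (a : ι → κ → ℝ) (g : κ → ℝ) : ℝ :=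
  log (∑ ω, c ω * exp (∑ e, g e * a ω e))

variable {κ ι : Type*} [Fintype κ] [Fintype ι] {c : ι → ℝ} {a : ι → κ → ℝ}

theorem lse_sum_pos (hc : ∀ ω, 0 ≤ c ω) (hpos : 0 < ∑ ω, c ω) (t : ι → ℝ) :
    0 < ∑ ω, c ω * exp (t ω) := by
  obtain ⟨ω, -, hω⟩ := Finset.exists_lt_of_sum_lt (s := Finset.univ) (f := fun _ => (0 : ℝ)) (g := c)
    (by simpa using hpos)
  exact Finset.sum_pos' (fun ω _ => mul_nonneg (hc ω) (exp_pos _).le)
    ⟨ω, Finset.mem_univ ω, mul_pos hω (exp_pos _)⟩

theorem measurable_lse : Measurable (lse c a) := by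
  unfold lse
  fun_prop

theorem lse_dev (hc : ∀ ω, 0 ≤ c ω) (hpos : 0 < ∑ ω, c ω) {L : ℝ} (hL : 0 < L)
    (ha : ∀ ω, c ω ≠ 0 → ∑ e, a ω e ^ 2 ≤ L) (u : ℝ) {s : ℝ} (hs : 0 ≤ s) :
    (stdPi κ).real {g | u ≤ lse c a g} * (stdPi κ).real {g | lse c a g ≤ u - s}
      ≤ exp (-2 * s ^ 2 / (π ^ 2 * L)) := by
  set T : (κ → ℝ) → EuclideanSpace ℝ κ := WithLp.toLp 2 with hT
  set v : ι → EuclideanSpace ℝ κ := fun ω => T (a ω) with hv
  set S : EuclideanSpace ℝ κ → ℝ := fun X => ∑ ω, c ω * exp ⟪v ω, X⟫ with hS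
  have hSpos : ∀ X, 0 < S X := fun X => lse_sum_pos hc hpos _
  set l := 4 * s / (π ^ 2 * L) with hl
  set f : EuclideanSpace ℝ κ → ℝ := fun X => l * log (S X)
  set G : EuclideanSpace ℝ κ → EuclideanSpace ℝ κ := fun X =>
    (l / S X) • ∑ ω, (c ω * exp ⟪v ω, X⟫) • v ω with hG
  have hd : ∀ X, HasFDerivAt f (innerSL ℝ (G X)) X := fun X => by
    have h1 := (HasFDerivAt.fun_sum (u := Finset.univ) fun ω (_ : ω ∈ Finset.univ) =>
      (((innerSL ℝ (v ω)).hasFDerivAt (x := X)).exp.const_mul (c ω))).log (hSpos X).ne'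
    refine (h1.const_mul l).congr_fderiv ?_
    ext Y
    simp only [hG, hS, map_smul, map_sum, smul_eq_mul, ContinuousLinearMap.coe_smul',
      ContinuousLinearMap.coe_sum', Pi.smul_apply, Finset.sum_apply, innerSL_apply_apply,
      Finset.mul_sum]
    exact Finset.sum_congr rfl fun ω _ => by ring
  have hGc : Continuous G := by
    have hSc : Continuous S := by simp only [hS]; fun_prop
    exact (continuous_const.div hSc fun X => (hSpos X).ne').smul (by fun_prop)
  have hGn : ∀ X, ‖G X‖ ^ 2 ≤ l ^ 2 * L := fun X => by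
    have h1 : ‖∑ ω, (c ω * exp ⟪v ω, X⟫) • v ω‖ ≤ S X * √L := by
      rw [hS, Finset.sum_mul]
      refine (norm_sum_le _ _).trans (Finset.sum_le_sum fun ω _ => ?_)
      rw [norm_smul, Real.norm_of_nonneg (mul_nonneg (hc ω) (exp_pos _).le)]
      by_cases h0 : c ω = 0
      · simp [h0]
      · refine mul_le_mul_of_nonneg_left ?_ (mul_nonneg (hc ω) (exp_pos _).le)
        rw [EuclideanSpace.norm_eq]
        refine sqrt_le_sqrt ((le_of_eq ?_).trans (ha ω h0))
        simp [hv, hT]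
    rw [hG, norm_smul, mul_pow, Real.norm_eq_abs, sq_abs, div_pow]
    calc l ^ 2 / S X ^ 2 * ‖∑ ω, (c ω * exp ⟪v ω, X⟫) • v ω‖ ^ 2
        ≤ l ^ 2 / S X ^ 2 * (S X * √L) ^ 2 := by gcongr
      _ = l ^ 2 * L := by
          rw [mul_pow, sq_sqrt hL.le]
          field_simp [(hSpos X).ne']
  have hmp := Vale.Agent.P245.lintegral_exp_sub_le hd hGc
  have hmap : (stdPi κ).map T = stdGaussian (EuclideanSpace ℝ κ) := map_pi_eq_stdGaussian
  have hTm : Measurable T := by simp only [hT]; fun_prop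
  have hfT : ∀ g, f (T g) = l * lse c a g := fun g => by
    simp only [f, hS, hv, hT, lse, PiLp.inner_apply, RCLike.inner_apply, conj_trivial]
  have hfm : Measurable f := by
    simp only [f, hS]; fun_prop
  have hA : MeasurableSet {g : κ → ℝ | u ≤ lse c a g} := measurableSet_le measurable_const measurable_lse
  have hB : MeasurableSet {g : κ → ℝ | lse c a g ≤ u - s} := measurableSet_le measurable_lse measurable_const
  have hbound : ENNReal.ofReal (exp (l * s)) *
      ((stdPi κ) {g | u ≤ lse c a g} * (stdPi κ) {g | lse c a g ≤ u - s})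
      ≤ ENNReal.ofReal (exp (π ^ 2 / 8 * (l ^ 2 * L))) := by
    have h2 : ∫⁻ x, ENNReal.ofReal (exp (π ^ 2 / 8 * ‖G x‖ ^ 2)) ∂stdGaussian (EuclideanSpace ℝ κ)
        ≤ ENNReal.ofReal (exp (π ^ 2 / 8 * (l ^ 2 * L))) := by
      refine (lintegral_mono fun x => ENNReal.ofReal_le_ofReal (exp_le_exp.2
        (mul_le_mul_of_nonneg_left (hGn x) (by positivity)))).trans ?_
      simp
    refine le_trans ?_ (hmp.trans h2)
    rw [← hmap, Measure.map_prod_map _ _ hTm hTm, lintegral_map (by fun_prop) (hTm.prodMap hTm),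
      ← Measure.prod_prod, ← setLIntegral_const]
    refine (setLIntegral_mono (by fun_prop) fun p hp => ?_).trans (setLIntegral_le_lintegral _ _)
    simp only [Prod.map, hfT]
    refine ENNReal.ofReal_le_ofReal (exp_le_exp.2 ?_)
    rw [← mul_sub]
    obtain ⟨hp1, hp2⟩ := hp
    simp only [Set.mem_ofPred_eq] at hp1 hp2
    refine mul_le_mul_of_nonneg_left ?_ (by rw [hl]; positivity)
    linarith
  have h3 := ENNReal.toReal_mono ENNReal.ofReal_ne_top hbound
  rw [ENNReal.toReal_mul, ENNReal.toReal_mul, ENNReal.toReal_ofReal (exp_pos _).le,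
    ENNReal.toReal_ofReal (exp_pos _).le] at h3
  rw [← le_div_iff₀' (exp_pos _), ← exp_sub] at h3
  refine h3.trans (exp_le_exp.2 (le_of_eq ?_))
  rw [hl]
  field_simp
  ring

end Vale.Agent.P150.Beyond.Stability
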