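import Vale.Agent.P150.Beyond.Compare
import Vale.Agent.P150.Beyond.Squares

/-!
# P150 beyond one half: the Hessian of the TAP free energy is positive up to `3/5`

One event of the couplings, obtained by Gaussian comparison and a weak law of large numbers.
-/

open Finset MeasureTheory ProbabilityTheory Real Filter Topology

namespace Vale.Agent.P150.Beyond.Stability

open Vale.Agent.P150.Fast Vale.Agent.P150.Beyond

variable {n : ℕ}

/-- The Hessian of the TAP free energy as a quadratic form. -/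
noncomputable def hess (θ : ℝ) (g : Edge n → ℝ) (m v : Fin n → ℝ) : ℝ :=
  (∑ i, v i ^ 2 / (1 - m i ^ 2)) + θ ^ 2 * (1 - qOf m) * (∑ i, v i ^ 2)
    - 2 * θ ^ 2 / n * (∑ i, m i * v i) ^ 2 - θ * ∑ i, ∑ j, skMat n 1 g i j * v i * v j

theorem form_eq_quad (g : Edge n → ℝ) (v : Fin n → ℝ) :
    ∑ i, ∑ j, skMat n 1 g i j * v i * v j = quad g v / √(n : ℝ) := by
  rw [← quad_eq]
  simp only [Finset.sum_div]
  exact Finset.sum_congr rfl fun i _ => Finset.sum_congr rfl fun j _ => by rw [skMat_eq]; ring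

theorem quad_smul (g : Edge n → ℝ) (c : ℝ) (v : Fin n → ℝ) :
    quad g (fun i => c * v i) = c ^ 2 * quad g v := by
  rw [quad, quad, Finset.mul_sum]
  exact Finset.sum_congr rfl fun e _ => by ring

theorem sum_tail {φ : ℝ → ℝ} (hφm : Measurable φ) (hφ : Integrable (fun x => φ x ^ 2) std) {a : ℝ}
    (ha : ∫ x, φ x ∂std < a) {η : ℝ} (hη : 0 < η) :
    ∃ n₀ : ℕ, ∀ n ≥ n₀, (stdPi (Fin n)).real {z | (n : ℝ) * a ≤ ∑ i, φ (z i)} ≤ η := by
  have hφ1 : Integrable φ std :=
    (memLp_two_iff_integrable_sq hφm.aestronglyMeasurable).2 hφ |>.integrable (by norm_num)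
  set e := ∫ x, φ x ∂std
  set ψ : ℝ → ℝ := fun x => φ x - e
  have hψ2 : Integrable (fun x => ψ x ^ 2) std := by
    have h := (hφ.sub (hφ1.const_mul (2 * e))).add (integrable_const (e ^ 2))
    exact h.congr (Eventually.of_forall fun x => by simp [ψ]; ring)
  have hψ0 : ∫ x, ψ x ∂std = 0 := by
    simp only [ψ]
    rw [integral_sub hφ1 (integrable_const _)]
    simp [e]
  set V := ∫ x, ψ x ^ 2 ∂std
  refine ⟨⌈V / ((a - e) ^ 2 * η)⌉₊ + 1, fun n hn => ?_⟩
  have hn' : V / ((a - e) ^ 2 * η) < n := (Nat.le_ceil _).trans_lt (by exact_mod_cast hn)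
  have hn0 : (0 : ℝ) < n := by exact_mod_cast (by omega : 0 < n)
  have hψm : Measurable ψ := hφm.sub_const e
  have hij : ∀ i j : Fin n, Integrable (fun z => ψ (z i) * ψ (z j)) (stdPi (Fin n)) := fun i j => by
    refine Integrable.mono' (((measurePreserving_coord i).integrable_comp_of_integrable hψ2).add
      ((measurePreserving_coord j).integrable_comp_of_integrable hψ2))
      ((hψm.comp (measurable_pi_apply i)).mul (hψm.comp (measurable_pi_apply j))).aestronglyMeasurable
      (Eventually.of_forall fun z => ?_)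
    simp only [Pi.add_apply, Real.norm_eq_abs, Function.comp_apply]
    rw [abs_le]
    constructor <;> nlinarith [sq_nonneg (ψ (z i) + ψ (z j)), sq_nonneg (ψ (z i) - ψ (z j))]
  have hsq : ∫ z, (∑ i, ψ (z i)) ^ 2 ∂stdPi (Fin n) = n * V := by
    simp only [sq, Finset.sum_mul_sum]
    rw [integral_finsetSum _ fun i _ => integrable_finsetSum _ fun j _ => hij i j]
    refine (Finset.sum_congr rfl fun i _ => ?_).trans (by simp : ∑ _i : Fin n, V = n * V)
    rw [integral_finsetSum _ fun j _ => hij i j, Finset.sum_eq_single i (fun j _ hj => ?_) (by simp)]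
    · simp only [← sq]
      exact integral_coord i hψ2.1
    · rw [integral_coord_factor i ψ (fun z => ψ (z j)) (hij i j)
        (fun z x => by simp [Function.update_of_ne hj]), hψ0, zero_mul]
  have hint : Integrable (fun z => (∑ i, ψ (z i)) ^ 2) (stdPi (Fin n)) := by
    simp only [sq, Finset.sum_mul_sum]
    exact integrable_finsetSum _ fun i _ => integrable_finsetSum _ fun j _ => hij i j
  have hm := mul_meas_ge_le_integral_of_nonneg (Eventually.of_forall fun z => sq_nonneg _) hint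
    ((n * (a - e)) ^ 2)
  rw [hsq] at hm
  have hsub : {z : Fin n → ℝ | (n : ℝ) * a ≤ ∑ i, φ (z i)}
      ⊆ {z | (n * (a - e)) ^ 2 ≤ (∑ i, ψ (z i)) ^ 2} := fun z hz => by
    refine pow_le_pow_left₀ (mul_nonneg hn0.le (sub_nonneg.2 ha.le)) ?_ 2
    simp only [ψ, Finset.sum_sub_distrib, Finset.sum_const, Finset.card_univ, Fintype.card_fin,
      nsmul_eq_mul]
    have : (n : ℝ) * a ≤ ∑ i, φ (z i) := hz
    linarith
  refine (measureReal_mono hsub).trans ?_
  have hpos : 0 < (n * (a - e)) ^ 2 := by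
    have := sub_pos.2 ha
    positivity
  refine le_of_mul_le_mul_left (hm.trans ?_) hpos
  rw [div_lt_iff₀ (by have := sub_pos.2 ha; positivity)] at hn'
  nlinarith

/-- A majorant of the positive part of `z ^ 2 / a - 1`, with `a = 14 / 25`. -/
noncomputable def plusPart (z : ℝ) : ℝ :=
  z ^ 2 / (14 / 25) - 1 + exp (1 / 2) / (3 / 2) * exp (-(3 / 2) * (z ^ 2 / (14 / 25)))

theorem exp_half_le : exp (1 / 2 : ℝ) ≤ 16488 / 10000 := by
  refine le_of_pow_le_pow_left₀ (n := 2) two_ne_zero (by norm_num) ?_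
  rw [← exp_nat_mul, show ((2 : ℕ) : ℝ) * (1 / 2) = 1 by norm_num]
  exact exp_one_lt_d9.le.trans (by norm_num)

theorem le_plusPart (z : ℝ) : max (z ^ 2 / (14 / 25) - 1) 0 ≤ plusPart z := by
  unfold plusPart
  set x := z ^ 2 / (14 / 25)
  refine max_le ?_ ?_
  · linarith [show 0 ≤ exp (1 / 2 : ℝ) / (3 / 2) * exp (-(3 / 2) * x) by positivity]
  · have h : 1 - x ≤ exp (1 / 2 : ℝ) / (3 / 2) * exp (-(3 / 2) * x) := by
      rw [div_mul_eq_mul_div, ← exp_add, le_div_iff₀ (by norm_num)]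
      have := add_one_le_exp ((1 : ℝ) / 2 + -(3 / 2) * x)
      linarith
    linarith

theorem plusPart_moments :
    Integrable (fun z => plusPart z ^ 2) std ∧ ∫ z, plusPart z ∂std < 12219 / 10000 := by
  have hsq : Integrable (fun x : ℝ => x ^ 2) std := (memLp_id_gaussianReal' 2 (by norm_num)).integrable_sq
  have he := exp_sq_std (s := -(3 / 2) / (14 / 25)) (by norm_num)
  have hK : 0 ≤ exp (1 / 2 : ℝ) / (3 / 2) := by positivity
  refine ⟨?_, ?_⟩
  · refine Integrable.mono' (((exp_sq_std (s := 1 / 4) (by norm_num)).1).const_mul 2000)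
      (by unfold plusPart; fun_prop) (Eventually.of_forall fun z => ?_)
    rw [Real.norm_of_nonneg (sq_nonneg _)]
    have h1 : exp (-(3 / 2) * (z ^ 2 / (14 / 25))) ≤ 1 := exp_le_one_iff.2 (by nlinarith [sq_nonneg z])
    have h2 := exp_half_le
    have h3 : exp (1 / 2 : ℝ) / (3 / 2) * exp (-(3 / 2) * (z ^ 2 / (14 / 25))) ≤ 2 := by
      have := mul_le_of_le_one_right hK h1
      linarith
    have h4 : 0 ≤ exp (1 / 2 : ℝ) / (3 / 2) * exp (-(3 / 2) * (z ^ 2 / (14 / 25))) := by positivity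
    have h5 := Real.pow_div_factorial_le_exp (z ^ 2 / 4) (by positivity) 2
    have h6 : 1 ≤ exp (z ^ 2 / 4) := one_le_exp (by positivity)
    norm_num [Nat.factorial] at h5
    rw [show (1 : ℝ) / 4 * z ^ 2 = z ^ 2 / 4 by ring]
    have hP : |plusPart z| ≤ 2 * z ^ 2 + 3 := by
      rw [plusPart, abs_le]
      constructor <;> linarith [sq_nonneg z, show z ^ 2 / (14 / 25) ≤ 2 * z ^ 2 by nlinarith [sq_nonneg z],
        show 0 ≤ z ^ 2 / (14 / 25) by positivity]
    have h7 := pow_le_pow_left₀ (abs_nonneg _) hP 2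
    rw [sq_abs] at h7
    nlinarith [sq_nonneg (z ^ 2 - 3)]
  · have hf : plusPart = fun z => (z ^ 2 / (14 / 25) - 1)
        + exp (1 / 2) / (3 / 2) * exp (-(3 / 2) / (14 / 25) * z ^ 2) := by
      funext z; unfold plusPart; congr 3; ring
    have h2 : ∫ x : ℝ, x ^ 2 ∂std = 1 := by
      have h := integral_sqc
      simp only [sqc] at h
      rw [integral_sub hsq (integrable_const _)] at h
      simp at h ⊢
      linarith
    have i1 : Integrable (fun z : ℝ => z ^ 2 / (14 / 25) - 1) std :=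
      (hsq.div_const _).sub (integrable_const _)
    rw [hf, integral_add i1 (he.1.const_mul _),
      integral_sub (hsq.div_const _) (integrable_const _), integral_div, integral_const_mul, he.2, h2]
    simp only [integral_const, probReal_univ, smul_eq_mul, mul_one]
    have hs : (25213 : ℝ) / 10000 ≤ √(1 - 2 * (-(3 / 2) / (14 / 25))) := by
      rw [Real.le_sqrt (by norm_num) (by norm_num)]
      norm_num
    have : 1 / √(1 - 2 * (-(3 / 2) / (14 / 25 : ℝ))) ≤ 10000 / 25213 := by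
      refine (one_div_le_one_div_of_le (by norm_num) hs).trans (le_of_eq ?_)
      norm_num
    have h3 : exp (1 / 2 : ℝ) / (3 / 2) * (1 / √(1 - 2 * (-(3 / 2) / (14 / 25))))
        ≤ 16488 / 10000 / (3 / 2) * (10000 / 25213) :=
      mul_le_mul (div_le_div_of_nonneg_right exp_half_le (by norm_num)) this (by positivity) (by norm_num)
    norm_num at h3 ⊢
    linarith

/-- The cost weights at the largest strength. -/
noncomputable def cost (s : ℝ) (d : ℝ) : ℝ := 1 + (1 - 2 * (3 / 5) ^ 2 * s) * (1 / d - 1)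

theorem point_bound {z v d s μ r : ℝ} (hd : 0 < d) (hr : 0 < r)
    (h : r ≤ (1 + μ) * d + (1 - 2 * (3 / 5) ^ 2 * s) * (1 - d)) (a : ℝ) :
    2 * a * z * v - v ^ 2 * cost s d ≤ μ * v ^ 2 + a ^ 2 * (d * z ^ 2 / r) := by
  set den := (1 + μ) * d + (1 - 2 * (3 / 5) ^ 2 * s) * (1 - d)
  have hden : 0 < den := hr.trans_le h
  have e : μ + cost s d = den / d := by
    simp only [cost, den]
    field_simp
    ring
  have h1 : a ^ 2 * (d * z ^ 2 / den) ≤ a ^ 2 * (d * z ^ 2 / r) :=
    mul_le_mul_of_nonneg_left (div_le_div_of_nonneg_left (by positivity) hr h) (sq_nonneg a)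
  have h2 : 0 ≤ (μ + cost s d) * v ^ 2 - 2 * a * z * v + a ^ 2 * (d * z ^ 2 / den) := by
    rw [e]
    have : den / d * v ^ 2 - 2 * a * z * v + a ^ 2 * (d * z ^ 2 / den)
        = (den * v - a * z * d) ^ 2 / (den * d) := by
      field_simp
      ring
    rw [this]
    positivity
  nlinarith

theorem side_bound {z : Fin n → ℝ} (hn : 0 < n) (hF : ∑ i, plusPart (z i) < n * (12219 / 10000))
    (hZ : ∑ i, z i ^ 2 < n * (101 / 100)) {m v : Fin n → ℝ} (hm : ∀ i, |m i| < 1)
    (hv : ∑ i, v i ^ 2 = 1) :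
    2 * (3 / 5) / √(n : ℝ) * (∑ i, z i * v i) - (∑ i, v i ^ 2 * cost (1 - qOf m) (1 - m i ^ 2))
      - (3 / 5) ^ 2 * (1 - qOf m) ≤ -(1 / 10000) := by
  have hn' : (0 : ℝ) < n := by exact_mod_cast hn
  set s := 1 - qOf m with hs
  have hd : ∀ i, 0 < 1 - m i ^ 2 ∧ 1 - m i ^ 2 ≤ 1 := fun i =>
    ⟨by nlinarith [(sq_lt_one_iff_abs_lt_one (m i)).2 (hm i)], by nlinarith [sq_nonneg (m i)]⟩
  have hsum : ∑ i, (1 - m i ^ 2) = n * s := by
    simp only [hs, qOf, Finset.sum_sub_distrib, Finset.sum_const, Finset.card_univ, Fintype.card_fin,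
      nsmul_eq_mul]
    field_simp
  have hs1 : s ≤ 1 := by
    have : 0 ≤ qOf m := by unfold qOf; positivity
    linarith
  set a := (3 / 5 : ℝ) / √(n : ℝ) with ha
  have ha2 : a ^ 2 = (3 / 5) ^ 2 / n := by rw [ha, div_pow, sq_sqrt hn'.le]
  have key : ∀ μ r : ℝ, 0 < r →
      (∀ i, r ≤ (1 + μ) * (1 - m i ^ 2) + (1 - 2 * (3 / 5) ^ 2 * s) * (1 - (1 - m i ^ 2))) →
      2 * (3 / 5) / √(n : ℝ) * (∑ i, z i * v i) - (∑ i, v i ^ 2 * cost s (1 - m i ^ 2))
        ≤ μ + a ^ 2 * ((∑ i, (1 - m i ^ 2) * z i ^ 2) / r) := fun μ r hr h => by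
    have h1 := Finset.sum_le_sum fun i (_ : i ∈ univ) =>
      point_bound (z := z i) (v := v i) (hd i).1 hr (h i) a
    rw [Finset.sum_sub_distrib, Finset.sum_add_distrib, ← Finset.mul_sum, hv, mul_one,
      ← Finset.mul_sum, ← Finset.sum_div] at h1
    refine le_of_eq_of_le ?_ h1
    congr 1
    rw [Finset.mul_sum]
    exact Finset.sum_congr rfl fun i _ => by rw [ha]; ring
  rcases le_or_gt s (611 / 1000) with hcase | hcase
  · have hk := key (-(11 / 25)) (14 / 25) (by norm_num) fun i => by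
      nlinarith [(hd i).1, (hd i).2, mul_le_mul_of_nonneg_right (show (14 : ℝ) / 25 ≤ 1 - 2 * (3 / 5) ^ 2 * s
        by nlinarith) (sub_nonneg.2 (hd i).2)]
    have h2 : (∑ i, (1 - m i ^ 2) * z i ^ 2) / (14 / 25) ≤ n * s + ∑ i, plusPart (z i) := by
      rw [← hsum, ← Finset.sum_add_distrib, Finset.sum_div]
      refine Finset.sum_le_sum fun i _ => ?_
      have h3 := le_plusPart (z i)
      rw [max_le_iff] at h3
      have h4 := mul_le_mul_of_nonneg_left h3.1 (hd i).1.le
      have h5 := mul_le_of_le_one_left h3.2 (hd i).2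
      rw [mul_div_assoc]
      linarith
    have h3 := hk.trans (add_le_add_right (mul_le_mul_of_nonneg_left (h2.trans
      (add_le_add_right hF.le _)) (sq_nonneg a)) _)
    rw [ha2, ← mul_add, ← mul_assoc, div_mul_cancel₀ _ hn'.ne'] at h3
    linarith
  · have hk' : 2 * (3 / 5) / √(n : ℝ) * (∑ i, z i * v i) - (∑ i, v i ^ 2 * cost s (1 - m i ^ 2))
        ≤ -(2 / 5) + a ^ 2 * ((∑ i, z i ^ 2) / (3 / 5)) := by
      have h1 := Finset.sum_le_sum fun i (_ : i ∈ univ) => by
        exact point_bound (z := z i) (v := v i) (μ := -(2 / 5)) (r := 3 / 5 * (1 - m i ^ 2)) (s := s)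
          (hd i).1 (by have := (hd i).1; positivity)
          (by nlinarith [mul_nonneg (show (0 : ℝ) ≤ 1 - 2 * (3 / 5) ^ 2 * s by nlinarith) (sub_nonneg.2 (hd i).2)]) a
      rw [Finset.sum_sub_distrib, Finset.sum_add_distrib, ← Finset.mul_sum, hv, mul_one,
        ← Finset.mul_sum] at h1
      refine le_of_eq_of_le ?_ (h1.trans (le_of_eq ?_))
      · congr 1
        rw [Finset.mul_sum]
        exact Finset.sum_congr rfl fun i _ => by rw [ha]; ring
      · rw [Finset.sum_div]
        congr 2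
        exact Finset.sum_congr rfl fun i _ => by
          have := (hd i).1.ne'
          field_simp
    have h3 := hk'.trans (add_le_add_right (mul_le_mul_of_nonneg_left
      (div_le_div_of_nonneg_right hZ.le (by norm_num : (0 : ℝ) ≤ 3 / 5)) (sq_nonneg a)) _)
    rw [ha2, show ((3 : ℝ) / 5) ^ 2 / n * (n * (101 / 100) / (3 / 5)) = (3 / 5) * (101 / 100) by
      field_simp] at h3
    linarith

/-- The event on which the Hessian is positive at every strength up to `3/5`. -/
theorem hessEvent : ∀ η : ℝ, 0 < η → ∃ n₀ : ℕ, ∀ n ≥ n₀,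
    ENNReal.ofReal (1 - η) ≤ disorder n {g | ∀ θ : ℝ, 0 ≤ θ → θ ≤ 3 / 5 →
      ∀ m v : Fin n → ℝ, (∀ i, |m i| < 1) → 1 / 10000 * ∑ i, v i ^ 2 ≤ hess θ g m v} := by
  intro η hη
  obtain ⟨hp2, hp1⟩ := plusPart_moments
  obtain ⟨n1, hn1⟩ := sum_tail (by unfold plusPart; fun_prop) hp2 hp1 (by linarith : 0 < η / 4)
  have hz4 : Integrable (fun x : ℝ => (x ^ 2) ^ 2) std := by
    refine Integrable.mono' ((exp_sq_std (s := 1 / 4) (by norm_num)).1.const_mul 32) (by fun_prop)
      (Eventually.of_forall fun x => ?_)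
    rw [Real.norm_of_nonneg (sq_nonneg _), show (1 : ℝ) / 4 * x ^ 2 = x ^ 2 / 4 by ring]
    have h := Real.pow_div_factorial_le_exp (x ^ 2 / 4) (by positivity) 2
    norm_num [Nat.factorial] at h
    nlinarith
  have hz1 : ∫ x : ℝ, x ^ 2 ∂std < 101 / 100 := by
    have h := integral_sqc
    simp only [sqc] at h
    have hi : Integrable (fun x : ℝ => x ^ 2) std := (memLp_id_gaussianReal' 2 (by norm_num)).integrable_sq
    rw [integral_sub hi (integrable_const _)] at h
    simp at h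
    linarith
  obtain ⟨n2, hn2⟩ := sum_tail (by fun_prop) hz4 hz1 (by linarith : 0 < η / 4)
  refine ⟨max (max n1 n2) 1, fun n hn => ?_⟩
  simp only [ge_iff_le, max_le_iff] at hn
  have hn' : (0 : ℝ) < n := by exact_mod_cast hn.2
  let ι := {p : (Fin n → ℝ) × (Fin n → ℝ) // (∀ i, |p.1 i| < 1) ∧ ∑ i, p.2 i ^ 2 = 1}
  let c : ℝ := √((3 / 5) / √(n : ℝ))
  let u : ι → Fin n → ℝ := fun k i => c * k.1.2 i
  let b : ι → ℝ := fun k => -(∑ i, k.1.2 i ^ 2 * cost (1 - qOf k.1.1) (1 - k.1.1 i ^ 2))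
    - (3 / 5) ^ 2 * (1 - qOf k.1.1)
  have hc : c ^ 2 = (3 / 5) / √(n : ℝ) := sq_sqrt (by positivity)
  set B := {g : Edge n → ℝ | ∃ k, -(1 / 10000) < quad g (u k) + b k}
  have hBm : MeasurableSet B := by
    have ho : IsOpen B := by
      simp only [B, Set.ofPred_exists]
      exact isOpen_iUnion fun k => isOpen_lt continuous_const (by unfold quad; fun_prop)
    exact ho.measurableSet
  have hB : (stdPi (Edge n)).real B ≤ η := by
    refine (quad_offset_tail u b _).trans ?_
    have hsub : {z : Fin n → ℝ | ∃ k, -(1 / 10000) < 2 * √(∑ i, u k i ^ 2) * (∑ i, z i * u k i) + b k}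
        ⊆ {z | (n : ℝ) * (12219 / 10000) ≤ ∑ i, plusPart (z i)}
          ∪ {z | (n : ℝ) * (101 / 100) ≤ ∑ i, z i ^ 2} := by
      rintro z ⟨⟨⟨m, v⟩, hm, hv⟩, hk⟩
      by_contra hcon
      simp only [Set.mem_union, Set.mem_ofPred_eq, not_or, not_le] at hcon
      have h := side_bound hn.2 hcon.1 hcon.2 hm hv
      have e : 2 * √(∑ i, (c * v i) ^ 2) * (∑ i, z i * (c * v i))
          = 2 * (3 / 5) / √(n : ℝ) * ∑ i, z i * v i := by
        have hr : √(∑ i, (c * v i) ^ 2) = c := by
          simp only [mul_pow, ← Finset.mul_sum, hv, mul_one]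
          exact sqrt_sq (sqrt_nonneg _)
        rw [hr, show (∑ i, z i * (c * v i)) = c * ∑ i, z i * v i from by
          rw [Finset.mul_sum]; exact Finset.sum_congr rfl fun i _ => by ring]
        rw [mul_div_assoc, ← hc]
        ring
      simp only [u, b, e] at hk
      linarith
    linarith [(measureReal_mono (μ := stdPi (Fin n)) hsub).trans ((measureReal_union_le _ _).trans
      (add_le_add (hn1 n hn.1.1) (hn2 n hn.1.2)))]
  refine le_trans ?_ (measure_mono (μ := disorder n) (s := Bᶜ) fun g hg θ hθ0 hθ m v hm => ?_)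
  · change _ ≤ stdPi (Edge n) Bᶜ
    rw [← ofReal_measureReal (measure_ne_top _ _)]
    refine ENNReal.ofReal_le_ofReal ?_
    rw [measureReal_compl hBm, probReal_univ]
    linarith
  · set S := ∑ i, v i ^ 2
    have hS : 0 ≤ S := Finset.sum_nonneg fun i _ => sq_nonneg _
    set s := 1 - qOf m with hs
    have hd : ∀ i, 0 < 1 - m i ^ 2 ∧ 1 - m i ^ 2 ≤ 1 := fun i =>
      ⟨by nlinarith [(sq_lt_one_iff_abs_lt_one (m i)).2 (hm i)], by nlinarith [sq_nonneg (m i)]⟩
    have hsum : ∑ i, (1 - m i ^ 2) = n * s := by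
      simp only [hs, qOf, Finset.sum_sub_distrib, Finset.sum_const, Finset.card_univ, Fintype.card_fin,
        nsmul_eq_mul]
      field_simp
    have hs01 : 0 ≤ s ∧ s ≤ 1 := by
      have h0 : 0 ≤ qOf m := by unfold qOf; positivity
      have h1 : 0 ≤ n * s := hsum ▸ Finset.sum_nonneg fun i _ => (hd i).1.le
      exact ⟨nonneg_of_mul_nonneg_right h1 hn', by linarith⟩
    set A := ∑ i, v i ^ 2 * (1 / (1 - m i ^ 2) - 1) with hA
    have hA0 : 0 ≤ A := Finset.sum_nonneg fun i _ =>
      mul_nonneg (sq_nonneg _) (sub_nonneg.2 ((one_le_div (hd i).1).2 (hd i).2))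
    set R := ∑ i, ∑ j, skMat n 1 g i j * v i * v j with hR
    have hcost : 3 / 5 * R ≤ S + (1 - 2 * (3 / 5) ^ 2 * s) * A + (3 / 5) ^ 2 * s * S
        - 1 / 10000 * S := by
      rcases hS.eq_or_lt with h0 | h0
      · have hv0 : ∀ i, v i = 0 := fun i =>
          pow_eq_zero_iff two_ne_zero |>.1 ((Finset.sum_eq_zero_iff_of_nonneg
            fun i _ => sq_nonneg (v i)).1 h0.symm i (Finset.mem_univ i))
        simp [hR, hA, hv0, S]
      · let k : ι := ⟨(m, fun i => v i / √S), hm, by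
          simp only [div_pow, sq_sqrt hS, ← Finset.sum_div]
          exact div_self h0.ne'⟩
        have hk : quad g (u k) + b k ≤ -(1 / 10000) := not_lt.1 fun h => hg ⟨k, h⟩
        have e1 : quad g (u k) = 3 / 5 * R / S := by
          rw [show u k = fun i => (c / √S) * v i from funext fun i => by simp [u, k]; ring, quad_smul,
            div_pow, hc, sq_sqrt hS, hR, form_eq_quad]
          ring
        have e2 : b k = -((S + (1 - 2 * (3 / 5) ^ 2 * s) * A) / S) - (3 / 5) ^ 2 * s := by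
          simp only [b, k, cost, div_pow, sq_sqrt hS, hA, ← hs, S, Finset.sum_div,
            Finset.mul_sum, ← Finset.sum_add_distrib]
          congr 2
          exact Finset.sum_congr rfl fun i _ => by ring
        rw [e1, e2] at hk
        have := mul_le_mul_of_nonneg_right hk hS
        rw [add_mul, sub_mul, neg_mul, div_mul_cancel₀ _ h0.ne', div_mul_cancel₀ _ h0.ne'] at this
        linarith
    have hcs : (∑ i, m i * v i) ^ 2 ≤ A * (n * s) := by
      rw [hA, ← hsum]
      refine Finset.sum_sq_le_sum_mul_sum_of_sq_le_mul _ (fun i _ =>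
        mul_nonneg (sq_nonneg _) (sub_nonneg.2 ((one_le_div (hd i).1).2 (hd i).2)))
        (fun i _ => (hd i).1.le) fun i _ => ?_
      have := (hd i).1.ne'
      refine le_of_eq ?_
      field_simp
      ring
    have e3 : ∑ i, v i ^ 2 / (1 - m i ^ 2) = S + A := by
      rw [hA, ← Finset.sum_add_distrib]
      exact Finset.sum_congr rfl fun i _ => by ring
    have hcs' : 2 * θ ^ 2 / n * (∑ i, m i * v i) ^ 2 ≤ 2 * θ ^ 2 * (A * s) := by
      refine (mul_le_mul_of_nonneg_left hcs (by positivity)).trans (le_of_eq ?_)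
      field_simp
    rw [hess, e3, ← hs, ← hR]
    obtain ⟨hs0, hs1⟩ := hs01
    set t := θ / (3 / 5) with ht
    have ht0 : 0 ≤ t := by rw [ht]; positivity
    have ht1 : t ≤ 1 := by rw [ht, div_le_one (by norm_num)]; exact hθ
    have hθt : θ = t * (3 / 5) := by rw [ht]; ring
    have h4 := mul_le_mul_of_nonneg_left hcost ht0
    rw [hθt] at hcs' ⊢
    nlinarith [mul_nonneg (mul_nonneg hA0 (sub_nonneg.2 ht1))
      (show 0 ≤ 1 + 2 * t * (3 / 5) ^ 2 * s by positivity),
      mul_nonneg (mul_nonneg hS (sub_nonneg.2 ht1))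
        (show 0 ≤ 1 - t * (3 / 5) ^ 2 * s - 1 / 10000 by nlinarith [mul_le_one₀ ht1 hs0 hs1])]

end Vale.Agent.P150.Beyond.Stability
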