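import Vale.Agent.P150.Beyond.Stability.Upper

/-!
# P150 beyond one half: the pressure is at least the tilted TAP free energy

At the stationary minimiser the linear term is negligible on replicas with small overlaps.
-/

open Finset Real

namespace Vale.Agent.P150.Beyond.Stability

open Vale.Agent.P150.Fast Vale.Agent.P150.Beyond

variable {n k : ℕ}

/-- The pressure relative to the uniform law. -/
noncomputable def pres (θ : ℝ) (g : Edge n → ℝ) (h : Fin n → ℝ) : ℝ :=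
  log (∑ x, exp (dot h (spinv x) + θ / 2 * bil g (spinv x) (spinv x))) - n * log 2

/-- A reference point near `m`: saturated at sites close to the boundary. -/
def Clip (τ e1 : ℝ) (m m' : Fin n → ℝ) : Prop :=
  ∀ i, (|m' i| = 1 ∧ |m i - m' i| ≤ τ) ∨
    (|m' i| ≤ 1 - τ / 2 ∧ |m i| ≤ 1 - τ / 2 ∧ |m i - m' i| ≤ e1)

theorem slope_diff {τ a b : ℝ} (hτ : 0 < τ) (ha : |a| ≤ 1 - τ / 2) (hb : |b| ≤ 1 - τ / 2) :
    |slope a - slope b| ≤ 2 * |a - b| / τ := by
  obtain ⟨a1, a2⟩ := abs_le.1 ha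
  obtain ⟨b1, b2⟩ := abs_le.1 hb
  have key : ∀ u v : ℝ, τ / 2 ≤ u → τ / 2 ≤ v → |log u - log v| ≤ 2 * |u - v| / τ := by
    intro u v hu hv
    have hu0 : 0 < u := lt_of_lt_of_le (half_pos hτ) hu
    have hv0 : 0 < v := lt_of_lt_of_le (half_pos hτ) hv
    have h1 : ∀ x y : ℝ, 0 < x → τ / 2 ≤ y → log x - log y ≤ 2 * |x - y| / τ := fun x y hx hy => by
      have hy0 : 0 < y := lt_of_lt_of_le (half_pos hτ) hy
      rw [← log_div hx.ne' hy0.ne']
      refine (log_le_sub_one_of_pos (div_pos hx hy0)).trans ?_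
      rw [div_sub_one hy0.ne', le_div_iff₀ hτ, div_mul_eq_mul_div, div_le_iff₀ hy0]
      nlinarith [le_abs_self (x - y), abs_nonneg (x - y)]
    rw [abs_le]
    refine ⟨?_, h1 u v hu0 hv⟩
    have := h1 v u hv0 hu
    rw [abs_sub_comm] at this
    linarith
  have k1 := abs_le.1 (key (1 + a) (1 + b) (by linarith) (by linarith))
  have k2 := abs_le.1 (key (1 - a) (1 - b) (by linarith) (by linarith))
  rw [show |1 + a - (1 + b)| = |a - b| by congr 1; ring] at k1
  rw [show |1 - a - (1 - b)| = |a - b| by rw [← abs_neg]; congr 1; ring] at k2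
  simp only [slope]
  rw [abs_le]
  constructor <;> linarith [k1.1, k1.2, k2.1, k2.2]

theorem clip_basic {τ e1 : ℝ} (hτ : 0 < τ) (hτ1 : τ ≤ 1 / 2) (he1τ : e1 ≤ τ) {m m' : Fin n → ℝ}
    (hm : ∀ i, |m i| < 1) (hc : Clip τ e1 m m') :
    (∀ i, |m' i| ≤ 1) ∧ (∀ i, |m i - m' i| ≤ τ) ∧
      ∀ i, (m' i - m i) ^ 2 / (1 - m i ^ 2) ≤ τ + 2 * e1 ^ 2 / τ := by
  refine ⟨fun i => ?_, fun i => ?_, fun i => ?_⟩
  · rcases hc i with h | h <;> linarith [h.1]
  · rcases hc i with h | h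
    · exact h.2
    · exact h.2.2.trans he1τ
  · have hd : 0 < 1 - m i ^ 2 := by nlinarith [(sq_lt_one_iff_abs_lt_one (m i)).2 (hm i)]
    rcases hc i with ⟨h1, h2⟩ | ⟨-, h2, h3⟩
    · refine le_trans ?_ (le_add_of_nonneg_right (by positivity))
      rw [div_le_iff₀ hd]
      obtain ⟨h21, h22⟩ := abs_le.1 h2
      obtain ⟨m1, m2⟩ := abs_lt.1 (hm i)
      rcases abs_eq zero_le_one |>.1 h1 with e | e <;> rw [e] at h21 h22 ⊢
      · nlinarith [mul_le_mul_of_nonneg_left (show (1 : ℝ) ≤ 1 + m i by linarith) (sub_nonneg.2 m2.le)]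
      · nlinarith [mul_le_mul_of_nonneg_left (show (1 : ℝ) ≤ 1 - m i by linarith)
          (show 0 ≤ 1 + m i by linarith)]
    · refine le_trans ?_ (le_add_of_nonneg_left hτ.le)
      have hsq : (m' i - m i) ^ 2 ≤ e1 ^ 2 := by
        rw [← sq_abs, abs_sub_comm]; exact pow_le_pow_left₀ (abs_nonneg _) h3 2
      have hD : τ / 2 ≤ 1 - m i ^ 2 := by
        have := pow_le_pow_left₀ (abs_nonneg _) h2 2
        rw [sq_abs] at this
        nlinarith
      calc (m' i - m i) ^ 2 / (1 - m i ^ 2) ≤ e1 ^ 2 / (τ / 2) :=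
            div_le_div₀ (sq_nonneg _) hsq (half_pos hτ) hD
        _ = 2 * e1 ^ 2 / τ := by field_simp

/-- The linear coefficient left at a clipped reference point. -/
noncomputable def resid (m m' : Fin n → ℝ) (i : Fin n) : ℝ :=
  if |m' i| = 1 then 0 else slope (m i) - slope (m' i)

/-- The energy of one replica relative to the reference point. -/
noncomputable def localE (θ : ℝ) (g : Edge n → ℝ) (m m' : Fin n → ℝ) (x : Fin n → Bool) : ℝ :=
  θ / 2 * bil g (xi m' x) (xi m' x) + (dot (resid m m') (xi m' x)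
    + θ * bil g (fun i => m' i - m i) (xi m' x) + θ ^ 2 * (1 - qOf m) * dot m (xi m' x))

theorem weight_le {θ : ℝ} {g : Edge n → ℝ} {h m m' : Fin n → ℝ} (hm' : ∀ i, |m' i| ≤ 1)
    (hst : ∀ i, slope (m i) = h i + θ * (∑ j, skMat n 1 g i j * m j) - θ ^ 2 * (1 - qOf m) * m i)
    (x : Fin n → Bool) :
    exp (dot h m' + θ / 2 * bil g m' m' - ∑ i, binEnt (m' i)) * (pw m' x * exp (localE θ g m m' x))
      ≤ exp (dot h (spinv x) + θ / 2 * bil g (spinv x) (spinv x) - n * log 2) := by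
  rcases (pw_nonneg hm' x).eq_or_lt with h0 | h0
  · rw [← h0, zero_mul, mul_zero]; exact (exp_pos _).le
  refine le_of_eq ?_
  have hne : ∀ i, (1 + m' i * spin (x i)) / 2 ≠ 0 := fun i hz =>
    h0.ne' (Finset.prod_eq_zero (Finset.mem_univ i) hz)
  rw [← exp_log h0, ← exp_add, ← exp_add]
  congr 1
  set a : Fin n → ℝ := fun i => if |m' i| = 1 then 0 else slope (m' i) with ha
  have hlog : log (pw m' x) = (∑ i, (binEnt (m' i) + a i * xi m' x i)) - n * log 2 := by
    rw [pw, log_prod fun i _ => hne i]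
    have e : ∀ i, log ((1 + m' i * spin (x i)) / 2) = (binEnt (m' i) + a i * xi m' x i) - log 2 := fun i => by
      have h1 : 1 + m' i * spin (x i) ≠ 0 := fun hz => hne i (by rw [hz, zero_div])
      rw [log_div h1 two_ne_zero, log_site]
      simp only [ha, xi]
      split_ifs with hf
      · have hs : spin (x i) = m' i := by
          rcases abs_eq zero_le_one |>.1 hf with e | e <;> rcases spin_cases (x i) with s | s <;>
            rw [e, s] at h1 <;> first | (rw [e, s]; done) | (exfalso; apply h1; norm_num)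
        rw [hs, sub_self, mul_zero, mul_zero]
      · rfl
    simp only [e, Finset.sum_sub_distrib, Finset.sum_const, Finset.card_univ, Fintype.card_fin, nsmul_eq_mul]
  have hxi0 : ∀ i, |m' i| = 1 → xi m' x i = 0 := fun i hf => by
    have h1 : 1 + m' i * spin (x i) ≠ 0 := fun hz => hne i (by rw [hz, zero_div])
    simp only [xi, sub_eq_zero]
    rcases abs_eq zero_le_one |>.1 hf with e | e <;> rcases spin_cases (x i) with s | s <;>
      rw [e, s] at h1 <;> first | (rw [e, s]; done) | (exfalso; apply h1; norm_num)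
  have hres : ∀ i, resid m m' i * xi m' x i = (slope (m i) - a i) * xi m' x i := fun i => by
    by_cases hf : |m' i| = 1
    · rw [hxi0 i hf, mul_zero, mul_zero]
    · simp only [resid, ha, if_neg hf]
  have hh : ∀ i, h i = slope (m i) - θ * (∑ j, skMat n 1 g i j * m j) + θ ^ 2 * (1 - qOf m) * m i := fun i => by
    linarith [hst i]
  have hdot : dot h (spinv x) = dot h m' + dot h (xi m' x) := by
    simp only [dot, spinv, xi, ← Finset.sum_add_distrib]
    exact Finset.sum_congr rfl fun i _ => by ring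
  have hdx : dot h (xi m' x) = (∑ i, slope (m i) * xi m' x i) - θ * bil g m (xi m' x)
      + θ ^ 2 * (1 - qOf m) * dot m (xi m' x) := by
    rw [bil_comm g m]
    simp only [dot, hh, bil, Finset.mul_sum, ← Finset.sum_sub_distrib, ← Finset.sum_add_distrib]
    refine Finset.sum_congr rfl fun i _ => ?_
    simp only [sub_mul, add_mul, Finset.sum_mul]
    congr 1
    · congr 1
      exact Finset.sum_congr rfl fun j _ => by ring
    · ring
  have hbd : bil g (fun i => m' i - m i) (xi m' x) = bil g m' (xi m' x) - bil g m (xi m' x) := by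
    simp only [bil, ← Finset.sum_sub_distrib]
    exact Finset.sum_congr rfl fun i _ => Finset.sum_congr rfl fun j _ => by ring
  rw [hlog, localE, bil_spinv g m', hdot, hdx, hbd]
  simp only [dot, hres, sub_mul, Finset.sum_add_distrib, Finset.sum_sub_distrib]
  ring

theorem localE_bound {θ Λ τ e1 ρ : ℝ} {g : Edge n → ℝ} (hθ0 : 0 ≤ θ) (hθ1 : θ ≤ 1) (hΛ0 : 0 ≤ Λ)
    (hΛ : OpBound g Λ) (hτ : 0 < τ) (hτ1 : τ ≤ 1 / 2) (he0 : 0 ≤ e1) (he1τ : e1 ≤ τ) {m m' : Fin n → ℝ}
    (hm : ∀ i, |m i| < 1) (hc : Clip τ e1 m m') {x : Fin n → Bool} (hx : |dot m' (xi m' x)| ≤ ρ * n) :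
    θ / 2 * bil g (xi m' x) (xi m' x) - n * (4 * e1 / τ + 3 * Λ * τ + ρ + 2 * τ) ≤ localE θ g m m' x := by
  obtain ⟨hm', hd, -⟩ := clip_basic hτ hτ1 he1τ hm hc
  have hxi : ∀ i, |xi m' x i| ≤ 2 := fun i => by
    obtain ⟨h1, h2⟩ := abs_le.1 (hm' i)
    simp only [xi]
    rcases spin_cases (x i) with h | h <;> rw [h, abs_le] <;> constructor <;> linarith
  have h1 : |dot (resid m m') (xi m' x)| ≤ n * (4 * e1 / τ) := by
    refine (Finset.abs_sum_le_sum_abs _ _).trans
      ((Finset.sum_le_sum (g := fun _ => 4 * e1 / τ) fun i _ => ?_).trans (le_of_eq (by simp)))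
    have hr : |resid m m' i| ≤ 2 * e1 / τ := by
      simp only [resid]
      split_ifs with hf
      · rw [abs_zero]; positivity
      · rcases hc i with h | ⟨h1, h2, h3⟩
        · exact absurd h.1 hf
        · refine (slope_diff hτ h2 h1).trans ?_
          exact div_le_div_of_nonneg_right (by linarith) hτ.le
    rw [abs_mul]
    calc |resid m m' i| * |xi m' x i| ≤ (2 * e1 / τ) * 2 :=
          mul_le_mul hr (hxi i) (abs_nonneg _) (by positivity)
      _ = 4 * e1 / τ := by ring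
  have hsd : ∑ i, (m' i - m i) ^ 2 ≤ n * τ ^ 2 := by
    refine (Finset.sum_le_sum (g := fun _ => τ ^ 2) fun i _ => ?_).trans (le_of_eq (by simp))
    rw [← sq_abs, abs_sub_comm]
    exact pow_le_pow_left₀ (abs_nonneg _) (hd i) 2
  have h2 : |θ * bil g (fun i => m' i - m i) (xi m' x)| ≤ n * (3 * Λ * τ) := by
    rw [abs_mul, abs_of_nonneg hθ0]
    refine (mul_le_of_le_one_left (abs_nonneg _) hθ1).trans ((bil_abs_le hΛ _ _ (inv_pos.2 hτ)).trans ?_)
    rw [div_inv_eq_mul]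
    calc Λ / 2 * (τ⁻¹ * (∑ i, (m' i - m i) ^ 2) + (∑ i, xi m' x i ^ 2) * τ)
        ≤ Λ / 2 * (τ⁻¹ * (n * τ ^ 2) + (4 * n) * τ) := by
          gcongr
          exact sq_xi_le hm' x
      _ ≤ n * (3 * Λ * τ) := by
          rw [show τ⁻¹ * (n * τ ^ 2) = (n : ℝ) * τ by field_simp]
          nlinarith [mul_nonneg (mul_nonneg hΛ0 hτ.le) (Nat.cast_nonneg' n : (0 : ℝ) ≤ n)]
  have h3 : |θ ^ 2 * (1 - qOf m) * dot m (xi m' x)| ≤ n * (ρ + 2 * τ) := by
    obtain ⟨s0, s1⟩ := gap_q_mem fun i => (hm i).le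
    rw [abs_mul, abs_of_nonneg (by positivity)]
    refine (mul_le_of_le_one_left (abs_nonneg _) (mul_le_one₀ (pow_le_one₀ hθ0 hθ1) s0 s1)).trans ?_
    have e : dot m (xi m' x) = dot m' (xi m' x) + dot (fun i => m i - m' i) (xi m' x) := by
      simp only [dot, ← Finset.sum_add_distrib]
      exact Finset.sum_congr rfl fun i _ => by ring
    rw [e, mul_add]
    refine (abs_add_le _ _).trans (add_le_add (hx.trans (le_of_eq (mul_comm _ _))) ?_)
    refine (Finset.abs_sum_le_sum_abs _ _).trans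
      ((Finset.sum_le_sum (g := fun _ => 2 * τ) fun i _ => ?_).trans (le_of_eq (by simp)))
    rw [abs_mul]
    calc |m i - m' i| * |xi m' x i| ≤ τ * 2 := mul_le_mul (hd i) (hxi i) (abs_nonneg _) hτ.le
      _ = 2 * τ := mul_comm _ _
  simp only [localE, mul_add] at *
  linarith [(abs_le.1 h1).1, (abs_le.1 h2).1, (abs_le.1 h3).1]

theorem tilted_clip {θ Λ τ e1 : ℝ} {g : Edge n → ℝ} (hn : 0 < n) (hθ0 : 0 ≤ θ) (hθ1 : θ ≤ 1) (hΛ0 : 0 ≤ Λ)
    (hΛ : OpBound g Λ) (hτ : 0 < τ) (hτ1 : τ ≤ 1 / 2) (he1τ : e1 ≤ τ) {h m m' : Fin n → ℝ}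
    (hm : ∀ i, |m i| < 1)
    (hst : ∀ i, slope (m i) = h i + θ * (∑ j, skMat n 1 g i j * m j) - θ ^ 2 * (1 - qOf m) * m i)
    (hc : Clip τ e1 m m') :
    tilted θ g h m' ≤ tilted θ g h m + n * (τ + 2 * e1 ^ 2 / τ + Λ * τ ^ 2 + 2 * τ) := by
  obtain ⟨hm', hd, hchi⟩ := clip_basic hτ hτ1 he1τ hm hc
  have hB : ∑ i, binEnt (m' i) - ∑ i, (binEnt (m i) + slope (m i) * (m' i - m i))
      ≤ n * (τ + 2 * e1 ^ 2 / τ) := by
    rw [← Finset.sum_sub_distrib]
    refine (Finset.sum_le_sum (g := fun _ => τ + 2 * e1 ^ 2 / τ) fun i _ => ?_).trans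
      (le_of_eq (by simp; ring))
    exact (binEnt_ref (hm' i) (hm i)).trans (hchi i)
  have hsd : ∑ i, (m' i - m i) ^ 2 ≤ n * τ ^ 2 := by
    refine (Finset.sum_le_sum (g := fun _ => τ ^ 2) fun i _ => ?_).trans (le_of_eq (by simp))
    rw [← sq_abs, abs_sub_comm]
    exact pow_le_pow_left₀ (abs_nonneg _) (hd i) 2
  have hdd : -(n * (Λ * τ ^ 2)) ≤ θ / 2 * bil g (fun i => m' i - m i) fun i => m' i - m i := by
    have h1 := mul_le_mul_of_nonneg_left (abs_le.1 (hΛ fun i => m' i - m i)).1 (by linarith : 0 ≤ θ / 2)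
    have h2 : θ / 2 * (Λ * ∑ i, (m' i - m i) ^ 2) ≤ 1 * (n * (Λ * τ ^ 2)) := by
      have := mul_le_mul_of_nonneg_left hsd hΛ0
      exact mul_le_mul (by linarith) (by linarith) (by positivity) zero_le_one
    linarith
  have hons := mul_le_mul_of_nonneg_left (onsager_diff hn hθ0 hθ1 hm' (fun i => (hm i).le)
    (fun i => (abs_sub_comm _ _).trans_le (hd i))) (Nat.cast_nonneg' n : (0 : ℝ) ≤ n)
  obtain ⟨s0, s1⟩ := gap_q_mem fun i => (hm i).le
  have hmd : -(n * τ) ≤ θ ^ 2 * (1 - qOf m) * ∑ i, m i * (m' i - m i) := by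
    have h1 : |∑ i, m i * (m' i - m i)| ≤ n * τ := by
      refine (Finset.abs_sum_le_sum_abs _ _).trans
        ((Finset.sum_le_sum (g := fun _ => τ) fun i _ => ?_).trans (le_of_eq (by simp)))
      rw [abs_mul, abs_sub_comm]
      exact (mul_le_of_le_one_left (abs_nonneg _) (hm i).le).trans (hd i)
    have h2 : |θ ^ 2 * (1 - qOf m) * ∑ i, m i * (m' i - m i)| ≤ n * τ := by
      rw [abs_mul, abs_of_nonneg (by positivity)]
      exact (mul_le_of_le_one_left (abs_nonneg _) (mul_le_one₀ (pow_le_one₀ hθ0 hθ1) s0 s1)).trans h1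
    exact (abs_le.1 h2).1
  have hbb : bil g m' m' = bil g m m + 2 * bil g m (fun i => m' i - m i)
      + bil g (fun i => m' i - m i) fun i => m' i - m i := by
    have h := bil_line g m (fun i => m' i - m i) 1
    rw [show (fun i => m i + 1 * (m' i - m i)) = m' from funext fun i => by ring] at h
    linarith
  have hhd : ∑ i, h i * m' i - ∑ i, h i * m i = ∑ i, slope (m i) * (m' i - m i)
      - θ * bil g m (fun i => m' i - m i) + θ ^ 2 * (1 - qOf m) * ∑ i, m i * (m' i - m i) := by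
    rw [bil_comm g m]
    simp only [bil, Finset.mul_sum, ← Finset.sum_sub_distrib, ← Finset.sum_add_distrib]
    refine Finset.sum_congr rfl fun i _ => ?_
    rw [show h i = slope (m i) - θ * (∑ j, skMat n 1 g i j * m j) + θ ^ 2 * (1 - qOf m) * m i by
      linarith [hst i]]
    have : ∑ j, θ * (skMat n 1 g i j * (m' i - m i) * m j)
        = θ * (∑ j, skMat n 1 g i j * m j) * (m' i - m i) := by
      rw [Finset.mul_sum, Finset.sum_mul]
      exact Finset.sum_congr rfl fun j _ => by ring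
    rw [this]
    ring
  simp only [tilted, tap]
  rw [show (∑ i, ∑ j, skMat n 1 g i j * m' i * m' j) = bil g m' m' from rfl, hbb,
    show (∑ i, ∑ j, skMat n 1 g i j * m i * m j) = bil g m m from rfl]
  simp only [Finset.sum_add_distrib, mul_add] at hB hons ⊢
  linarith

/-- The lower bound at every field. -/
theorem lower_all {θ Λ τ e1 ρ ε : ℝ} {g : Edge n → ℝ} (hn : 0 < n) (hk : 0 < k) (hθ0 : 0 ≤ θ) (hθ1 : θ ≤ 1)
    (hΛ0 : 0 ≤ Λ) (hΛ : OpBound g Λ) (hτ : 0 < τ) (hτ1 : τ ≤ 1 / 2) (he0 : 0 ≤ e1) (he1τ : e1 ≤ τ)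
    (hev : ∀ m : Fin n → ℝ, (∀ i, |m i| < 1) → ∃ m', Clip τ e1 m m' ∧
      exp (k * n * (θ ^ 2 * (1 - qOf m') ^ 2 / 4 - ε) - log 4) ≤ rep k θ m' ρ g)
    (h x : Fin n → ℝ) (hx : ∀ i, |x i| ≤ 1) :
    -tilted θ g h x - n * (τ + 2 * e1 ^ 2 / τ + Λ * τ ^ 2 + 2 * τ
      + (4 * e1 / τ + 3 * Λ * τ + ρ + 2 * τ) + ε + 2 / n) ≤ pres θ g h := by
  obtain ⟨m, hm, hst, hmin⟩ := exists_stationary θ g hn h
  obtain ⟨m', hc, hrep⟩ := hev m hm
  have hm' := (clip_basic hτ hτ1 he1τ hm hc).1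
  have hn' : (0 : ℝ) < n := by exact_mod_cast hn
  have hk' : (0 : ℝ) < k := by exact_mod_cast hk
  set E3 := 4 * e1 / τ + 3 * Λ * τ + ρ + 2 * τ
  set S := ∑ y, pw m' y * exp (localE θ g m m' y) with hS
  have hS0 : 0 ≤ S := Finset.sum_nonneg fun y _ => mul_nonneg (pw_nonneg hm' y) (exp_pos _).le
  have hpow : exp (-(k * (n * E3))) * rep k θ m' ρ g ≤ S ^ k := by
    have e : S ^ k = ∑ ω : Fin k → Fin n → Bool, kpow (pw m') ω * exp (∑ a, localE θ g m m' (ω a)) := by
      simp only [exp_sum, kpow, ← Finset.prod_mul_distrib, hS]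
      rw [← Fintype.prod_sum fun (_ : Fin k) y => pw m' y * exp (localE θ g m m' y)]
      simp
    rw [e, rep, Finset.mul_sum]
    refine Finset.sum_le_sum fun ω _ => ?_
    by_cases h0 : wt m' ρ ω = 0
    · rw [h0, zero_mul, mul_zero]
      exact mul_nonneg (kpow_nonneg (pw_nonneg hm') ω) (exp_pos _).le
    rw [mul_left_comm, ← exp_add, energy_coefW]
    refine mul_le_mul (mul_le_of_le_one_right (kpow_nonneg (pw_nonneg hm') ω) (mixedInd_le_one m' ρ ω))
      (exp_le_exp.2 ?_) (exp_pos _).le (kpow_nonneg (pw_nonneg hm') ω)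
    have h1 := Finset.sum_le_sum fun a (_ : a ∈ univ) =>
      localE_bound (g := g) hθ0 hθ1 hΛ0 hΛ hτ hτ1 he0 he1τ hm hc ((wt_ne_zero h0).2 a)
    simp only [Finset.sum_sub_distrib, ← Finset.mul_sum, Finset.sum_const, Finset.card_univ,
      Fintype.card_fin, nsmul_eq_mul] at h1
    linarith
  set A := k * (n : ℝ) * (θ ^ 2 * (1 - qOf m') ^ 2 / 4 - ε) - log 4
  have hSk : exp (A - k * (n * E3)) ≤ S ^ k := by
    refine le_trans ?_ hpow
    rw [sub_eq_neg_add, exp_add]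
    exact mul_le_mul_of_nonneg_left hrep (exp_pos _).le
  have hSpos : 0 < S := by
    rcases hS0.eq_or_lt with h0 | h0
    · rw [← h0, zero_pow hk.ne'] at hSk
      exact absurd hSk (not_le.2 (exp_pos _))
    · exact h0
  have hlogS : A - k * (n * E3) ≤ k * log S := by
    rw [← log_pow, ← log_exp (A - k * (n * E3))]
    exact Real.log_le_log (exp_pos _) hSk
  have hsum : exp (dot h m' + θ / 2 * bil g m' m' - ∑ i, binEnt (m' i)) * S
      ≤ exp (-(n * log 2)) * ∑ y, exp (dot h (spinv y) + θ / 2 * bil g (spinv y) (spinv y)) := by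
    rw [hS, Finset.mul_sum, Finset.mul_sum]
    refine Finset.sum_le_sum fun y _ => ?_
    rw [← exp_add, neg_add_eq_sub]
    exact weight_le hm' hst y
  have hp := Real.log_le_log (mul_pos (exp_pos _) hSpos) hsum
  rw [log_mul (exp_pos _).ne' hSpos.ne', log_exp, log_mul (exp_pos _).ne'
    (Finset.sum_pos (fun y _ => exp_pos _) univ_nonempty).ne', log_exp] at hp
  have hlogS' : n * (θ ^ 2 * (1 - qOf m') ^ 2 / 4 - ε) - 2 - n * E3 ≤ log S := by
    refine le_of_mul_le_mul_left ?_ hk'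
    have h4 : log 4 ≤ k * 2 := by
      rw [show (4 : ℝ) = 2 * 2 by norm_num, log_mul two_ne_zero two_ne_zero]
      linarith [log_le_sub_one_of_pos (two_pos : (0 : ℝ) < 2), show (1 : ℝ) ≤ k by exact_mod_cast hk]
    simp only [A] at hlogS
    linarith [mul_sub (k : ℝ) (n * (θ ^ 2 * (1 - qOf m') ^ 2 / 4 - ε) - 2) (n * E3),
      mul_sub (k : ℝ) (n * (θ ^ 2 * (1 - qOf m') ^ 2 / 4 - ε)) 2]
  have ht := tilted_clip hn hθ0 hθ1 hΛ0 hΛ hτ hτ1 he1τ hm hst hc
  have hmx := hmin x hx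
  have h2n : (n : ℝ) * (2 / n) = 2 := by field_simp
  have htm : tilted θ g h m'
      = (∑ i, binEnt (m' i)) - θ / 2 * bil g m' m' - n * θ ^ 2 / 4 * (1 - qOf m') ^ 2 - dot h m' := by
    simp only [tilted, tap, bil, dot]
  rw [pres]
  simp only [mul_add, mul_sub] at ht hlogS' ⊢
  linarith

end Vale.Agent.P150.Beyond.Stability
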