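import Vale.Agent.P150.Beyond.Stability.Product

/-!
# P150 beyond one half: pinning makes the covariance of a law small

Conditioning greedily on single spins: each step costs at most `log 2` of entropy and, as long as the
squared covariances are large, lowers the total variance by a fixed amount.
-/

open Finset Real

namespace Vale.Agent.P150.Beyond.Stability

open Vale.Agent.P150.Fast Vale.Agent.P150.Beyond

variable {n : ℕ}

/-- A probability mass function. -/
def IsLaw {α : Type*} [Fintype α] (ν : α → ℝ) : Prop := (∀ x, 0 ≤ ν x) ∧ ∑ x, ν x = 1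

/-- Negative entropy. -/
noncomputable def nent {α : Type*} [Fintype α] (ν : α → ℝ) : ℝ := ∑ x, ν x * log (ν x)

/-- The mean of the spins. -/
noncomputable def bary (ν : (Fin n → Bool) → ℝ) (i : Fin n) : ℝ := ∑ x, ν x * spin (x i)

/-- The covariance of two spins. -/
noncomputable def cov (ν : (Fin n → Bool) → ℝ) (i j : Fin n) : ℝ :=
  ∑ x, ν x * (spin (x i) * spin (x j)) - bary ν i * bary ν j

/-- The sum of all squared covariances. -/
noncomputable def covSq (ν : (Fin n → Bool) → ℝ) : ℝ := ∑ i, ∑ j, cov ν i j ^ 2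

/-- The sum of the variances. -/
noncomputable def totVar (ν : (Fin n → Bool) → ℝ) : ℝ := ∑ i, (1 - bary ν i ^ 2)

theorem abs_bary_le {ν : (Fin n → Bool) → ℝ} (hν : IsLaw ν) (i : Fin n) : |bary ν i| ≤ 1 := by
  refine (Finset.abs_sum_le_sum_abs _ _).trans (le_of_eq ?_)
  rw [← hν.2]
  refine Finset.sum_congr rfl fun x _ => ?_
  rcases spin_cases (x i) with h | h <;> simp [h, abs_of_nonneg (hν.1 x)]

theorem totVar_nonneg {ν : (Fin n → Bool) → ℝ} (hν : IsLaw ν) : 0 ≤ totVar ν :=
  Finset.sum_nonneg fun i _ => sub_nonneg.2 ((sq_le_one_iff_abs_le_one _).2 (abs_bary_le hν i))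

theorem totVar_le (ν : (Fin n → Bool) → ℝ) : totVar ν ≤ n := by
  refine (Finset.sum_le_sum (g := fun _ => (1 : ℝ)) fun i _ => ?_).trans (by simp)
  linarith [sq_nonneg (bary ν i)]

/-- The probability that spin `j` takes the value `b`. -/
noncomputable def half (ν : (Fin n → Bool) → ℝ) (j : Fin n) (b : Bool) : ℝ :=
  ∑ x, if x j = b then ν x else 0

/-- The law conditioned on the value of spin `j`, or the law itself when that is impossible. -/
noncomputable def split (ν : (Fin n → Bool) → ℝ) (j : Fin n) (b : Bool) (x : Fin n → Bool) : ℝ :=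
  if half ν j b = 0 then ν x else (if x j = b then ν x else 0) / half ν j b

theorem half_nonneg {ν : (Fin n → Bool) → ℝ} (hν : IsLaw ν) (j : Fin n) (b : Bool) : 0 ≤ half ν j b :=
  Finset.sum_nonneg fun x _ => by split_ifs <;> [exact hν.1 x; exact le_rfl]

theorem half_add {ν : (Fin n → Bool) → ℝ} (hν : IsLaw ν) (j : Fin n) :
    half ν j true + half ν j false = 1 := by
  rw [← hν.2, half, half, ← Finset.sum_add_distrib]
  exact Finset.sum_congr rfl fun x _ => by cases x j <;> simp

theorem isLaw_split {ν : (Fin n → Bool) → ℝ} (hν : IsLaw ν) (j : Fin n) (b : Bool) :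
    IsLaw (split ν j b) := by
  by_cases h : half ν j b = 0
  · have : split ν j b = ν := funext fun x => if_pos h
    rw [this]; exact hν
  · refine ⟨fun x => ?_, ?_⟩
    · simp only [split, if_neg h]
      exact div_nonneg (by split_ifs <;> [exact hν.1 x; exact le_rfl]) (half_nonneg hν j b)
    · simp only [split, if_neg h, ← Finset.sum_div]
      exact div_self h

theorem half_mul_split {ν : (Fin n → Bool) → ℝ} (hν : IsLaw ν) (j : Fin n) (b : Bool) (x : Fin n → Bool) :
    half ν j b * split ν j b x = if x j = b then ν x else 0 := by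
  by_cases h : half ν j b = 0
  · rw [h, zero_mul]
    refine ((Finset.sum_eq_zero_iff_of_nonneg fun y _ => ?_).1 h x (Finset.mem_univ x)).symm
    split_ifs <;> [exact hν.1 y; exact le_rfl]
  · rw [split, if_neg h, mul_div_cancel₀ _ h]

theorem split_add {ν : (Fin n → Bool) → ℝ} (hν : IsLaw ν) (j : Fin n) (x : Fin n → Bool) :
    half ν j true * split ν j true x + half ν j false * split ν j false x = ν x := by
  rw [half_mul_split hν, half_mul_split hν]
  cases x j <;> simp

theorem split_nent {ν : (Fin n → Bool) → ℝ} (hν : IsLaw ν) (j : Fin n) :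
    half ν j true * nent (split ν j true) + half ν j false * nent (split ν j false) ≤ nent ν + log 2 := by
  have e : ∀ b, half ν j b * nent (split ν j b)
      = ∑ x, (if x j = b then ν x * log (ν x) else 0) - half ν j b * log (half ν j b) := fun b => by
    rw [nent, Finset.mul_sum]
    have e1 : half ν j b * log (half ν j b) = ∑ x, if x j = b then ν x * log (half ν j b) else 0 := by
      conv_lhs => arg 1; rw [half]
      rw [Finset.sum_mul]
      exact Finset.sum_congr rfl fun x _ => by split_ifs <;> simp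
    rw [e1, ← Finset.sum_sub_distrib]
    refine Finset.sum_congr rfl fun x _ => ?_
    rw [← mul_assoc, half_mul_split hν]
    split_ifs with hx
    · rcases eq_or_ne (ν x) 0 with h0 | h0
      · simp [h0]
      · have hh : half ν j b ≠ 0 := fun hh => h0 (by
          have := half_mul_split hν j b x
          rwa [hh, zero_mul, if_pos hx, eq_comm] at this)
        rw [split, if_neg hh, if_pos hx, log_div h0 hh]
        ring
    · simp
  rw [e, e]
  have h2 : ∀ x, (if x j = true then ν x * log (ν x) else 0) + (if x j = false then ν x * log (ν x) else 0)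
      = ν x * log (ν x) := fun x => by cases x j <;> simp
  have h3 : (∑ x, if x j = true then ν x * log (ν x) else 0) + (∑ x, if x j = false then ν x * log (ν x) else 0)
      = nent ν := by
    rw [← Finset.sum_add_distrib]; exact Finset.sum_congr rfl fun x _ => h2 x
  have hb := @binEntropy_le_log_two (half ν j true)
  rw [binEntropy, log_inv, log_inv, show 1 - half ν j true = half ν j false by linarith [half_add hν j]] at hb
  linarith

theorem split_totVar {ν : (Fin n → Bool) → ℝ} (hν : IsLaw ν) (j : Fin n) :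
    half ν j true * totVar (split ν j true) + half ν j false * totVar (split ν j false)
      ≤ totVar ν - ∑ i, cov ν i j ^ 2 := by
  set p := half ν j true with hp
  set q := half ν j false with hq
  have hpq : p + q = 1 := half_add hν j
  have hbar : ∀ i, p * bary (split ν j true) i + q * bary (split ν j false) i = bary ν i := fun i => by
    simp only [bary, Finset.mul_sum, ← Finset.sum_add_distrib, hp, hq]
    exact Finset.sum_congr rfl fun x _ => by rw [← mul_assoc, ← mul_assoc, ← add_mul, split_add hν]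
  have hx : ∀ (x : Fin n → Bool) (b : Bool) (c : ℝ),
      half ν j b * split ν j b x * (c * spin b) = half ν j b * split ν j b x * (c * spin (x j)) := fun x b c => by
    rw [half_mul_split hν]
    split_ifs with h
    · rw [h]
    · simp
  have hsig : p - q = bary ν j := by
    simp only [hp, hq, half, bary, ← Finset.sum_sub_distrib]
    refine Finset.sum_congr rfl fun x _ => ?_
    cases x j <;> simp [spin]
  have hcov : ∀ i, cov ν i j = p * bary (split ν j true) i - q * bary (split ν j false) i
      - bary ν i * bary ν j := fun i => by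
    rw [cov]
    congr 1
    simp only [bary, Finset.mul_sum, ← Finset.sum_sub_distrib, hp, hq]
    refine Finset.sum_congr rfl fun x _ => ?_
    have h1 := hx x true (spin (x i))
    have h2 := hx x false (spin (x i))
    rw [spin_true, mul_one] at h1
    rw [spin_false] at h2
    conv_lhs => rw [← split_add hν j x]
    linear_combination (-1 : ℝ) * h1 - h2
  simp only [totVar, Finset.mul_sum, ← Finset.sum_add_distrib, ← Finset.sum_sub_distrib]
  refine Finset.sum_le_sum fun i _ => ?_
  set a := bary (split ν j true) i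
  set b := bary (split ν j false) i
  have h4 : cov ν i j = 2 * (p * q) * (a - b) := by
    rw [hcov, ← hbar, ← hsig]
    linear_combination (-(p * a - q * b)) * hpq
  rw [h4, ← hbar i]
  have hq4 : 4 * (p * q) ≤ 1 := by nlinarith [sq_nonneg (p - q)]
  have hpq0 : 0 ≤ p * q := mul_nonneg (half_nonneg hν j true) (half_nonneg hν j false)
  have h5 : (2 * (p * q) * (a - b)) ^ 2 ≤ p * q * (a - b) ^ 2 := by
    have := mul_le_mul_of_nonneg_right hq4 (mul_nonneg hpq0 (sq_nonneg (a - b)))
    linarith [show (2 * (p * q) * (a - b)) ^ 2 = 4 * (p * q) * (p * q * (a - b) ^ 2) by ring]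
  have h6 : p * a ^ 2 + q * b ^ 2 - (p * a + q * b) ^ 2 = p * q * (a - b) ^ 2 := by
    linear_combination (-(p * a ^ 2 + q * b ^ 2)) * hpq
  nlinarith

/-- A finite mixture decomposition of a law into components. -/
def Decomp (ν : (Fin n → Bool) → ℝ) {κ : Type} [Fintype κ] (w : κ → ℝ) (μ : κ → (Fin n → Bool) → ℝ) : Prop :=
  IsLaw w ∧ (∀ y, IsLaw (μ y)) ∧ ∀ x, ∑ y, w y * μ y x = ν x

theorem decomp_step {ν : (Fin n → Bool) → ℝ} {κ : Type} [Fintype κ] {w : κ → ℝ}
    {μ : κ → (Fin n → Bool) → ℝ} (h : Decomp ν w μ) (j : Fin n) :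
    Decomp ν (fun z : κ × Bool => w z.1 * half (μ z.1) j z.2) (fun z => split (μ z.1) j z.2) := by
  refine ⟨⟨fun z => mul_nonneg (h.1.1 _) (half_nonneg (h.2.1 _) j _), ?_⟩, fun z => isLaw_split (h.2.1 _) j _,
    fun x => ?_⟩
  · rw [Fintype.sum_prod_type, ← h.1.2]
    refine Finset.sum_congr rfl fun y _ => ?_
    rw [Fintype.sum_bool, ← mul_add, half_add (h.2.1 y), mul_one]
  · rw [Fintype.sum_prod_type, ← h.2.2 x]
    refine Finset.sum_congr rfl fun y _ => ?_
    simp only [Fintype.sum_bool]
    rw [mul_assoc, mul_assoc, ← mul_add, split_add (h.2.1 y)]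

/-- Pinning: a decomposition into components of small squared covariance at bounded entropy cost. -/
theorem pin_decomp {ν : (Fin n → Bool) → ℝ} (hν : IsLaw ν) {δ : ℝ} (hδ : 0 < δ) :
    ∃ (κ : Type) (_ : Fintype κ) (w : κ → ℝ) (μ : κ → (Fin n → Bool) → ℝ), Decomp ν w μ ∧
      ∑ y, w y * covSq (μ y) ≤ δ * n ^ 2 ∧ ∑ y, w y * nent (μ y) ≤ nent ν + (1 / δ + 1) * log 2 := by
  have hl2 : 0 ≤ log 2 := log_nonneg one_le_two
  have key : ∀ N : ℕ, (∃ (κ : Type) (_ : Fintype κ) (w : κ → ℝ) (μ : κ → (Fin n → Bool) → ℝ), Decomp ν w μ ∧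
      ∑ y, w y * covSq (μ y) ≤ δ * n ^ 2 ∧ ∑ y, w y * nent (μ y) ≤ nent ν + N * log 2) ∨
      ∃ (κ : Type) (_ : Fintype κ) (w : κ → ℝ) (μ : κ → (Fin n → Bool) → ℝ), Decomp ν w μ ∧
      0 < n ∧ ∑ y, w y * totVar (μ y) ≤ n - N * (δ * n) ∧ ∑ y, w y * nent (μ y) ≤ nent ν + N * log 2 := by
    intro N
    induction N with
    | zero =>
      rcases Nat.eq_zero_or_pos n with rfl | hn
      · exact Or.inl ⟨Unit, inferInstance, fun _ => 1, fun _ => ν, ⟨⟨fun _ => zero_le_one, by simp⟩,
          fun _ => hν, fun x => by simp⟩, by simp [covSq], by simp⟩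
      · exact Or.inr ⟨Unit, inferInstance, fun _ => 1, fun _ => ν, ⟨⟨fun _ => zero_le_one, by simp⟩,
          fun _ => hν, fun x => by simp⟩, hn, by simpa using totVar_le ν, by simp⟩
    | succ N ih =>
      rcases ih with ⟨κ, _, w, μ, hd, h1, h2⟩ | ⟨κ, _, w, μ, hd, hn, hV, h2⟩
      · refine Or.inl ⟨κ, inferInstance, w, μ, hd, h1, ?_⟩
        push_cast
        linarith
      by_cases hsmall : ∑ y, w y * covSq (μ y) ≤ δ * n ^ 2
      · refine Or.inl ⟨κ, inferInstance, w, μ, hd, hsmall, ?_⟩
        push_cast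
        linarith
      have hex : ∃ j : Fin n, δ * n < ∑ y, w y * ∑ i, cov (μ y) i j ^ 2 := by
        by_contra hc
        simp only [not_exists, not_lt] at hc
        refine hsmall ?_
        simp only [covSq]
        calc ∑ y, w y * ∑ i, ∑ j, cov (μ y) i j ^ 2
            = ∑ j, ∑ y, w y * ∑ i, cov (μ y) i j ^ 2 := by
              rw [Finset.sum_comm (γ := Fin n)]
              exact Finset.sum_congr rfl fun y _ => by rw [Finset.sum_comm, Finset.mul_sum]
          _ ≤ ∑ _j : Fin n, δ * n := Finset.sum_le_sum fun j _ => hc j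
          _ = δ * n ^ 2 := by simp; ring
      obtain ⟨j, hj⟩ := hex
      refine Or.inr ⟨κ × Bool, inferInstance, _, _, decomp_step hd j, hn, ?_, ?_⟩
      · rw [Fintype.sum_prod_type]
        simp only [Fintype.sum_bool, mul_assoc, ← mul_add]
        refine (Finset.sum_le_sum fun y _ => mul_le_mul_of_nonneg_left (split_totVar (hd.2.1 y) j) (hd.1.1 y)).trans ?_
        simp only [mul_sub, Finset.sum_sub_distrib]
        push_cast
        linarith
      · rw [Fintype.sum_prod_type]
        simp only [Fintype.sum_bool, mul_assoc, ← mul_add]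
        refine (Finset.sum_le_sum fun y _ => mul_le_mul_of_nonneg_left (split_nent (hd.2.1 y) j) (hd.1.1 y)).trans ?_
        simp only [mul_add, Finset.sum_add_distrib, ← Finset.sum_mul, hd.1.2, one_mul]
        push_cast
        linarith
  obtain ⟨κ, hκ, w, μ, hd, h1, h2⟩ | ⟨κ, _, w, μ, hd, hn, hV, -⟩ := key (⌊1 / δ⌋₊ + 1)
  · refine ⟨κ, hκ, w, μ, hd, h1, h2.trans (add_le_add_right (mul_le_mul_of_nonneg_right ?_ hl2) _)⟩
    push_cast
    linarith [Nat.floor_le (by positivity : 0 ≤ 1 / δ)]
  · exfalso
    have h0 : 0 ≤ ∑ y, w y * totVar (μ y) :=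
      Finset.sum_nonneg fun y _ => mul_nonneg (hd.1.1 y) (totVar_nonneg (hd.2.1 y))
    have hN : 1 / δ < ((⌊1 / δ⌋₊ + 1 : ℕ) : ℝ) := by push_cast; exact Nat.lt_floor_add_one _
    rw [div_lt_iff₀ hδ] at hN
    have hn' : (0 : ℝ) < n := by exact_mod_cast hn
    nlinarith

end Vale.Agent.P150.Beyond.Stability
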