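import Vale.Agent.P150.Beyond.Stability.Convex

/-!
# P150 beyond one half: product laws of spins and their replicas

The centred spins are sub-Gaussian, and replicas have small overlaps outside a negligible event.
-/

open Finset Real

namespace Vale.Agent.P150.Beyond.Stability

open Vale.Agent.P150.Fast Vale.Agent.P150.Beyond

variable {n k : ℕ}

/-- The product law of mean `m`. -/
noncomputable def pw (m : Fin n → ℝ) (x : Fin n → Bool) : ℝ := ∏ i, (1 + m i * spin (x i)) / 2

/-- The product of `k` copies of a weight. -/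
noncomputable def kpow {α : Type*} (w : α → ℝ) (ω : Fin k → α) : ℝ := ∏ a, w (ω a)

/-- The spins centred at `m`. -/
noncomputable def xi (m : Fin n → ℝ) (x : Fin n → Bool) (i : Fin n) : ℝ := spin (x i) - m i

/-- The Euclidean inner product. -/
def dot (u v : Fin n → ℝ) : ℝ := ∑ i, u i * v i

theorem dot_comm (u v : Fin n → ℝ) : dot u v = dot v u :=
  Finset.sum_congr rfl fun i _ => mul_comm _ _

theorem pw_nonneg {m : Fin n → ℝ} (hm : ∀ i, |m i| ≤ 1) (x : Fin n → Bool) : 0 ≤ pw m x :=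
  Finset.prod_nonneg fun i _ => by
    obtain ⟨h1, h2⟩ := abs_le.1 (hm i)
    rcases spin_cases (x i) with h | h <;> rw [h] <;> linarith

theorem pw_pos {m : Fin n → ℝ} (hm : ∀ i, |m i| < 1) (x : Fin n → Bool) : 0 < pw m x :=
  Finset.prod_pos fun i _ => by
    obtain ⟨h1, h2⟩ := abs_lt.1 (hm i)
    rcases spin_cases (x i) with h | h <;> rw [h] <;> linarith

theorem sum_pw_prod (m : Fin n → ℝ) (F : Fin n → Bool → ℝ) :
    ∑ x, pw m x * ∏ i, F i (x i) = ∏ i, ((1 + m i) / 2 * F i true + (1 - m i) / 2 * F i false) := by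
  have e : ∀ i : Fin n, (1 + m i) / 2 * F i true + (1 - m i) / 2 * F i false
      = ∑ b, (1 + m i * spin b) / 2 * F i b := fun i => by
    rw [Fintype.sum_bool, spin_true, spin_false]; ring
  simp only [e, Fintype.prod_sum, pw, ← Finset.prod_mul_distrib]

theorem sum_pw (m : Fin n → ℝ) : ∑ x, pw m x = 1 := by
  have h := sum_pw_prod m fun _ _ => 1
  simp only [Finset.prod_const_one, mul_one] at h
  rw [h]
  exact Finset.prod_eq_one fun i _ => by ring

theorem kpow_nonneg {α : Type*} {w : α → ℝ} (hw : ∀ x, 0 ≤ w x) (ω : Fin k → α) : 0 ≤ kpow w ω :=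
  Finset.prod_nonneg fun a _ => hw _

theorem sum_kpow {α : Type*} [Fintype α] {w : α → ℝ} (hw : ∑ x, w x = 1) :
    ∑ ω : Fin k → α, kpow w ω = 1 := by
  simp only [kpow]
  rw [← Fintype.prod_sum (fun _ : Fin k => w)]
  simp [hw]

/-- Resampling one replica. -/
theorem sum_kpow_split {α : Type*} [Fintype α] {w : α → ℝ} (hw : ∑ x, w x = 1) (b : Fin k)
    (F : (Fin k → α) → ℝ) :
    ∑ ω, kpow w ω * F ω = ∑ ω, kpow w ω * ∑ x, w x * F (Function.update ω b x) := by
  have hr : ∑ ω : Fin k → α, kpow w ω * ∑ x, w x * F (Function.update ω b x)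
      = ∑ p : (Fin k → α) × α, kpow w p.1 * w p.2 * F (Function.update p.1 b p.2) := by
    rw [Fintype.sum_prod_type]
    exact Finset.sum_congr rfl fun ω _ => by
      rw [Finset.mul_sum]; exact Finset.sum_congr rfl fun x _ => by ring
  have hinv : Function.Involutive fun p : (Fin k → α) × α => (Function.update p.1 b p.2, p.1 b) :=
    fun p => by simp
  have hW : ∀ (ω : Fin k → α) (x : α), kpow w (Function.update ω b x) * w (ω b) = kpow w ω * w x := by
    intro ω x
    rw [kpow, kpow, ← Finset.mul_prod_erase _ _ (Finset.mem_univ b),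
      ← Finset.mul_prod_erase _ (fun a => w (ω a)) (Finset.mem_univ b), Function.update_self,
      Finset.prod_congr rfl fun a ha => by rw [Function.update_of_ne (Finset.ne_of_mem_erase ha)]]
    ring
  rw [hr]
  refine Eq.symm ((Finset.sum_congr rfl fun p _ => ?_).trans
    ((Equiv.sum_comp hinv.toPerm fun p : (Fin k → α) × α => kpow w p.1 * w p.2 * F p.1).trans ?_))
  · simp only [Function.Involutive.coe_toPerm]
    rw [hW]
  · rw [Fintype.sum_prod_type]
    refine Finset.sum_congr rfl fun ω _ => ?_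
    dsimp only
    rw [← Finset.sum_mul, ← Finset.mul_sum, hw, mul_one]

/-- The marginal of one replica. -/
theorem sum_kpow_one {α : Type*} [Fintype α] {w : α → ℝ} (hw : ∑ x, w x = 1) (a : Fin k) (F : α → ℝ) :
    ∑ ω, kpow w ω * F (ω a) = ∑ x, w x * F x := by
  rw [sum_kpow_split hw a]
  simp only [Function.update_self, ← Finset.sum_mul, sum_kpow hw, one_mul]

/-- The marginal of two replicas. -/
theorem sum_kpow_two {α : Type*} [Fintype α] {w : α → ℝ} (hw : ∑ x, w x = 1) {a b : Fin k} (hab : a ≠ b)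
    (F : α → α → ℝ) : ∑ ω, kpow w ω * F (ω a) (ω b) = ∑ y, w y * ∑ x, w x * F x y := by
  rw [sum_kpow_split hw a]
  simp only [Function.update_self, Function.update_of_ne hab.symm]
  exact sum_kpow_one hw b fun y => ∑ x, w x * F x y

theorem bern_mgf {m : ℝ} (hm : |m| ≤ 1) (t : ℝ) :
    (1 + m) / 2 * exp (t * (1 - m)) + (1 - m) / 2 * exp (t * (-1 - m)) ≤ exp (t ^ 2 / 2) := by
  obtain ⟨h1, h2⟩ := abs_le.1 hm
  set D : ℝ → ℝ := fun t => cosh t + m * sinh t
  have hD : ∀ t, 0 < D t := fun t => by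
    have e : D t = (1 + m) / 2 * exp t + (1 - m) / 2 * exp (-t) := by
      simp only [D, cosh_eq, sinh_eq]; ring
    rw [e]
    nlinarith [exp_pos t, exp_pos (-t), mul_nonneg (by linarith : (0 : ℝ) ≤ 1 + m) (exp_pos t).le,
      mul_nonneg (by linarith : (0 : ℝ) ≤ 1 - m) (exp_pos (-t)).le]
  set f : ℝ → ℝ := fun t => t ^ 2 / 2 + t * m - log (D t)
  set f' : ℝ → ℝ := fun t => t + m - (sinh t + m * cosh t) / D t
  have hd : ∀ t, HasDerivAt f (f' t) t := fun t => by
    refine (((hasDerivAt_pow 2 t).div_const 2).add ((hasDerivAt_id t).mul_const m)).sub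
      (((hasDerivAt_cosh t).add ((hasDerivAt_sinh t).const_mul m)).log (hD t).ne') |>.congr_deriv ?_
    simp [f', D]
  have hd2 : ∀ t, HasDerivAt f' (((sinh t + m * cosh t) / D t) ^ 2) t := fun t => by
    refine ((hasDerivAt_id t).add_const m).sub (((hasDerivAt_sinh t).add ((hasDerivAt_cosh t).const_mul m)).div
      ((hasDerivAt_cosh t).add ((hasDerivAt_sinh t).const_mul m)) (hD t).ne') |>.congr_deriv ?_
    have := (hD t).ne'
    simp only [D, Pi.add_apply] at this ⊢
    field_simp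
    ring
  have hmono : Monotone f' := monotone_of_deriv_nonneg (fun t => (hd2 t).differentiableAt) fun t => by
    rw [(hd2 t).deriv]; positivity
  have h0 : f' 0 = 0 := by simp [f', D]
  have hf : 0 ≤ f t := by
    have hf0 : f 0 = 0 := by simp [f, D]
    rcases le_total 0 t with ht | ht
    · rw [← hf0]
      refine (monotoneOn_of_deriv_nonneg (convex_Icc 0 t) (fun s _ => (hd s).continuousAt.continuousWithinAt)
        (fun s _ => (hd s).differentiableAt.differentiableWithinAt) fun s hs => ?_)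
        (Set.left_mem_Icc.2 ht) (Set.right_mem_Icc.2 ht) ht
      rw [interior_Icc] at hs
      rw [(hd s).deriv, ← h0]
      exact hmono hs.1.le
    · rw [← hf0]
      refine (antitoneOn_of_deriv_nonpos (convex_Icc t 0) (fun s _ => (hd s).continuousAt.continuousWithinAt)
        (fun s _ => (hd s).differentiableAt.differentiableWithinAt) fun s hs => ?_)
        (Set.left_mem_Icc.2 ht) (Set.right_mem_Icc.2 ht) ht
      rw [interior_Icc] at hs
      rw [(hd s).deriv, ← h0]
      exact hmono hs.2.le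
  have e : (1 + m) / 2 * exp (t * (1 - m)) + (1 - m) / 2 * exp (t * (-1 - m)) = exp (-(t * m)) * D t := by
    simp only [D, cosh_eq, sinh_eq]
    rw [show t * (1 - m) = -(t * m) + t by ring, show t * (-1 - m) = -(t * m) + -t by ring, exp_add, exp_add]
    ring
  rw [e, ← exp_log (hD t), ← exp_add, exp_le_exp]
  simp only [f] at hf
  linarith

theorem mgf_pw {m : Fin n → ℝ} (hm : ∀ i, |m i| ≤ 1) (v : Fin n → ℝ) :
    ∑ x, pw m x * exp (dot v (xi m x)) ≤ exp ((∑ i, v i ^ 2) / 2) := by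
  simp only [dot, xi, exp_sum]
  rw [sum_pw_prod m fun i b => exp (v i * (spin b - m i)), Finset.sum_div, exp_sum]
  simp only [spin_true, spin_false]
  refine Finset.prod_le_prod (fun i _ => ?_) fun i _ => bern_mgf (hm i) (v i)
  obtain ⟨h1, h2⟩ := abs_le.1 (hm i)
  exact add_nonneg (mul_nonneg (by linarith) (exp_pos _).le) (mul_nonneg (by linarith) (exp_pos _).le)

theorem tail_pw {m : Fin n → ℝ} (hm : ∀ i, |m i| ≤ 1) {v : Fin n → ℝ} {S a : ℝ}
    (hS : ∑ i, v i ^ 2 ≤ S) (hS0 : 0 < S) (ha : 0 ≤ a) :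
    ∑ x, pw m x * (if a < |dot v (xi m x)| then 1 else 0) ≤ 2 * exp (-a ^ 2 / (2 * S)) := by
  set l := a / S with hl
  have hl0 : 0 ≤ l := div_nonneg ha hS0.le
  have hpt : ∀ x, (if a < |dot v (xi m x)| then (1 : ℝ) else 0)
      ≤ exp (-(l * a)) * exp (dot (fun i => l * v i) (xi m x))
        + exp (-(l * a)) * exp (dot (fun i => -l * v i) (xi m x)) := fun x => by
    have e : ∀ c : ℝ, dot (fun i => c * v i) (xi m x) = c * dot v (xi m x) := fun c => by
      simp only [dot, Finset.mul_sum]; exact Finset.sum_congr rfl fun i _ => by ring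
    rw [e, e, ← exp_add, ← exp_add]
    split_ifs with h
    · rcases lt_abs.1 h with h | h
      · exact le_add_of_le_of_nonneg (one_le_exp (by nlinarith)) (exp_pos _).le
      · exact le_add_of_nonneg_of_le (exp_pos _).le (one_le_exp (by nlinarith))
    · positivity
  have hmg : ∀ c : ℝ, c ^ 2 = l ^ 2 →
      ∑ x, pw m x * exp (dot (fun i => c * v i) (xi m x)) ≤ exp (l ^ 2 * S / 2) := fun c hc => by
    refine (mgf_pw hm _).trans (exp_le_exp.2 ?_)
    simp only [mul_pow, ← Finset.mul_sum, hc]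
    nlinarith [mul_le_mul_of_nonneg_left hS (sq_nonneg l)]
  refine (Finset.sum_le_sum fun x _ => mul_le_mul_of_nonneg_left (hpt x) (pw_nonneg hm x)).trans ?_
  simp only [mul_add, Finset.sum_add_distrib, mul_left_comm (pw m _), ← Finset.mul_sum, two_mul]
  have e2 : exp (-(l * a)) * exp (l ^ 2 * S / 2) = exp (-a ^ 2 / (2 * S)) := by
    rw [← exp_add, hl]; congr 1; field_simp; ring
  calc exp (-(l * a)) * ∑ x, pw m x * exp (dot (fun i => l * v i) (xi m x))
        + exp (-(l * a)) * ∑ x, pw m x * exp (dot (fun i => -l * v i) (xi m x))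
      ≤ exp (-(l * a)) * exp (l ^ 2 * S / 2) + exp (-(l * a)) * exp (l ^ 2 * S / 2) :=
        add_le_add (mul_le_mul_of_nonneg_left (hmg l rfl) (exp_pos _).le)
          (mul_le_mul_of_nonneg_left (hmg (-l) (neg_sq l)) (exp_pos _).le)
    _ = _ := by rw [e2]; ring_nf

theorem sq_xi_le {m : Fin n → ℝ} (hm : ∀ i, |m i| ≤ 1) (x : Fin n → Bool) :
    ∑ i, xi m x i ^ 2 ≤ 4 * n := by
  refine (Finset.sum_le_sum (g := fun _ => (4 : ℝ)) fun i _ => ?_).trans (le_of_eq (by simp; ring))
  obtain ⟨h1, h2⟩ := abs_le.1 (hm i)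
  simp only [xi]
  rcases spin_cases (x i) with h | h <;> rw [h] <;> nlinarith

theorem dot_xi_self (m : Fin n → ℝ) (hn : 0 < n) (x : Fin n → Bool) :
    dot (xi m x) (xi m x) = n * (1 - qOf m) - 2 * dot m (xi m x) := by
  have hn' : (n : ℝ) ≠ 0 := by exact_mod_cast hn.ne'
  have e : (n : ℝ) * (1 - qOf m) = ∑ i, (1 - m i ^ 2) := by
    simp [qOf, mul_sub, mul_div_cancel₀ _ hn']
  rw [e, dot, dot, Finset.mul_sum, ← Finset.sum_sub_distrib]
  refine Finset.sum_congr rfl fun i _ => ?_
  simp only [xi]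
  linear_combination spin_mul_spin (x i)

/-- Small overlaps of the centred replicas among themselves and with the mean. -/
def Mixed (m : Fin n → ℝ) (ρ : ℝ) (ω : Fin k → Fin n → Bool) : Prop :=
  (∀ a b, a ≠ b → |dot (xi m (ω a)) (xi m (ω b))| ≤ ρ * n) ∧ ∀ a, |dot m (xi m (ω a))| ≤ ρ * n

open scoped Classical in
/-- The indicator of `Mixed`. -/
noncomputable def mixedInd (m : Fin n → ℝ) (ρ : ℝ) (ω : Fin k → Fin n → Bool) : ℝ :=
  if Mixed m ρ ω then 1 else 0

theorem mixedInd_nonneg (m : Fin n → ℝ) (ρ : ℝ) (ω : Fin k → Fin n → Bool) : 0 ≤ mixedInd m ρ ω := by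
  unfold mixedInd; split_ifs <;> norm_num

theorem mixedInd_le_one (m : Fin n → ℝ) (ρ : ℝ) (ω : Fin k → Fin n → Bool) : mixedInd m ρ ω ≤ 1 := by
  unfold mixedInd; split_ifs <;> norm_num

theorem one_sub_mixed_le (m : Fin n → ℝ) (ρ : ℝ) (ω : Fin k → Fin n → Bool) :
    1 - mixedInd m ρ ω ≤ (∑ a, ∑ b ∈ univ.erase a,
        (if ρ * n < |dot (xi m (ω a)) (xi m (ω b))| then (1 : ℝ) else 0))
      + ∑ a, (if ρ * n < |dot m (xi m (ω a))| then (1 : ℝ) else 0) := by
  have hn1 : ∀ a, 0 ≤ ∑ b ∈ univ.erase a,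
      (if ρ * n < |dot (xi m (ω a)) (xi m (ω b))| then (1 : ℝ) else 0) := fun a =>
    Finset.sum_nonneg fun b _ => by split_ifs <;> norm_num
  have hn2 : ∀ a, 0 ≤ (if ρ * n < |dot m (xi m (ω a))| then (1 : ℝ) else 0) := fun a => by
    split_ifs <;> norm_num
  unfold mixedInd
  split_ifs with h
  · rw [sub_self]
    exact add_nonneg (Finset.sum_nonneg fun a _ => hn1 a) (Finset.sum_nonneg fun a _ => hn2 a)
  · rw [sub_zero]
    simp only [Mixed, not_and_or, not_forall, not_le] at h
    rcases h with ⟨a, b, hab, h⟩ | ⟨a, h⟩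
    · refine le_add_of_le_of_nonneg ?_ (Finset.sum_nonneg fun a _ => hn2 a)
      refine le_trans ?_ (Finset.single_le_sum (fun a _ => hn1 a) (Finset.mem_univ a))
      refine le_trans ?_ (Finset.single_le_sum (fun b _ => by split_ifs <;> norm_num)
        (Finset.mem_erase.2 ⟨hab.symm, Finset.mem_univ b⟩))
      rw [if_pos h]
    · refine le_add_of_nonneg_of_le (Finset.sum_nonneg fun a _ => hn1 a) ?_
      refine le_trans ?_ (Finset.single_le_sum (fun a _ => hn2 a) (Finset.mem_univ a))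
      rw [if_pos h]

/-- Replicas of a product law have small overlaps. -/
theorem sum_mixed_ge {m : Fin n → ℝ} (hm : ∀ i, |m i| ≤ 1) {ρ : ℝ} (hρ : 0 ≤ ρ) (hn : 0 < n) :
    1 - 2 * ((k : ℝ) * k + k) * exp (-(ρ ^ 2 * n / 8))
      ≤ ∑ ω : Fin k → Fin n → Bool, kpow (pw m) ω * mixedInd m ρ ω := by
  have hn' : (0 : ℝ) < n := by exact_mod_cast hn
  set E := exp (-(ρ ^ 2 * n / 8)) with hE
  have e : -((ρ * n) ^ 2) / (2 * (4 * n)) = -(ρ ^ 2 * n / 8) := by field_simp; ring
  have hone : ∀ a : Fin k,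
      ∑ ω : Fin k → Fin n → Bool, kpow (pw m) ω * (if ρ * n < |dot m (xi m (ω a))| then 1 else 0) ≤ 2 * E := by
    intro a
    refine (sum_kpow_one (sum_pw m) a fun x => if ρ * n < |dot m (xi m x)| then (1 : ℝ) else 0).trans_le ?_
    refine (tail_pw hm (S := 4 * n) ?_ (by positivity) (by positivity)).trans_eq (by rw [e])
    refine (Finset.sum_le_sum (g := fun _ => (4 : ℝ)) fun i _ => ?_).trans (le_of_eq (by simp; ring))
    linarith [(sq_le_one_iff_abs_le_one (m i)).2 (hm i)]
  have htwo : ∀ a : Fin k, ∀ b ∈ univ.erase a, ∑ ω : Fin k → Fin n → Bool,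
      kpow (pw m) ω * (if ρ * n < |dot (xi m (ω a)) (xi m (ω b))| then 1 else 0) ≤ 2 * E := by
    intro a b hb
    refine (sum_kpow_two (sum_pw m) (Finset.ne_of_mem_erase hb).symm
      fun x y => if ρ * n < |dot (xi m x) (xi m y)| then (1 : ℝ) else 0).trans_le ?_
    refine (Finset.sum_le_sum (g := fun y => pw m y * (2 * E)) fun y _ =>
      mul_le_mul_of_nonneg_left ?_ (pw_nonneg hm y)).trans (le_of_eq (by rw [← Finset.sum_mul, sum_pw, one_mul]))
    simp only [dot_comm _ (xi m y)]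
    exact (tail_pw hm (sq_xi_le hm y) (by positivity) (by positivity)).trans_eq (by rw [e])
  have hsum := Finset.sum_le_sum fun ω (_ : ω ∈ univ) =>
    mul_le_mul_of_nonneg_left (one_sub_mixed_le (k := k) m ρ ω) (kpow_nonneg (pw_nonneg hm) ω)
  simp only [mul_sub, mul_one, Finset.sum_sub_distrib, sum_kpow (sum_pw m), mul_add, Finset.sum_add_distrib,
    Finset.mul_sum] at hsum
  rw [Finset.sum_comm, Finset.sum_comm (f := fun (ω : Fin k → Fin n → Bool) a => kpow (pw m) ω *
    (if ρ * n < |dot m (xi m (ω a))| then (1 : ℝ) else 0))] at hsum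
  have h1 : ∑ a : Fin k, ∑ ω : Fin k → Fin n → Bool, ∑ b ∈ univ.erase a,
      kpow (pw m) ω * (if ρ * n < |dot (xi m (ω a)) (xi m (ω b))| then 1 else 0) ≤ k * (k * (2 * E)) := by
    refine (Finset.sum_le_sum fun a _ => ?_).trans (le_of_eq (by simp : ∑ _a : Fin k, (k : ℝ) * (2 * E) = _))
    rw [Finset.sum_comm]
    refine (Finset.sum_le_card_nsmul _ _ _ (htwo a)).trans ?_
    rw [nsmul_eq_mul]
    refine mul_le_mul_of_nonneg_right ?_ (by positivity)
    exact_mod_cast (Finset.card_erase_le).trans (by simp)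
  have h2 := (Finset.sum_le_sum fun a (_ : a ∈ univ) => hone a).trans
    (le_of_eq (by simp : ∑ _a : Fin k, 2 * E = (k : ℝ) * (2 * E)))
  linarith [hsum.trans (add_le_add h1 h2)]

end Vale.Agent.P150.Beyond.Stability
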