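import Vale.Agent.P150.Beyond.Stability.Product
import Vale.Agent.P150.Beyond.Stability.Dev

/-!
# P150 beyond one half: the replicated partition function at a fixed mean

First and compensated second moment on the event of small overlaps, with exponential concentration.
-/

open Finset MeasureTheory ProbabilityTheory Real Filter

namespace Vale.Agent.P150.Beyond.Stability

open Vale.Agent.P150.Fast Vale.Agent.P150.Beyond

variable {n k : ℕ}

/-- The coefficient of a coupling in the replicated energy. -/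
noncomputable def coefW (θ : ℝ) (m : Fin n → ℝ) (ω : Fin k → Fin n → Bool) (e : Edge n) : ℝ :=
  θ / √(n : ℝ) * ∑ a, xi m (ω a) e.1.1 * xi m (ω a) e.1.2

/-- The weights restricted to small overlaps. -/
noncomputable def wt (m : Fin n → ℝ) (ρ : ℝ) (ω : Fin k → Fin n → Bool) : ℝ :=
  kpow (pw m) ω * mixedInd m ρ ω

/-- The replicated partition function. -/
noncomputable def rep (k : ℕ) (θ : ℝ) (m : Fin n → ℝ) (ρ : ℝ) (g : Edge n → ℝ) : ℝ :=
  ∑ ω : Fin k → Fin n → Bool, wt m ρ ω * exp (∑ e, g e * coefW θ m ω e)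

/-- The error of the variance. -/
noncomputable def vErr (k n : ℕ) (ρ : ℝ) : ℝ := 2 * ρ + k * ρ ^ 2 + 4 * k / n

theorem wt_nonneg {m : Fin n → ℝ} (hm : ∀ i, |m i| ≤ 1) (ρ : ℝ) (ω : Fin k → Fin n → Bool) :
    0 ≤ wt m ρ ω :=
  mul_nonneg (kpow_nonneg (pw_nonneg hm) ω) (mixedInd_nonneg m ρ ω)

theorem wt_ne_zero {m : Fin n → ℝ} {ρ : ℝ} {ω : Fin k → Fin n → Bool} (h : wt m ρ ω ≠ 0) :
    Mixed m ρ ω := by
  by_contra hc
  exact h (by simp [wt, mixedInd, hc])

theorem sum_wt_le {m : Fin n → ℝ} (hm : ∀ i, |m i| ≤ 1) (ρ : ℝ) :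
    ∑ ω : Fin k → Fin n → Bool, wt m ρ ω ≤ 1 := by
  refine (Finset.sum_le_sum fun ω _ => ?_).trans (le_of_eq (sum_kpow (k := k) (sum_pw m)))
  exact mul_le_of_le_one_right (kpow_nonneg (pw_nonneg hm) ω) (mixedInd_le_one m ρ ω)

theorem energy_coefW (θ : ℝ) (m : Fin n → ℝ) (g : Edge n → ℝ) (ω : Fin k → Fin n → Bool) :
    ∑ e, g e * coefW θ m ω e = θ / 2 * ∑ a, bil g (xi m (ω a)) (xi m (ω a)) := by
  simp only [bil, form_eq_quad, quad, coefW, Finset.mul_sum, Finset.sum_div]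
  rw [Finset.sum_comm]
  exact Finset.sum_congr rfl fun a _ => Finset.sum_congr rfl fun e _ => by ring

theorem gram_cross {k l : ℕ} (u : Fin k → Fin n → ℝ) (v : Fin l → Fin n → ℝ) :
    2 * ∑ e : Edge n, (∑ a, u a e.1.1 * u a e.1.2) * (∑ b, v b e.1.1 * v b e.1.2)
      = (∑ a, ∑ b, dot (u a) (v b) ^ 2) - ∑ i, (∑ a, u a i ^ 2) * ∑ b, v b i ^ 2 := by
  rw [sum_edge (fun i j => (∑ a, u a i * u a j) * ∑ b, v b i * v b j) fun i j => by
    simp only [mul_comm (u _ i), mul_comm (v _ i)]]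
  congr 1
  · calc ∑ i, ∑ j, (∑ a, u a i * u a j) * ∑ b, v b i * v b j
        = ∑ i, ∑ j, ∑ a, ∑ b, (u a i * v b i) * (u a j * v b j) :=
          Finset.sum_congr rfl fun i _ => Finset.sum_congr rfl fun j _ => by
            rw [Finset.sum_mul_sum]
            exact Finset.sum_congr rfl fun a _ => Finset.sum_congr rfl fun b _ => by ring
      _ = ∑ i, ∑ a, ∑ j, ∑ b, (u a i * v b i) * (u a j * v b j) :=
          Finset.sum_congr rfl fun i _ => Finset.sum_comm
      _ = ∑ a, ∑ i, ∑ j, ∑ b, (u a i * v b i) * (u a j * v b j) := Finset.sum_comm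
      _ = ∑ a, ∑ i, ∑ b, ∑ j, (u a i * v b i) * (u a j * v b j) :=
          Finset.sum_congr rfl fun a _ => Finset.sum_congr rfl fun i _ => Finset.sum_comm
      _ = ∑ a, ∑ b, ∑ i, ∑ j, (u a i * v b i) * (u a j * v b j) :=
          Finset.sum_congr rfl fun a _ => Finset.sum_comm
      _ = ∑ a, ∑ b, dot (u a) (v b) ^ 2 :=
          Finset.sum_congr rfl fun a _ => Finset.sum_congr rfl fun b _ => by rw [dot, sq, Finset.sum_mul_sum]
  · simp only [sq]

theorem sum_coefW_mul (θ : ℝ) (m : Fin n → ℝ) (ω ω' : Fin k → Fin n → Bool) :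
    ∑ e, coefW θ m ω e * coefW θ m ω' e = θ ^ 2 / (2 * n) *
      ((∑ a, ∑ b, dot (xi m (ω a)) (xi m (ω' b)) ^ 2)
        - ∑ i, (∑ a, xi m (ω a) i ^ 2) * ∑ b, xi m (ω' b) i ^ 2) := by
  rw [← gram_cross, Finset.mul_sum, Finset.mul_sum]
  refine Finset.sum_congr rfl fun e _ => ?_
  have h : (θ / √(n : ℝ)) * (θ / √(n : ℝ)) = θ ^ 2 / n := by
    rw [div_mul_div_comm, mul_self_sqrt (Nat.cast_nonneg n), sq]
  simp only [coefW]
  linear_combination ((∑ a, xi m (ω a) e.1.1 * xi m (ω a) e.1.2)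
    * ∑ b, xi m (ω' b) e.1.1 * xi m (ω' b) e.1.2) * h

theorem gap_q_mem {m : Fin n → ℝ} (hm : ∀ i, |m i| ≤ 1) : 1 - qOf m ∈ Set.Icc (0 : ℝ) 1 := by
  have h0 : 0 ≤ qOf m := by unfold qOf; positivity
  refine ⟨?_, by linarith⟩
  rcases Nat.eq_zero_or_pos n with rfl | hn
  · simp [qOf]
  rw [sub_nonneg, qOf, div_le_one (by exact_mod_cast hn)]
  exact (Finset.sum_le_sum fun i _ => (sq_le_one_iff_abs_le_one _).2 (hm i)).trans (by simp)

theorem variance_bound {θ ρ : ℝ} {m : Fin n → ℝ} (hn : 0 < n) (hθ : |θ| ≤ 1) (hρ0 : 0 ≤ ρ) (hρ1 : ρ ≤ 1)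
    (hm : ∀ i, |m i| ≤ 1) {ω : Fin k → Fin n → Bool} (hω : Mixed m ρ ω) :
    |(∑ e, coefW θ m ω e ^ 2) / 2 - k * n * (θ ^ 2 * (1 - qOf m) ^ 2 / 4)| ≤ k * n * vErr k n ρ := by
  have hn' : (0 : ℝ) < n := by exact_mod_cast hn
  obtain ⟨hs0, hs1⟩ := gap_q_mem hm
  set s := 1 - qOf m
  set G : Fin k → Fin k → ℝ := fun a b => dot (xi m (ω a)) (xi m (ω b))
  have hdiag : ∀ a, |G a a - n * s| ≤ 2 * ρ * n := fun a => by
    simp only [G]
    rw [dot_xi_self m hn]
    have := hω.2 a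
    rw [abs_le] at this ⊢
    constructor <;> linarith
  have hlo : ∀ a, (n : ℝ) ^ 2 * s ^ 2 - 4 * ρ * n ^ 2 ≤ ∑ b, G a b ^ 2 := fun a => by
    refine le_trans ?_ (Finset.single_le_sum (fun b _ => sq_nonneg (G a b)) (Finset.mem_univ a))
    have h := abs_le.1 (hdiag a)
    nlinarith [sq_nonneg (G a a - n * s), mul_le_mul_of_nonneg_left hs1 (mul_nonneg hρ0 (sq_nonneg (n : ℝ))),
      mul_le_mul_of_nonneg_left h.1 (mul_nonneg hn'.le hs0)]
  have hhi : ∀ a, ∑ b, G a b ^ 2 ≤ (n : ℝ) ^ 2 * s ^ 2 + 8 * ρ * n ^ 2 + k * ρ ^ 2 * n ^ 2 := fun a => by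
    rw [← Finset.add_sum_erase _ _ (Finset.mem_univ a)]
    refine add_le_add ?_ ((Finset.sum_le_card_nsmul _ _ ((ρ * n) ^ 2) fun b hb => ?_).trans ?_)
    · have h := abs_le.1 (hdiag a)
      have h2 : (G a a - n * s) ^ 2 ≤ (2 * ρ * n) ^ 2 := sq_le_sq' (by linarith) h.2
      nlinarith [mul_le_mul_of_nonneg_left h.2 (mul_nonneg hn'.le hs0),
        mul_le_mul_of_nonneg_left hs1 (mul_nonneg hρ0 (sq_nonneg (n : ℝ))),
        mul_le_mul_of_nonneg_left hρ1 (mul_nonneg hρ0 (sq_nonneg (n : ℝ)))]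
    · rw [← sq_abs]
      exact pow_le_pow_left₀ (abs_nonneg _) (hω.1 a b (Finset.ne_of_mem_erase hb).symm) 2
    · rw [nsmul_eq_mul, show (k : ℝ) * ρ ^ 2 * n ^ 2 = k * (ρ * n) ^ 2 by ring]
      refine mul_le_mul_of_nonneg_right ?_ (sq_nonneg _)
      exact_mod_cast (Finset.card_erase_le).trans (by simp)
  set D := ∑ i, (∑ a, xi m (ω a) i ^ 2) * ∑ b, xi m (ω b) i ^ 2
  have hx : ∀ a i, xi m (ω a) i ^ 2 ≤ 4 := fun a i => by
    obtain ⟨h1, h2⟩ := abs_le.1 (hm i)
    simp only [xi]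
    rcases spin_cases (ω a i) with h | h <;> rw [h] <;> nlinarith
  have hD : D ≤ 16 * k ^ 2 * n := by
    have h4 : ∀ i, ∑ a, xi m (ω a) i ^ 2 ≤ 4 * k := fun i =>
      (Finset.sum_le_sum fun a _ => hx a i).trans (le_of_eq (by simp; ring))
    refine (Finset.sum_le_sum (g := fun _ => (4 * k : ℝ) * (4 * k)) fun i _ =>
      mul_le_mul (h4 i) (h4 i) (by positivity) (by positivity)).trans (le_of_eq (by simp; ring))
  have hD0 : 0 ≤ D := Finset.sum_nonneg fun i _ => by positivity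
  have hS1 := Finset.sum_le_sum fun a (_ : a ∈ univ) => hlo a
  have hS2 := Finset.sum_le_sum fun a (_ : a ∈ univ) => hhi a
  simp only [Finset.sum_const, Finset.card_univ, Fintype.card_fin, nsmul_eq_mul] at hS1 hS2
  have e : (∑ e, coefW θ m ω e ^ 2) / 2 = θ ^ 2 / (4 * n) * ((∑ a, ∑ b, G a b ^ 2) - D) := by
    simp only [sq (coefW θ m ω _)]
    rw [sum_coefW_mul]
    ring
  have hθ2 : θ ^ 2 ≤ 1 := (sq_le_one_iff_abs_le_one _).2 hθ
  rw [e]
  set T := (∑ a, ∑ b, G a b ^ 2) - D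
  have hT : |T - k * (n ^ 2 * s ^ 2)| ≤ k * (8 * ρ * n ^ 2 + k * ρ ^ 2 * n ^ 2 + 16 * k * n) := by
    simp only [T]
    rw [abs_le]
    have : 0 ≤ (k : ℝ) * (k * ρ ^ 2 * n ^ 2) := by positivity
    have : 0 ≤ (k : ℝ) * (16 * k * n) := by positivity
    have : 0 ≤ (k : ℝ) * (ρ * n ^ 2) := by positivity
    constructor <;> nlinarith
  have e2 : θ ^ 2 / (4 * n) * T - k * n * (θ ^ 2 * s ^ 2 / 4) = θ ^ 2 / (4 * n) * (T - k * (n ^ 2 * s ^ 2)) := by
    field_simp
  rw [e2, abs_mul, abs_of_nonneg (by positivity : (0 : ℝ) ≤ θ ^ 2 / (4 * n))]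
  calc θ ^ 2 / (4 * n) * |T - k * (n ^ 2 * s ^ 2)|
      ≤ 1 / (4 * n) * (k * (8 * ρ * n ^ 2 + k * ρ ^ 2 * n ^ 2 + 16 * k * n)) := by
        refine mul_le_mul ?_ hT (abs_nonneg _) (by positivity)
        gcongr
    _ = k * n * (2 * ρ + k * ρ ^ 2 / 4 + 4 * k / n) := by field_simp; ring
    _ ≤ k * n * vErr k n ρ := by
        refine mul_le_mul_of_nonneg_left ?_ (by positivity)
        unfold vErr
        linarith [show 0 ≤ (k : ℝ) * ρ ^ 2 by positivity]

theorem integral_exp_edge (v : Edge n → ℝ) :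
    Integrable (fun g => exp (∑ e, g e * v e)) (stdPi (Edge n)) ∧
      ∫ g, exp (∑ e, g e * v e) ∂stdPi (Edge n) = exp ((∑ e, v e ^ 2) / 2) := by
  have h1 := integrable_exp_dot (κ := Edge n) v
  have h2 := integral_exp_dot (κ := Edge n) v
  simp only [mul_comm (v _)] at h1 h2
  exact ⟨h1, h2⟩

/-- First moment. -/
theorem rep_upper {θ ρ : ℝ} {m : Fin n → ℝ} (hn : 0 < n) (hθ : |θ| ≤ 1) (hρ0 : 0 ≤ ρ) (hρ1 : ρ ≤ 1)
    (hm : ∀ i, |m i| ≤ 1) (b : ℝ) :
    (stdPi (Edge n)).real {g | exp b < rep k θ m ρ g}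
      ≤ exp (k * n * (θ ^ 2 * (1 - qOf m) ^ 2 / 4 + vErr k n ρ) - b) := by
  have hi : Integrable (rep k θ m ρ) (stdPi (Edge n)) :=
    integrable_finsetSum _ fun ω _ => (integral_exp_edge _).1.const_mul _
  have hnn : ∀ g, 0 ≤ rep k θ m ρ g := fun g =>
    Finset.sum_nonneg fun ω _ => mul_nonneg (wt_nonneg hm ρ ω) (exp_pos _).le
  have h := mul_meas_ge_le_integral_of_nonneg (Eventually.of_forall hnn) hi (exp b)
  have h1 : ∫ g, rep k θ m ρ g ∂stdPi (Edge n)
      ≤ exp (k * n * (θ ^ 2 * (1 - qOf m) ^ 2 / 4 + vErr k n ρ)) := by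
    unfold rep
    rw [integral_finsetSum _ fun ω _ => (integral_exp_edge _).1.const_mul _]
    simp only [integral_const_mul, (integral_exp_edge _).2]
    refine (Finset.sum_le_sum (g := fun ω : Fin k → Fin n → Bool => wt m ρ ω *
      exp (k * n * (θ ^ 2 * (1 - qOf m) ^ 2 / 4 + vErr k n ρ))) fun ω _ => ?_).trans ?_
    · by_cases h0 : wt m ρ ω = 0
      · simp [h0]
      · refine mul_le_mul_of_nonneg_left (exp_le_exp.2 ?_) (wt_nonneg hm ρ ω)
        have := (abs_le.1 (variance_bound hn hθ hρ0 hρ1 hm (wt_ne_zero h0))).2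
        linarith [mul_add ((k : ℝ) * n) (θ ^ 2 * (1 - qOf m) ^ 2 / 4) (vErr k n ρ)]
    · rw [← Finset.sum_mul]
      exact mul_le_of_le_one_left (exp_pos _).le (sum_wt_le hm ρ)
  refine (measureReal_mono fun g (hg : exp b < rep k θ m ρ g) => (show g ∈ {g | exp b ≤ rep k θ m ρ g} from
    hg.le)).trans ?_
  rw [exp_sub, le_div_iff₀' (exp_pos _)]
  exact h.trans h1

theorem cross_mgf {θ ρ : ℝ} {m : Fin n → ℝ} (hn : 0 < n) (hρ0 : 0 ≤ ρ)
    (hθρ : θ ^ 2 * (1 + 2 * ρ + k * ρ) ≤ 1 / 2) (hm : ∀ i, |m i| ≤ 1) {ω' : Fin k → Fin n → Bool}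
    (hω : Mixed m ρ ω') :
    ∑ ω : Fin k → Fin n → Bool, kpow (pw m) ω *
        exp (θ ^ 2 / (2 * n) * ∑ a, ∑ b, dot (xi m (ω a)) (xi m (ω' b)) ^ 2) ≤ 2 ^ (k * k) := by
  have hn' : (0 : ℝ) < n := by exact_mod_cast hn
  simp only [Finset.mul_sum, exp_sum]
  simp only [kpow, ← Finset.prod_mul_distrib]
  rw [← Fintype.prod_sum fun (_ : Fin k) x => pw m x * ∏ b, exp (θ ^ 2 / (2 * n) * dot (xi m x) (xi m (ω' b)) ^ 2)]
  rw [Finset.prod_const, Finset.card_univ, Fintype.card_fin, pow_mul]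
  refine pow_le_pow_left₀ (Finset.sum_nonneg fun x _ => mul_nonneg (pw_nonneg hm x)
    (Finset.prod_nonneg fun b _ => (exp_pos _).le)) ?_ k
  set V : (Fin k → ℝ) → Fin n → ℝ := fun z i => θ / √(n : ℝ) * ∑ b, z b * xi m (ω' b) i with hV
  have e : ∀ x, ∏ b, exp (θ ^ 2 / (2 * n) * dot (xi m x) (xi m (ω' b)) ^ 2)
      = ∫ z, exp (dot (V z) (xi m x)) ∂stdPi (Fin k) := fun x => by
    have h2 : ∀ z, dot (V z) (xi m x) = ∑ b, (θ / √(n : ℝ) * dot (xi m x) (xi m (ω' b))) * z b := fun z => by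
      simp only [hV, dot, Finset.mul_sum, Finset.sum_mul]
      rw [Finset.sum_comm]
      exact Finset.sum_congr rfl fun b _ => Finset.sum_congr rfl fun i _ => by ring
    simp only [h2]
    rw [integral_exp_dot, ← exp_sum]
    congr 1
    rw [Finset.sum_div]
    refine Finset.sum_congr rfl fun b _ => ?_
    rw [mul_pow, div_pow θ, sq_sqrt hn'.le]
    ring
  have hint : ∀ x, Integrable (fun z => exp (dot (V z) (xi m x))) (stdPi (Fin k)) := fun x => by
    have h2 : ∀ z, dot (V z) (xi m x) = ∑ b, (θ / √(n : ℝ) * dot (xi m x) (xi m (ω' b))) * z b := fun z => by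
      simp only [hV, dot, Finset.mul_sum, Finset.sum_mul]
      rw [Finset.sum_comm]
      exact Finset.sum_congr rfl fun b _ => Finset.sum_congr rfl fun i _ => by ring
    simp only [h2]
    exact integrable_exp_dot _
  simp only [e, ← integral_const_mul]
  rw [← integral_finsetSum _ fun x _ => (hint x).const_mul _]
  have hrow : ∀ b, ∑ c, |dot (xi m (ω' b)) (xi m (ω' c))| ≤ n * (1 + 2 * ρ + k * ρ) := fun b => by
    rw [← Finset.add_sum_erase _ _ (Finset.mem_univ b), mul_add, mul_add]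
    refine add_le_add ?_ ((Finset.sum_le_card_nsmul _ _ (ρ * n) fun c hc =>
      hω.1 b c (Finset.ne_of_mem_erase hc).symm).trans ?_)
    · rw [abs_of_nonneg (by unfold dot; exact Finset.sum_nonneg fun i _ => mul_self_nonneg _),
        dot_xi_self m hn]
      have := (abs_le.1 (hω.2 b)).1
      nlinarith [(gap_q_mem hm).2]
    · rw [nsmul_eq_mul, show (n : ℝ) * (k * ρ) = k * (ρ * n) by ring]
      refine mul_le_mul_of_nonneg_right ?_ (by positivity)
      exact_mod_cast (Finset.card_erase_le).trans (by simp)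
  have hVn : ∀ z, ∑ i, V z i ^ 2 ≤ (∑ b, z b ^ 2) / 2 := fun z => by
    have e2 : ∑ i, V z i ^ 2 = θ ^ 2 / n * ∑ b, ∑ c, z b * z c * dot (xi m (ω' b)) (xi m (ω' c)) := by
      simp only [hV, mul_pow, div_pow θ, sq_sqrt hn'.le, ← Finset.mul_sum]
      congr 1
      simp only [sq]
      simp only [Finset.sum_mul_sum, dot]
      simp only [Finset.mul_sum]
      rw [Finset.sum_comm]
      refine Finset.sum_congr rfl fun b _ => ?_
      rw [Finset.sum_comm]
      exact Finset.sum_congr rfl fun c _ => Finset.sum_congr rfl fun i _ => by ring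
    have h3 : ∑ b, ∑ c, z b * z c * dot (xi m (ω' b)) (xi m (ω' c))
        ≤ (n * (1 + 2 * ρ + k * ρ)) * ∑ b, z b ^ 2 := by
      calc ∑ b, ∑ c, z b * z c * dot (xi m (ω' b)) (xi m (ω' c))
          ≤ ∑ b, ∑ c, (z b ^ 2 / 2 + z c ^ 2 / 2) * |dot (xi m (ω' b)) (xi m (ω' c))| := by
            refine Finset.sum_le_sum fun b _ => Finset.sum_le_sum fun c _ => ?_
            refine (le_abs_self _).trans ?_
            rw [abs_mul]
            refine mul_le_mul_of_nonneg_right ?_ (abs_nonneg _)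
            rw [abs_le]
            constructor <;> nlinarith [sq_nonneg (z b + z c), sq_nonneg (z b - z c)]
        _ = (∑ b, z b ^ 2 / 2 * ∑ c, |dot (xi m (ω' b)) (xi m (ω' c))|)
            + ∑ c, z c ^ 2 / 2 * ∑ b, |dot (xi m (ω' c)) (xi m (ω' b))| := by
            simp only [add_mul, Finset.sum_add_distrib, Finset.mul_sum]
            congr 1
            rw [Finset.sum_comm]
            exact Finset.sum_congr rfl fun c _ => Finset.sum_congr rfl fun b _ => by rw [dot_comm]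
        _ ≤ _ := by
            rw [← two_mul, Finset.mul_sum, Finset.mul_sum]
            refine Finset.sum_le_sum fun b _ => ?_
            nlinarith [mul_le_mul_of_nonneg_left (hrow b) (sq_nonneg (z b))]
    rw [e2]
    refine (mul_le_mul_of_nonneg_left h3 (by positivity)).trans ?_
    rw [← mul_assoc, show θ ^ 2 / n * (n * (1 + 2 * ρ + k * ρ)) = θ ^ 2 * (1 + 2 * ρ + k * ρ) by field_simp]
    nlinarith [Finset.sum_nonneg fun b (_ : b ∈ (univ : Finset (Fin k))) => sq_nonneg (z b)]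
  have hq : ∀ z : Fin k → ℝ, exp ((∑ b, z b ^ 2) / 4) = ∏ b, exp (1 / 4 * z b ^ 2) := fun z => by
    rw [← exp_sum, ← Finset.mul_sum]; ring_nf
  have hIq : Integrable (fun z : Fin k → ℝ => exp ((∑ b, z b ^ 2) / 4)) (stdPi (Fin k)) := by
    simp only [hq]
    exact Integrable.fintype_prod fun b => (exp_sq_std (s := 1 / 4) (by norm_num)).1
  refine (integral_mono (integrable_finsetSum _ fun x _ => (hint x).const_mul _) hIq fun z => ?_).trans ?_
  · exact (mgf_pw hm (V z)).trans (exp_le_exp.2 (by linarith [hVn z]))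
  · simp only [hq]
    rw [stdPi, integral_fintype_prod_eq_prod (𝕜 := ℝ) (f := fun _ y => exp (1 / 4 * y ^ 2)), Finset.prod_const,
      (exp_sq_std (s := 1 / 4) (by norm_num)).2, Finset.card_univ, Fintype.card_fin]
    refine pow_le_pow_left₀ (by positivity) ?_ k
    rw [div_le_iff₀ (by positivity)]
    have : (1 / 2 : ℝ) ≤ √(1 - 2 * (1 / 4)) := by
      rw [Real.le_sqrt (by norm_num) (by norm_num)]; norm_num
    linarith

/-- Compensated second moment and concentration. -/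
theorem rep_lower {θ ρ : ℝ} {m : Fin n → ℝ} (hn : 0 < n) (hk : 0 < k) (hθ : |θ| ≤ 1) (hρ0 : 0 ≤ ρ)
    (hρ1 : ρ ≤ 1) (hθρ : θ ^ 2 * (1 + 2 * ρ + k * ρ) ≤ 1 / 2) (herr : vErr k n ρ ≤ 1 / 4)
    (hm : ∀ i, |m i| ≤ 1)
    (hmix : 2 * ((k : ℝ) * k + k) * exp (-(ρ ^ 2 * n / 8)) ≤ 1 / 2) {r : ℝ} (hr : 0 ≤ r) :
    (stdPi (Edge n)).real
        {g | rep k θ m ρ g ≤ exp (k * n * (θ ^ 2 * (1 - qOf m) ^ 2 / 4 - vErr k n ρ - r) - log 4)}
      ≤ 16 * 2 ^ (k * k) * exp (-2 * r ^ 2 * (k * n) / π ^ 2) := by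
  have hn' : (0 : ℝ) < n := by exact_mod_cast hn
  have hk' : (0 : ℝ) < k := by exact_mod_cast hk
  set B := k * (n : ℝ) * (θ ^ 2 * (1 - qOf m) ^ 2 / 4 - vErr k n ρ) with hB
  set cs : (Fin k → Fin n → Bool) → ℝ := fun ω => ∑ e, coefW θ m ω e ^ 2 with hcs
  set c : (Fin k → Fin n → Bool) → ℝ := fun ω => wt m ρ ω * exp (-(cs ω / 2)) with hc
  set P : ℝ := ∑ ω : Fin k → Fin n → Bool, wt m ρ ω with hP
  have hPhalf : 1 / 2 ≤ P := le_trans (by linarith) (sum_mixed_ge (k := k) hm hρ0 hn)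
  have hc0 : ∀ ω, 0 ≤ c ω := fun ω => mul_nonneg (wt_nonneg hm ρ ω) (exp_pos _).le
  have hcpos : 0 < ∑ ω, c ω := lse_sum_pos (t := fun ω => -(cs ω / 2)) (wt_nonneg hm ρ) (by linarith)
  set Z : (Edge n → ℝ) → ℝ := fun g => ∑ ω, c ω * exp (∑ e, g e * coefW θ m ω e) with hZ
  have hZpos : ∀ g, 0 < Z g := fun g => lse_sum_pos hc0 hcpos _
  have hZi : Integrable Z (stdPi (Edge n)) :=
    integrable_finsetSum _ fun ω _ => (integral_exp_edge _).1.const_mul _
  have hEZ : ∫ g, Z g ∂stdPi (Edge n) = P := by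
    simp only [hZ]
    rw [integral_finsetSum _ fun ω _ => (integral_exp_edge _).1.const_mul _]
    simp only [integral_const_mul, (integral_exp_edge _).2]
    simp only [hc, hcs, mul_assoc, ← exp_add, neg_add_cancel, exp_zero, mul_one, hP]
  have e2 : ∀ g, Z g ^ 2 = ∑ ω', ∑ ω, c ω' * c ω * exp (∑ e, g e * (coefW θ m ω' e + coefW θ m ω e)) := fun g => by
    simp only [hZ, sq, Finset.sum_mul_sum]
    refine Finset.sum_congr rfl fun ω' _ => Finset.sum_congr rfl fun ω _ => ?_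
    simp only [mul_add, Finset.sum_add_distrib, exp_add]
    ring
  have hZi2 : Integrable (fun g => Z g ^ 2) (stdPi (Edge n)) := by
    simp only [e2]
    exact integrable_finsetSum _ fun ω' _ => integrable_finsetSum _ fun ω _ =>
      (integral_exp_edge _).1.const_mul _
  have hEZ2 : ∫ g, Z g ^ 2 ∂stdPi (Edge n) ≤ 2 ^ (k * k) := by
    simp only [e2]
    rw [integral_finsetSum _ fun ω' _ => integrable_finsetSum _ fun ω _ =>
      (integral_exp_edge _).1.const_mul _]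
    refine (Finset.sum_le_sum (g := fun ω' : Fin k → Fin n → Bool => wt m ρ ω' * 2 ^ (k * k)) fun ω' _ => ?_).trans
      (by rw [← Finset.sum_mul]; exact mul_le_of_le_one_left (by positivity) (sum_wt_le hm ρ))
    rw [integral_finsetSum _ fun ω _ => (integral_exp_edge _).1.const_mul _]
    simp only [integral_const_mul, (integral_exp_edge _).2]
    by_cases h0 : wt m ρ ω' = 0
    · simp [hc, h0]
    refine le_trans (Finset.sum_le_sum (g := fun ω : Fin k → Fin n → Bool => wt m ρ ω' * (kpow (pw m) ω *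
        exp (θ ^ 2 / (2 * n) * ∑ a, ∑ b, dot (xi m (ω a)) (xi m (ω' b)) ^ 2))) fun ω _ => ?_)
      (by rw [← Finset.mul_sum]
          exact mul_le_mul_of_nonneg_left (cross_mgf hn hρ0 hθρ hm (wt_ne_zero h0)) (wt_nonneg hm ρ ω'))
    have e3 : c ω' * c ω * exp ((∑ e, (coefW θ m ω' e + coefW θ m ω e) ^ 2) / 2)
        = wt m ρ ω' * (wt m ρ ω * exp (∑ e, coefW θ m ω e * coefW θ m ω' e)) := by
      simp only [hc]
      rw [show wt m ρ ω' * exp (-(cs ω' / 2)) * (wt m ρ ω * exp (-(cs ω / 2)))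
          * exp ((∑ e, (coefW θ m ω' e + coefW θ m ω e) ^ 2) / 2)
          = wt m ρ ω' * (wt m ρ ω * (exp (-(cs ω' / 2)) * exp (-(cs ω / 2))
            * exp ((∑ e, (coefW θ m ω' e + coefW θ m ω e) ^ 2) / 2))) by ring, ← exp_add, ← exp_add]
      congr 3
      simp only [hcs, Finset.sum_div, ← Finset.sum_neg_distrib, ← Finset.sum_add_distrib]
      exact Finset.sum_congr rfl fun e _ => by ring
    rw [e3, sum_coefW_mul]
    refine mul_le_mul_of_nonneg_left (mul_le_mul ?_ (exp_le_exp.2 ?_) (exp_pos _).le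
      (kpow_nonneg (pw_nonneg hm) ω)) (wt_nonneg hm ρ ω')
    · exact mul_le_of_le_one_right (kpow_nonneg (pw_nonneg hm) ω) (mixedInd_le_one m ρ ω)
    · refine mul_le_mul_of_nonneg_left (sub_le_self _ ?_) (by positivity)
      exact Finset.sum_nonneg fun i _ => by positivity
  -- Paley-Zygmund
  set S := {g : Edge n → ℝ | log (P / 2) ≤ lse c (coefW θ m) g}
  have hSm : MeasurableSet S := measurableSet_le measurable_const measurable_lse
  set C : ℝ := 2 ^ (k * k)
  have hC : 0 < C := by positivity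
  have hPZ : 1 / (16 * C) ≤ (stdPi (Edge n)).real S := by
    set l := P / (2 * C) with hl
    have hl0 : 0 < l := by positivity
    have hpt : ∀ g, Z g ≤ P / 2 + l / 2 * Z g ^ 2 + 1 / (2 * l) * S.indicator (fun _ => (1 : ℝ)) g := fun g => by
      by_cases hg : g ∈ S
      · rw [Set.indicator_of_mem hg, mul_one]
        have : Z g ≤ l / 2 * Z g ^ 2 + 1 / (2 * l) := by
          rw [show l / 2 * Z g ^ 2 + 1 / (2 * l) = Z g + (l * Z g - 1) ^ 2 / (2 * l) by field_simp; ring]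
          linarith [show 0 ≤ (l * Z g - 1) ^ 2 / (2 * l) by positivity]
        linarith
      · rw [Set.indicator_of_notMem hg, mul_zero, add_zero]
        have h1 : lse c (coefW θ m) g < log (P / 2) := not_le.1 hg
        rw [lse, Real.log_lt_log_iff (hZpos g) (by linarith)] at h1
        have : 0 ≤ l / 2 * Z g ^ 2 := by positivity
        linarith
    have hiS : Integrable (S.indicator fun _ => (1 : ℝ)) (stdPi (Edge n)) :=
      (integrable_const _).indicator hSm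
    have hi3 : Integrable (fun g => P / 2 + l / 2 * Z g ^ 2) (stdPi (Edge n)) :=
      (integrable_const _).add (hZi2.const_mul _)
    have h := integral_mono (g := fun g => P / 2 + l / 2 * Z g ^ 2 + 1 / (2 * l) * S.indicator (fun _ => (1 : ℝ)) g)
      hZi (hi3.add (hiS.const_mul _)) hpt
    rw [integral_add hi3 (hiS.const_mul _), integral_add (integrable_const _) (hZi2.const_mul _),
      integral_const_mul, integral_const_mul, integral_indicator_const _ hSm, hEZ, integral_const,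
      probReal_univ, smul_eq_mul, smul_eq_mul, one_mul, mul_one] at h
    have h2 : l / 2 * ∫ g, Z g ^ 2 ∂stdPi (Edge n) ≤ P / 4 := by
      refine (mul_le_mul_of_nonneg_left hEZ2 (by positivity)).trans (le_of_eq ?_)
      rw [hl]; field_simp; ring
    have h4 : P / 4 ≤ 1 / (2 * l) * (stdPi (Edge n)).real S := by linarith
    rw [hl, show 1 / (2 * (P / (2 * C))) = C / P by field_simp, div_mul_eq_mul_div,
      le_div_iff₀ (by linarith)] at h4
    rw [div_le_iff₀ (by positivity)]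
    nlinarith
  have hL : ∀ ω, c ω ≠ 0 → ∑ e, coefW θ m ω e ^ 2 ≤ k * n := fun ω h => by
    have hω := wt_ne_zero (left_ne_zero_of_mul h)
    have h1 := (abs_le.1 (variance_bound hn hθ hρ0 hρ1 hm hω)).2
    obtain ⟨hs0, hs1⟩ := gap_q_mem hm
    have : θ ^ 2 * (1 - qOf m) ^ 2 ≤ 1 :=
      mul_le_one₀ ((sq_le_one_iff_abs_le_one _).2 hθ) (sq_nonneg _) (pow_le_one₀ hs0 hs1)
    have hkn : (0 : ℝ) ≤ k * n := by positivity
    nlinarith [mul_le_mul_of_nonneg_left herr hkn]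
  have hdev := lse_dev hc0 hcpos (mul_pos hk' hn') hL (log (P / 2)) (s := r * (k * n)) (by positivity)
  have hsub : {g | rep k θ m ρ g ≤ exp (k * n * (θ ^ 2 * (1 - qOf m) ^ 2 / 4 - vErr k n ρ - r) - log 4)}
      ⊆ {g | lse c (coefW θ m) g ≤ log (P / 2) - r * (k * n)} := fun g hg => by
    have h1 : exp B * Z g ≤ rep k θ m ρ g := by
      simp only [hZ, rep, Finset.mul_sum]
      refine Finset.sum_le_sum fun ω _ => ?_
      by_cases h0 : wt m ρ ω = 0
      · simp [hc, h0]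
      · have := (abs_le.1 (variance_bound hn hθ hρ0 hρ1 hm (wt_ne_zero h0))).1
        simp only [hc]
        rw [← mul_assoc, mul_left_comm (exp B), ← exp_add]
        refine mul_le_mul_of_nonneg_right (mul_le_of_le_one_right (wt_nonneg hm ρ ω) (exp_le_one_iff.2 ?_))
          (exp_pos _).le
        simp only [hB, hcs]
        linarith [mul_sub ((k : ℝ) * n) (θ ^ 2 * (1 - qOf m) ^ 2 / 4) (vErr k n ρ)]
    have h2 := Real.log_le_log (by have := hZpos g; positivity) (h1.trans hg)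
    rw [log_mul (exp_pos _).ne' (hZpos g).ne', log_exp, log_exp] at h2
    have h3 : log (1 / 4) ≤ log (P / 2) := Real.log_le_log (by norm_num) (by linarith)
    rw [one_div, log_inv] at h3
    change log (Z g) ≤ _
    simp only [hB] at h2
    linarith [mul_sub ((k : ℝ) * n) (θ ^ 2 * (1 - qOf m) ^ 2 / 4 - vErr k n ρ) r]
  refine (measureReal_mono hsub).trans ?_
  have h5 := (mul_le_mul_of_nonneg_right hPZ measureReal_nonneg).trans hdev
  rw [one_div_mul_eq_div, div_le_iff₀ (by positivity)] at h5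
  refine h5.trans (le_of_eq ?_)
  rw [show -2 * (r * (k * n)) ^ 2 / (π ^ 2 * (k * n)) = -2 * r ^ 2 * (k * n) / π ^ 2 by field_simp]
  ring

end Vale.Agent.P150.Beyond.Stability
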