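import Vale.Agent.P150.Beyond.Stability.Lower

/-!
# P150 beyond one half: two-sided TAP bounds and convexity give stability for every field
-/

open Finset Real

namespace Vale.Agent.P150.Beyond.Stability

open Vale.Agent.P150.Fast Vale.Agent.P150.Beyond
open Vale.Agent.P150.Fast.Ent (ent phi mag logZ)

variable {n : ℕ}

/-- The upper and lower TAP bounds at one strength. -/
def TapBounds (θ : ℝ) (g : Edge n → ℝ) (E : ℝ) : Prop :=
  (∀ ν, IsLaw ν → tap θ g (bary ν) ≤ freeE θ g ν + n * E) ∧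
    ∀ (h x : Fin n → ℝ), (∀ i, |x i| ≤ 1) → -tilted θ g h x - n * E ≤ pres θ g h

theorem tap_shift {θ θ' Λ : ℝ} {g : Edge n → ℝ} (hθ : θ ∈ Set.Icc (0 : ℝ) 1) (hθ' : θ' ∈ Set.Icc (0 : ℝ) 1)
    (hΛ : OpBound g Λ) (hΛ0 : 0 ≤ Λ) {m : Fin n → ℝ} (hm : ∀ i, |m i| ≤ 1) :
    |tap θ g m - tap θ' g m| ≤ n * (|θ - θ'| * (Λ + 1)) := by
  have e : tap θ g m - tap θ' g m = -((θ - θ') / 2 * bil g m m)
      - (θ - θ') * ((θ + θ') * ((1 - qOf m) ^ 2 * (n / 4))) := by
    simp only [tap, bil]; ring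
  have h1 : |(θ - θ') / 2 * bil g m m| ≤ n * (|θ - θ'| * Λ) := by
    have h2 : |bil g m m| ≤ Λ * n := (hΛ m).trans (mul_le_mul_of_nonneg_left
      ((Finset.sum_le_sum fun i _ => (sq_le_one_iff_abs_le_one _).2 (hm i)).trans (by simp)) hΛ0)
    rw [abs_mul, abs_div, abs_two]
    calc |θ - θ'| / 2 * |bil g m m| ≤ |θ - θ'| * (Λ * n) :=
          mul_le_mul (by linarith [abs_nonneg (θ - θ')]) h2 (abs_nonneg _) (abs_nonneg _)
      _ = n * (|θ - θ'| * Λ) := by ring
  have h3 : |(θ - θ') * ((θ + θ') * ((1 - qOf m) ^ 2 * (n / 4)))| ≤ n * |θ - θ'| := by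
    obtain ⟨s0, s1⟩ := gap_q_mem hm
    rw [abs_mul, mul_comm (n : ℝ) |θ - θ'|, abs_of_nonneg (by have := hθ.1; have := hθ'.1; positivity :
      0 ≤ (θ + θ') * ((1 - qOf m) ^ 2 * ((n : ℝ) / 4)))]
    refine mul_le_mul_of_nonneg_left ?_ (abs_nonneg _)
    calc (θ + θ') * ((1 - qOf m) ^ 2 * (n / 4)) ≤ 2 * (1 * (n / 4)) :=
          mul_le_mul (by linarith [hθ.2, hθ'.2]) (mul_le_mul_of_nonneg_right (pow_le_one₀ s0 s1) (by positivity))
            (by positivity) zero_le_two
      _ ≤ n := by linarith [(Nat.cast_nonneg n : (0 : ℝ) ≤ n)]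
  rw [e]
  refine (abs_sub _ _).trans ?_
  rw [abs_neg]
  linarith

theorem form_spinv_le {g : Edge n → ℝ} {Λ : ℝ} (hΛ : OpBound g Λ) (x : Fin n → Bool) :
    |bil g (spinv x) (spinv x)| ≤ Λ * n :=
  (hΛ (spinv x)).trans (le_of_eq (by simp [spinv, Vale.Agent.P150.Fast.Ent.spin_sq_eq]))

/-- The bounds move continuously with the strength. -/
theorem tapBounds_shift {θ θ' Λ E : ℝ} {g : Edge n → ℝ} (hθ : θ ∈ Set.Icc (0 : ℝ) 1)
    (hθ' : θ' ∈ Set.Icc (0 : ℝ) 1) (hΛ : OpBound g Λ) (hΛ0 : 0 ≤ Λ) (h : TapBounds θ' g E) :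
    TapBounds θ g (E + 2 * (|θ - θ'| * (Λ + 1))) := by
  have hnn : 0 ≤ (n : ℝ) * |θ - θ'| := by positivity
  refine ⟨fun ν hν => ?_, fun hh x hx => ?_⟩
  · have h1 := h.1 ν hν
    have h2 := (abs_le.1 (tap_shift hθ hθ' hΛ hΛ0 (abs_bary_le hν))).2
    have h3 : |∑ x, ν x * bil g (spinv x) (spinv x)| ≤ Λ * n := by
      refine (Finset.abs_sum_le_sum_abs _ _).trans ?_
      refine (Finset.sum_le_sum (g := fun x => ν x * (Λ * n)) fun x _ => ?_).trans
        (le_of_eq (by rw [← Finset.sum_mul, hν.2, one_mul]))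
      rw [abs_mul, abs_of_nonneg (hν.1 x)]
      exact mul_le_mul_of_nonneg_left (form_spinv_le hΛ x) (hν.1 x)
    have h4 : |(θ - θ') / 2 * ∑ x, ν x * bil g (spinv x) (spinv x)| ≤ n * (|θ - θ'| * Λ) := by
      rw [abs_mul, abs_div, abs_two]
      calc |θ - θ'| / 2 * |∑ x, ν x * bil g (spinv x) (spinv x)| ≤ |θ - θ'| * (Λ * n) :=
            mul_le_mul (by linarith [abs_nonneg (θ - θ')]) h3 (abs_nonneg _) (abs_nonneg _)
        _ = n * (|θ - θ'| * Λ) := by ring
    simp only [freeE] at h1 ⊢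
    linarith [(abs_le.1 h4).2]
  · have h1 := h.2 hh x hx
    have h2 := (abs_le.1 (tap_shift hθ hθ' hΛ hΛ0 hx)).1
    have h3 : pres θ' g hh - n * (|θ - θ'| * Λ) ≤ pres θ g hh := by
      have hS : ∀ t, 0 < ∑ y, exp (dot hh (spinv y) + t / 2 * bil g (spinv y) (spinv y)) := fun t =>
        Finset.sum_pos (fun _ _ => exp_pos _) univ_nonempty
      have h4 : exp (-(n * (|θ - θ'| * Λ))) * ∑ y, exp (dot hh (spinv y) + θ' / 2 * bil g (spinv y) (spinv y))
          ≤ ∑ y, exp (dot hh (spinv y) + θ / 2 * bil g (spinv y) (spinv y)) := by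
        rw [Finset.mul_sum]
        refine Finset.sum_le_sum fun y _ => ?_
        rw [← exp_add, exp_le_exp]
        have h5 : |(θ - θ') / 2 * bil g (spinv y) (spinv y)| ≤ n * (|θ - θ'| * Λ) := by
          rw [abs_mul, abs_div, abs_two]
          calc |θ - θ'| / 2 * |bil g (spinv y) (spinv y)| ≤ |θ - θ'| * (Λ * n) :=
                mul_le_mul (by linarith [abs_nonneg (θ - θ')]) (form_spinv_le hΛ y) (abs_nonneg _) (abs_nonneg _)
            _ = n * (|θ - θ'| * Λ) := by ring
        linarith [(abs_le.1 h5).1]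
      have h6 := Real.log_le_log (mul_pos (exp_pos _) (hS θ')) h4
      rw [log_mul (exp_pos _).ne' (hS θ').ne', log_exp] at h6
      simp only [pres]
      linarith
    simp only [tilted] at h1 ⊢
    linarith

theorem ham_eq_bil (θ : ℝ) (g : Edge n → ℝ) (h : Fin n → ℝ) (x : Fin n → Bool) :
    ham (skMat n θ g) h x = dot h (spinv x) + θ / 2 * bil g (spinv x) (spinv x) := by
  simp only [ham, dot, bil, spinv, Finset.mul_sum, Finset.sum_div, skMat_eq]
  congr 1
  exact Finset.sum_congr rfl fun i _ => Finset.sum_congr rfl fun j _ => by ring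

theorem abs_bary_lt {ν : (Fin n → Bool) → ℝ} (hν : IsLaw ν) (hpos : ∀ x, 0 < ν x) (i : Fin n) :
    |bary ν i| < 1 := by
  have h : ∀ b : Bool, 0 < ∑ x, ν x * (1 + spin b * spin (x i)) := fun b => by
    refine Finset.sum_pos' (fun x _ => mul_nonneg (hν.1 x) ?_)
      ⟨fun _ => b, Finset.mem_univ _, mul_pos (hpos _) ?_⟩
    · cases b <;> cases x i <;> simp [spin]
    · cases b <;> norm_num [spin]
  have ht := h true
  have hf := h false
  simp only [mul_add, Finset.sum_add_distrib, mul_one, hν.2, spin_true, spin_false, one_mul, neg_one_mul,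
    mul_neg, Finset.sum_neg_distrib] at ht hf
  rw [abs_lt, bary]
  constructor <;> linarith

theorem dot_bary {ν : (Fin n → Bool) → ℝ} (h : Fin n → ℝ) :
    ∑ x, ν x * dot h (spinv x) = ∑ i, h i * bary ν i := by
  simp only [dot, bary, spinv, Finset.mul_sum]
  rw [Finset.sum_comm]
  exact Finset.sum_congr rfl fun i _ => Finset.sum_congr rfl fun x _ => by ring

/-- Stability for every field and every positive function. -/
theorem stable_of_bounds {θ c E ε : ℝ} {g : Edge n → ℝ} (hn : 0 < n) (hH : HessBelow θ g c)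
    (hT : TapBounds θ g E) (hE : 4 * E ≤ ε) : StableFields n θ g (c / 4) ε := by
  intro h f hf
  set J := skMat n θ g
  set M := mean J h f with hM
  have hM0 : 0 < M := Vale.Agent.P150.Fast.Ent.mean_pos hf
  set μ : (Fin n → Bool) → ℝ := fun x => weight J h x
  set ν : (Fin n → Bool) → ℝ := fun x => weight J h x * f x / M
  have hμ : IsLaw μ := ⟨fun x => (weight_pos h x).le, sum_weight h⟩
  have hν : IsLaw ν := by
    refine ⟨fun x => div_nonneg (mul_nonneg (weight_pos h x).le (hf x).le) hM0.le, ?_⟩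
    simp only [ν, ← Finset.sum_div]
    exact div_self hM0.ne'
  have hνpos : ∀ x, 0 < ν x := fun x => div_pos (mul_pos (weight_pos h x) (hf x)) hM0
  set P := pres θ g h with hP
  have hlogw : ∀ x, log (weight J h x) = ham J h x - (P + n * log 2) := fun x => by
    rw [weight, log_div (exp_pos _).ne' (Finset.sum_pos (fun _ _ => exp_pos _) univ_nonempty).ne', log_exp]
    simp only [hP, pres, J, ham_eq_bil, sub_add_cancel]
  have hfree : ∀ (q : (Fin n → Bool) → ℝ), IsLaw q →
      (∑ x, q x * log (weight J h x)) + n * log 2 - θ / 2 * ∑ x, q x * bil g (spinv x) (spinv x)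
        = ∑ i, h i * bary q i - P := fun q hq => by
    simp only [hlogw, J, ham_eq_bil, mul_sub, mul_add, Finset.sum_sub_distrib, Finset.sum_add_distrib,
      ← Finset.sum_mul, hq.2, one_mul, dot_bary, mul_left_comm (q _) (θ / 2), ← Finset.mul_sum]
    ring
  have hfμ : freeE θ g μ = ∑ i, h i * bary μ i - P := by
    rw [← hfree μ hμ]; rfl
  have hfν : freeE θ g ν = ent J h f / M + (∑ i, h i * bary ν i - P) := by
    rw [← hfree ν hν, freeE, nent]
    have e : ∀ x, ν x * log (ν x) = ν x * log (weight J h x) + (weight J h x * phi (f x)) / M - ν x * log M :=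
      fun x => by
        simp only [ν, phi]
        rw [log_div (mul_pos (weight_pos h x) (hf x)).ne' hM0.ne', log_mul (weight_pos h x).ne' (hf x).ne']
        ring
    rw [Finset.sum_congr rfl fun x _ => e x]
    simp only [Finset.sum_sub_distrib, Finset.sum_add_distrib, ← Finset.sum_mul, hν.2, one_mul, ← Finset.sum_div]
    rw [ent, show mean J h (fun x => phi (f x)) = ∑ x, weight J h x * phi (f x) from rfl, ← hM]
    simp only [phi]
    field_simp
    ring
  set mid : Fin n → ℝ := fun i => (bary ν i + bary μ i) / 2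
  have hmid : ∀ i, |mid i| ≤ 1 := fun i => by
    obtain ⟨a1, a2⟩ := abs_le.1 (abs_bary_le hν i)
    obtain ⟨b1, b2⟩ := abs_le.1 (abs_bary_le hμ i)
    rw [abs_le]; constructor <;> simp only [mid] <;> linarith
  have hsc := tap_mid hn hH (fun i => abs_bary_lt hν hνpos i) (fun i => abs_bary_lt hμ (fun x => weight_pos h x) i)
  have hl := hT.2 h mid hmid
  have hu1 := hT.1 ν hν
  have hu2 := hT.1 μ hμ
  have hlin : ∑ i, h i * mid i = (∑ i, h i * bary ν i + ∑ i, h i * bary μ i) / 2 := by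
    rw [← Finset.sum_add_distrib, Finset.sum_div]
    exact Finset.sum_congr rfl fun i _ => by ring
  simp only [tilted, hlin] at hl
  set S := ∑ i, (bary ν i - bary μ i) ^ 2
  have hkey : c / 4 * S ≤ ent J h f / M + n * (4 * E) := by
    rw [hfν] at hu1
    rw [hfμ] at hu2
    linarith
  have hshift : ∑ i, magShift J h f i ^ 2 = M ^ 2 * S := by
    rw [Finset.mul_sum]
    refine Finset.sum_congr rfl fun i _ => ?_
    have e1 : mean J h (fun x => f x * spin (x i)) = M * bary ν i := by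
      simp only [mean, bary, ν, Finset.mul_sum]
      exact Finset.sum_congr rfl fun x _ => by field_simp
    rw [magShift, e1, ← hM, show mag J h i = bary μ i from rfl]
    ring
  rw [hshift]
  have h1 := mul_le_mul_of_nonneg_left hkey (sq_nonneg M)
  rw [mul_add, show M ^ 2 * (ent J h f / M) = M * ent J h f by field_simp] at h1
  have h2 : M ^ 2 * (n * (4 * E)) ≤ M ^ 2 * (n * ε) :=
    mul_le_mul_of_nonneg_left (mul_le_mul_of_nonneg_left hE (Nat.cast_nonneg' n)) (sq_nonneg M)
  linarith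

end Vale.Agent.P150.Beyond.Stability
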