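import Vale.Agent.P150.Beyond.Stability.Replica
import Vale.Agent.P150.Beyond.Stability.Pin

/-!
# P150 beyond one half: the TAP free energy is a lower bound for the free energy of every law

Deterministic consequences of the first moment event, by the variational formula and pinning.
-/

open Finset Real

namespace Vale.Agent.P150.Beyond.Stability

open Vale.Agent.P150.Fast Vale.Agent.P150.Beyond

variable {n k : ℕ}

/-- A bound on the quadratic form of the couplings. -/
def OpBound (g : Edge n → ℝ) (Λ : ℝ) : Prop := ∀ v, |bil g v v| ≤ Λ * ∑ i, v i ^ 2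

/-- The configuration as a vector of signs. -/
noncomputable def spinv (x : Fin n → Bool) (i : Fin n) : ℝ := spin (x i)

/-- The free energy of a law. -/
noncomputable def freeE (θ : ℝ) (g : Edge n → ℝ) (ν : (Fin n → Bool) → ℝ) : ℝ :=
  nent ν + n * log 2 - θ / 2 * ∑ x, ν x * bil g (spinv x) (spinv x)

theorem bil_abs_le {g : Edge n → ℝ} {Λ : ℝ} (hΛ : OpBound g Λ) (a b : Fin n → ℝ) {t : ℝ} (ht : 0 < t) :
    |bil g a b| ≤ Λ / 2 * (t * (∑ i, a i ^ 2) + (∑ i, b i ^ 2) / t) := by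
  have hs : bil g (fun i => t * a i) b = t * bil g a b := by
    simp only [bil, Finset.mul_sum]
    exact Finset.sum_congr rfl fun i _ => Finset.sum_congr rfl fun j _ => by ring
  set u : Fin n → ℝ := fun i => t * a i with hu
  have h1 := bil_line g u b 1
  have h2 := bil_line g u b (-1)
  have b1 := abs_le.1 (hΛ fun i => u i + 1 * b i)
  have b2 := abs_le.1 (hΛ fun i => u i + -1 * b i)
  rw [h1] at b1
  rw [h2] at b2
  have e : ∑ i, (u i + 1 * b i) ^ 2 + ∑ i, (u i + -1 * b i) ^ 2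
      = 2 * t ^ 2 * (∑ i, a i ^ 2) + 2 * ∑ i, b i ^ 2 := by
    rw [← Finset.sum_add_distrib, Finset.mul_sum, Finset.mul_sum, ← Finset.sum_add_distrib]
    exact Finset.sum_congr rfl fun i _ => by simp [hu]; ring
  have e' := congrArg (fun r => Λ * r) e
  simp only [mul_add] at e'
  rw [show Λ / 2 * (t * (∑ i, a i ^ 2) + (∑ i, b i ^ 2) / t)
    = (Λ / 2 * (t ^ 2 * (∑ i, a i ^ 2) + ∑ i, b i ^ 2)) / t by field_simp, le_div_iff₀ ht,
    show |bil g a b| * t = |bil g u b| by rw [hs, abs_mul, abs_of_pos ht, mul_comm], abs_le]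
  constructor <;> linarith

theorem bil_spinv (g : Edge n → ℝ) (m : Fin n → ℝ) (x : Fin n → Bool) :
    bil g (spinv x) (spinv x) = bil g m m + 2 * bil g m (xi m x) + bil g (xi m x) (xi m x) := by
  have h := bil_line g m (xi m x) 1
  rw [show (fun i => m i + 1 * xi m x i) = spinv x from funext fun i => by simp [spinv, xi]] at h
  linarith

theorem sum_mul_xi {ν : (Fin n → Bool) → ℝ} (hν : IsLaw ν) (m : Fin n → ℝ) (i : Fin n) :
    ∑ x, ν x * xi m x i = bary ν i - m i := by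
  simp only [xi, mul_sub, Finset.sum_sub_distrib, ← Finset.sum_mul, hν.2, one_mul, bary]

theorem sum_bil_xi {ν : (Fin n → Bool) → ℝ} (hν : IsLaw ν) (g : Edge n → ℝ) (a m : Fin n → ℝ) :
    ∑ x, ν x * bil g a (xi m x) = bil g a fun i => bary ν i - m i := by
  simp only [bil, Finset.mul_sum, ← sum_mul_xi hν m]
  rw [Finset.sum_comm]
  refine Finset.sum_congr rfl fun i _ => ?_
  rw [Finset.sum_comm]
  exact Finset.sum_congr rfl fun j _ => Finset.sum_congr rfl fun x _ => by ring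

/-- The cost of a mean `a` coded with reference `b`. -/
theorem binEnt_ref {a b : ℝ} (ha : |a| ≤ 1) (hb : |b| < 1) :
    binEnt a - (binEnt b + slope b * (a - b)) ≤ (a - b) ^ 2 / (1 - b ^ 2) := by
  obtain ⟨a1, a2⟩ := abs_le.1 ha
  obtain ⟨b1, b2⟩ := abs_lt.1 hb
  have key : ∀ u v : ℝ, 0 ≤ u → 0 < v → u * log u - u * log v ≤ u * ((u - v) / v) := by
    intro u v hu hv
    rcases hu.eq_or_lt with rfl | hu
    · simp
    rw [← mul_sub, ← log_div hu.ne' hv.ne']
    refine mul_le_mul_of_nonneg_left ?_ hu.le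
    refine (log_le_sub_one_of_pos (div_pos hu hv)).trans (le_of_eq ?_)
    field_simp
  have h1 := key (1 + a) (1 + b) (by linarith) (by linarith)
  have h2 := key (1 - a) (1 - b) (by linarith) (by linarith)
  have e : binEnt a - (binEnt b + slope b * (a - b))
      = (((1 + a) * log (1 + a) - (1 + a) * log (1 + b))
        + ((1 - a) * log (1 - a) - (1 - a) * log (1 - b))) / 2 := by
    simp only [binEnt, slope]; ring
  have e2 : ((1 + a) * ((1 + a - (1 + b)) / (1 + b)) + (1 - a) * ((1 - a - (1 - b)) / (1 - b))) / 2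
      = (a - b) ^ 2 / (1 - b ^ 2) := by
    have : (1 + b) ≠ 0 := by linarith
    have : (1 - b) ≠ 0 := by linarith
    rw [show 1 - b ^ 2 = (1 + b) * (1 - b) by ring]
    field_simp
    ring
  rw [e, ← e2]
  linarith

theorem log_site {b : ℝ} (s : Bool) :
    log (1 + b * spin s) = binEnt b + slope b * (spin s - b) := by
  cases s
  · simp only [spin_false, binEnt, slope, show 1 + b * -1 = 1 - b by ring]; ring
  · simp only [spin_true, binEnt, slope, mul_one]; ring

/-- The variational inequality. -/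
theorem gibbs_variational {α : Type*} [Fintype α] [Nonempty α] {p q : α → ℝ} (hp : ∀ x, 0 < p x)
    (hq : IsLaw q) (U : α → ℝ) :
    ∑ x, q x * U x ≤ (∑ x, q x * log (q x)) - (∑ x, q x * log (p x)) + log (∑ x, p x * exp (U x)) := by
  set Z := ∑ x, p x * exp (U x) with hZ
  have hZ0 : 0 < Z := Finset.sum_pos (fun x _ => mul_pos (hp x) (exp_pos _)) univ_nonempty
  have h : ∀ x, q x * (U x + log (p x) - log (q x) - log Z) ≤ p x * exp (U x) / Z - q x := fun x => by
    rcases (hq.1 x).eq_or_lt with h0 | h0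
    · rw [← h0]
      have := hp x
      simp
      positivity
    · have e : U x + log (p x) - log (q x) - log Z = log (p x * exp (U x) / (q x * Z)) := by
        rw [log_div (mul_pos (hp x) (exp_pos _)).ne' (mul_pos h0 hZ0).ne', log_mul (hp x).ne' (exp_pos _).ne',
          log_mul h0.ne' hZ0.ne', log_exp]
        ring
      rw [e]
      refine (mul_le_mul_of_nonneg_left (log_le_sub_one_of_pos
        (div_pos (mul_pos (hp x) (exp_pos _)) (mul_pos h0 hZ0))) h0.le).trans (le_of_eq ?_)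
      field_simp
  have hs := Finset.sum_le_sum fun x (_ : x ∈ univ) => h x
  simp only [mul_sub, mul_add, Finset.sum_sub_distrib, Finset.sum_add_distrib, ← Finset.sum_mul,
    ← Finset.sum_div, hq.2, one_mul, ← hZ, div_self hZ0.ne'] at hs
  linarith

theorem isLaw_kpow {α : Type*} [Fintype α] {ν : α → ℝ} (hν : IsLaw ν) : IsLaw (kpow (k := k) ν) :=
  ⟨kpow_nonneg hν.1, sum_kpow hν.2⟩

theorem sum_kpow_sum {α : Type*} [Fintype α] {ν : α → ℝ} (hν : IsLaw ν) (F : α → ℝ) :
    ∑ ω : Fin k → α, kpow ν ω * ∑ a, F (ω a) = k * ∑ x, ν x * F x := by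
  simp only [Finset.mul_sum]
  rw [Finset.sum_comm]
  simp only [sum_kpow_one hν.2, ← Finset.mul_sum]
  simp

theorem nent_kpow {α : Type*} [Fintype α] {ν : α → ℝ} (hν : IsLaw ν) :
    nent (kpow (k := k) ν) = k * nent ν := by
  refine Eq.trans (Finset.sum_congr rfl fun ω _ => ?_) (sum_kpow_sum hν fun x => log (ν x))
  by_cases h : kpow ν ω = 0
  · simp [h]
  · congr 1
    exact log_prod fun a _ => Finset.prod_ne_zero_iff.1 h a (Finset.mem_univ a)

theorem xi_moments {ν : (Fin n → Bool) → ℝ} (hν : IsLaw ν) {m : Fin n → ℝ} (hm : ∀ i, |m i| ≤ 1) {e1 : ℝ}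
    (he : ∀ i, |bary ν i - m i| ≤ e1) {α : ℝ} (hα : 0 < α) :
    ∑ y, ν y * ∑ x, ν x * dot (xi m x) (xi m y) ^ 2 ≤ 2 * covSq ν + 2 * n ^ 2 * e1 ^ 4 ∧
      ∑ x, ν x * dot m (xi m x) ^ 2 ≤ α * n ^ 2 / 2 + (2 * covSq ν + 2 * n ^ 2 * e1 ^ 4) / (2 * α) := by
  set M : Fin n → Fin n → ℝ := fun i j => ∑ x, ν x * (xi m x i * xi m x j) with hM
  have hMe : ∀ i j, M i j = cov ν i j + (bary ν i - m i) * (bary ν j - m j) := fun i j => by
    have e : ∀ x, ν x * (xi m x i * xi m x j) = ν x * (spin (x i) * spin (x j))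
        - m j * (ν x * spin (x i)) - m i * (ν x * spin (x j)) + m i * m j * ν x := fun x => by
      simp only [xi]; ring
    simp only [hM, e, Finset.sum_add_distrib, Finset.sum_sub_distrib, ← Finset.mul_sum, hν.2, cov, bary]
    ring
  have hsum : ∑ i, ∑ j, M i j ^ 2 ≤ 2 * covSq ν + 2 * n ^ 2 * e1 ^ 4 := by
    refine (Finset.sum_le_sum fun i _ => Finset.sum_le_sum (g := fun j => 2 * cov ν i j ^ 2 + 2 * e1 ^ 4)
      fun j _ => ?_).trans (le_of_eq ?_)
    · rw [hMe]
      have h1 : |(bary ν i - m i) * (bary ν j - m j)| ≤ e1 * e1 := by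
        rw [abs_mul]
        exact mul_le_mul (he i) (he j) (abs_nonneg _) ((abs_nonneg _).trans (he i))
      have h2 := pow_le_pow_left₀ (abs_nonneg _) h1 2
      rw [sq_abs] at h2
      nlinarith [sq_nonneg (cov ν i j - (bary ν i - m i) * (bary ν j - m j))]
    · simp only [covSq, Finset.sum_add_distrib, ← Finset.mul_sum, Finset.sum_const, Finset.card_univ,
        Fintype.card_fin, nsmul_eq_mul]
      ring
  refine ⟨le_trans (le_of_eq ?_) hsum, ?_⟩
  · calc ∑ y, ν y * ∑ x, ν x * dot (xi m x) (xi m y) ^ 2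
        = ∑ y, ∑ x, ∑ i, ∑ j, (ν x * (xi m x i * xi m x j)) * (ν y * (xi m y i * xi m y j)) := by
          refine Finset.sum_congr rfl fun y _ => ?_
          rw [Finset.mul_sum]
          refine Finset.sum_congr rfl fun x _ => ?_
          rw [dot, sq, Finset.sum_mul_sum, Finset.mul_sum, Finset.mul_sum]
          refine Finset.sum_congr rfl fun i _ => ?_
          rw [Finset.mul_sum, Finset.mul_sum]
          exact Finset.sum_congr rfl fun j _ => by ring
      _ = ∑ i, ∑ j, M i j ^ 2 := by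
          simp only [hM, sq, Finset.sum_mul_sum]
          rw [Finset.sum_comm]
          refine (Finset.sum_congr rfl fun x _ => Finset.sum_comm).trans ?_
          rw [Finset.sum_comm]
          refine Finset.sum_congr rfl fun i _ => ?_
          refine (Finset.sum_congr rfl fun x _ => Finset.sum_comm).trans ?_
          rw [Finset.sum_comm]
  · have e : ∑ x, ν x * dot m (xi m x) ^ 2 = ∑ i, ∑ j, m i * m j * M i j := by
      simp only [hM, dot, sq]
      simp only [Finset.sum_mul_sum]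
      simp only [Finset.mul_sum]
      rw [Finset.sum_comm]
      refine Finset.sum_congr rfl fun i _ => ?_
      rw [Finset.sum_comm]
      exact Finset.sum_congr rfl fun j _ => Finset.sum_congr rfl fun x _ => by ring
    rw [e]
    refine (Finset.sum_le_sum fun i _ => Finset.sum_le_sum (g := fun j => α / 2 + M i j ^ 2 / (2 * α))
      fun j _ => ?_).trans ?_
    · refine (le_abs_self _).trans ?_
      rw [abs_mul]
      refine (mul_le_of_le_one_left (abs_nonneg _) (by
        rw [abs_mul]; exact mul_le_one₀ (hm i) (abs_nonneg _) (hm j))).trans ?_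
      rw [show α / 2 + M i j ^ 2 / (2 * α) = |M i j| + (α - |M i j|) ^ 2 / (2 * α) by
        rw [← sq_abs (M i j)]; field_simp; ring]
      exact le_add_of_nonneg_right (by positivity)
    · simp only [Finset.sum_add_distrib, ← Finset.sum_div, Finset.sum_const, Finset.card_univ,
        Fintype.card_fin, nsmul_eq_mul]
      rw [show (n : ℝ) * (n * α) / 2 = α * n ^ 2 / 2 by ring]
      exact add_le_add le_rfl (div_le_div_of_nonneg_right hsum (by positivity))

theorem bad_le {ν : (Fin n → Bool) → ℝ} (hν : IsLaw ν) {m : Fin n → ℝ} (hm : ∀ i, |m i| ≤ 1) {e1 : ℝ}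
    (he : ∀ i, |bary ν i - m i| ≤ e1) {α ρ : ℝ} (hα : 0 < α) (hρ : 0 < ρ) (hn : 0 < n) :
    ∑ ω : Fin k → Fin n → Bool, kpow ν ω * (1 - mixedInd m ρ ω)
      ≤ (2 * k ^ 2 + k / α) / ρ ^ 2 * (covSq ν / n ^ 2)
        + ((2 * k ^ 2 + k / α) * e1 ^ 4 + k * α / 2) / ρ ^ 2 := by
  have hn' : (0 : ℝ) < n := by exact_mod_cast hn
  obtain ⟨h2, h1⟩ := xi_moments hν hm he hα
  set a := ρ * n with ha
  have ha0 : 0 < a := mul_pos hρ hn'
  have hcheb : ∀ y : ℝ, (if a < |y| then (1 : ℝ) else 0) ≤ y ^ 2 / a ^ 2 := fun y => by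
    split_ifs with h
    · rw [le_div_iff₀ (by positivity), one_mul, ← sq_abs y]
      exact pow_le_pow_left₀ ha0.le h.le 2
    · positivity
  refine (Finset.sum_le_sum fun ω _ => mul_le_mul_of_nonneg_left (one_sub_mixed_le m ρ ω)
    (kpow_nonneg hν.1 ω)).trans ?_
  simp only [mul_add, Finset.sum_add_distrib]
  have hA : ∑ ω : Fin k → Fin n → Bool, kpow ν ω * ∑ a', ∑ b ∈ univ.erase a',
      (if a < |dot (xi m (ω a')) (xi m (ω b))| then (1 : ℝ) else 0)
      ≤ k * (k * ((2 * covSq ν + 2 * n ^ 2 * e1 ^ 4) / a ^ 2)) := by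
    simp only [Finset.mul_sum]
    rw [Finset.sum_comm]
    refine (Finset.sum_le_sum fun a' _ => ?_).trans (le_of_eq (by simp :
      ∑ _a : Fin k, (k : ℝ) * ((2 * covSq ν + 2 * n ^ 2 * e1 ^ 4) / a ^ 2) = _))
    rw [Finset.sum_comm]
    refine (Finset.sum_le_card_nsmul _ _ ((2 * covSq ν + 2 * n ^ 2 * e1 ^ 4) / a ^ 2) fun b hb => ?_).trans ?_
    · rw [sum_kpow_two hν.2 (Finset.ne_of_mem_erase hb).symm
        fun x y => if a < |dot (xi m x) (xi m y)| then (1 : ℝ) else 0]
      refine (Finset.sum_le_sum fun y _ => mul_le_mul_of_nonneg_left (Finset.sum_le_sum fun x _ =>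
        mul_le_mul_of_nonneg_left (hcheb _) (hν.1 x)) (hν.1 y)).trans ?_
      simp only [← mul_div_assoc, ← Finset.sum_div]
      exact div_le_div_of_nonneg_right h2 (by positivity)
    · rw [nsmul_eq_mul]
      refine mul_le_mul_of_nonneg_right ?_ ?_
      · exact_mod_cast (Finset.card_erase_le).trans (by simp)
      · have : 0 ≤ covSq ν := Finset.sum_nonneg fun i _ => Finset.sum_nonneg fun j _ => sq_nonneg _
        positivity
  have hB : ∑ ω : Fin k → Fin n → Bool, kpow ν ω * ∑ a', (if a < |dot m (xi m (ω a'))| then (1 : ℝ) else 0)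
      ≤ k * ((α * n ^ 2 / 2 + (2 * covSq ν + 2 * n ^ 2 * e1 ^ 4) / (2 * α)) / a ^ 2) := by
    rw [sum_kpow_sum hν fun x => if a < |dot m (xi m x)| then (1 : ℝ) else 0]
    refine mul_le_mul_of_nonneg_left ?_ (Nat.cast_nonneg k)
    refine (Finset.sum_le_sum fun x _ => mul_le_mul_of_nonneg_left (hcheb _) (hν.1 x)).trans ?_
    simp only [← mul_div_assoc, ← Finset.sum_div]
    exact div_le_div_of_nonneg_right h1 (by positivity)
  refine (add_le_add hA hB).trans (le_of_eq ?_)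
  rw [ha]
  field_simp
  ring

theorem sum_log_pw {m : Fin n → ℝ} (hm : ∀ i, |m i| < 1) {ν : (Fin n → Bool) → ℝ} (hν : IsLaw ν) :
    ∑ x, ν x * log (pw m x)
      = (∑ i, (binEnt (m i) + slope (m i) * (bary ν i - m i))) - n * log 2 := by
  have e : ∀ x, log (pw m x) = (∑ i, (binEnt (m i) + slope (m i) * xi m x i)) - n * log 2 := fun x => by
    have hne : ∀ i, 1 + m i * spin (x i) ≠ 0 := fun i => by
      obtain ⟨h1, h2⟩ := abs_lt.1 (hm i)
      rcases spin_cases (x i) with h | h <;> rw [h] <;> intro hc <;> linarith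
    rw [pw, log_prod fun i _ => div_ne_zero (hne i) two_ne_zero]
    simp only [log_div (hne _) two_ne_zero, log_site, Finset.sum_sub_distrib, Finset.sum_const,
      Finset.card_univ, Fintype.card_fin, nsmul_eq_mul]
    rfl
  simp only [e, mul_sub, Finset.sum_sub_distrib, ← Finset.sum_mul, hν.2, one_mul]
  congr 1
  simp only [Finset.mul_sum]
  rw [Finset.sum_comm]
  refine Finset.sum_congr rfl fun i _ => ?_
  simp only [mul_add, Finset.sum_add_distrib, ← Finset.sum_mul, hν.2, one_mul, mul_left_comm (ν _),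
    ← Finset.mul_sum, sum_mul_xi hν]
  rw [mul_sub]

/-- The variational inequality for replicas, per replica. -/
theorem replica_variational {θ Λ ρ A : ℝ} {g : Edge n → ℝ} (hk : 0 < k) (hθ0 : 0 ≤ θ) (hθ1 : θ ≤ 1)
    (hΛ0 : 0 ≤ Λ) (hΛ : OpBound g Λ) (hA : 0 ≤ A) {m : Fin n → ℝ} (hm : ∀ i, |m i| < 1)
    {ν : (Fin n → Bool) → ℝ} (hν : IsLaw ν) (hev : rep k θ m ρ g ≤ exp (k * A)) :
    θ / 2 * (∑ x, ν x * bil g (xi m x) (xi m x))
        - 2 * Λ * n * (∑ ω : Fin k → Fin n → Bool, kpow ν ω * (1 - mixedInd m ρ ω))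
      ≤ nent ν - ((∑ i, (binEnt (m i) + slope (m i) * (bary ν i - m i))) - n * log 2) + 1 + A := by
  have hk' : (0 : ℝ) < k := by exact_mod_cast hk
  set X : (Fin n → Bool) → ℝ := fun x => bil g (xi m x) (xi m x)
  set W : (Fin k → Fin n → Bool) → ℝ := fun ω => θ / 2 * ∑ a, X (ω a) with hW
  set U : (Fin k → Fin n → Bool) → ℝ := fun ω => mixedInd m ρ ω * W ω with hU
  have hpos : ∀ ω : Fin k → Fin n → Bool, 0 < kpow (pw m) ω := fun ω =>
    Finset.prod_pos fun a _ => pw_pos hm _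
  have hsumU : ∑ ω : Fin k → Fin n → Bool, kpow (pw m) ω * exp (U ω) ≤ exp (k * A) + exp (k * A) := by
    refine le_trans (Finset.sum_le_sum (g := fun ω : Fin k → Fin n → Bool =>
      wt m ρ ω * exp (∑ e, g e * coefW θ m ω e) + kpow (pw m) ω) fun ω _ => ?_) ?_
    · rw [energy_coefW]
      simp only [hU, hW, wt, mixedInd]
      split_ifs
      · simp only [one_mul, mul_one]
        exact le_add_of_nonneg_right (hpos ω).le
      · simp
    · rw [Finset.sum_add_distrib, sum_kpow (sum_pw m)]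
      exact add_le_add hev (one_le_exp (by positivity))
  have hvar := gibbs_variational hpos (isLaw_kpow hν) U
  have hlog : log (∑ ω : Fin k → Fin n → Bool, kpow (pw m) ω * exp (U ω)) ≤ log 2 + k * A := by
    refine (Real.log_le_log (Finset.sum_pos (fun ω _ => mul_pos (hpos ω) (exp_pos _)) univ_nonempty)
      hsumU).trans (le_of_eq ?_)
    rw [← two_mul, log_mul two_ne_zero (exp_pos _).ne', log_exp]
  have hlp : ∑ ω : Fin k → Fin n → Bool, kpow ν ω * log (kpow (pw m) ω)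
      = k * ((∑ i, (binEnt (m i) + slope (m i) * (bary ν i - m i))) - n * log 2) := by
    refine (Finset.sum_congr rfl fun ω _ => congrArg (kpow ν ω * ·)
      (log_prod fun a _ => (pw_pos hm (ω a)).ne')).trans ?_
    rw [sum_kpow_sum hν fun x => log (pw m x), sum_log_pw hm hν]
  have hWabs : ∀ ω, |W ω| ≤ k * (2 * Λ * n) := fun ω => by
    simp only [hW]
    rw [abs_mul, abs_of_nonneg (by linarith : 0 ≤ θ / 2)]
    refine (mul_le_mul_of_nonneg_left ((Finset.abs_sum_le_sum_abs _ _).trans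
      (Finset.sum_le_sum (g := fun _ => Λ * (4 * n)) fun a _ =>
        (hΛ _).trans (mul_le_mul_of_nonneg_left (sq_xi_le (fun i => (hm i).le) _) hΛ0))) (by linarith)).trans ?_
    simp only [Finset.sum_const, Finset.card_univ, Fintype.card_fin, nsmul_eq_mul]
    nlinarith [mul_nonneg (mul_nonneg hk'.le (Nat.cast_nonneg' n : (0 : ℝ) ≤ n)) hΛ0]
  set bad := ∑ ω : Fin k → Fin n → Bool, kpow ν ω * (1 - mixedInd m ρ ω)
  have hEU : k * (θ / 2 * (∑ x, ν x * X x) - 2 * Λ * n * bad)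
      ≤ ∑ ω : Fin k → Fin n → Bool, kpow ν ω * U ω := by
    have e : ∑ ω : Fin k → Fin n → Bool, kpow ν ω * W ω = k * (θ / 2 * ∑ x, ν x * X x) := by
      simp only [hW, mul_left_comm (kpow ν _), ← Finset.mul_sum, sum_kpow_sum hν X]
      ring
    rw [mul_sub, ← e, ← mul_assoc, Finset.mul_sum, ← Finset.sum_sub_distrib]
    refine Finset.sum_le_sum fun ω _ => ?_
    simp only [hU]
    have h1 := mul_le_mul_of_nonneg_left ((le_abs_self _).trans (hWabs ω))
      (mul_nonneg (kpow_nonneg hν.1 ω) (sub_nonneg.2 (mixedInd_le_one m ρ ω)))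
    linarith
  rw [show (∑ x : Fin k → Fin n → Bool, kpow ν x * log (kpow ν x)) = nent (kpow ν) from rfl, nent_kpow hν,
    hlp] at hvar
  refine le_of_mul_le_mul_left ?_ hk'
  have h2 : log 2 ≤ k := by
    linarith [log_le_sub_one_of_pos (two_pos : (0 : ℝ) < 2), show (1 : ℝ) ≤ k by exact_mod_cast hk]
  simp only [mul_add, mul_sub, mul_one] at hvar hEU ⊢
  linarith

theorem mean_bil_spinv {g : Edge n → ℝ} {ν : (Fin n → Bool) → ℝ} (hν : IsLaw ν) (m : Fin n → ℝ) :
    ∑ x, ν x * bil g (spinv x) (spinv x) = (∑ x, ν x * bil g (xi m x) (xi m x))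
      + bil g (bary ν) (bary ν) - bil g (fun i => bary ν i - m i) fun i => bary ν i - m i := by
  have e : bil g (bary ν) (bary ν) = bil g m m + 2 * bil g m (fun i => bary ν i - m i)
      + bil g (fun i => bary ν i - m i) fun i => bary ν i - m i := by
    have h := bil_line g m (fun i => bary ν i - m i) 1
    rw [show (fun i => m i + 1 * (bary ν i - m i)) = bary ν from funext fun i => by ring] at h
    linarith
  simp only [bil_spinv g m, mul_add, Finset.sum_add_distrib, ← Finset.sum_mul, hν.2, one_mul,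
    mul_left_comm (ν _), ← Finset.mul_sum, sum_bil_xi hν]
  rw [e]
  ring

theorem onsager_diff {θ e1 : ℝ} {a b : Fin n → ℝ} (hn : 0 < n) (hθ0 : 0 ≤ θ) (hθ1 : θ ≤ 1)
    (ha : ∀ i, |a i| ≤ 1) (hb : ∀ i, |b i| ≤ 1) (he : ∀ i, |a i - b i| ≤ e1) :
    θ ^ 2 * (1 - qOf b) ^ 2 / 4 ≤ θ ^ 2 * (1 - qOf a) ^ 2 / 4 + e1 := by
  have hn' : (0 : ℝ) < n := by exact_mod_cast hn
  have he0 : 0 ≤ e1 := (abs_nonneg _).trans (he ⟨0, hn⟩)
  have hq : |qOf a - qOf b| ≤ 2 * e1 := by
    rw [qOf, qOf, ← sub_div, abs_div, abs_of_pos hn', div_le_iff₀ hn', ← Finset.sum_sub_distrib]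
    refine (Finset.abs_sum_le_sum_abs _ _).trans
      ((Finset.sum_le_sum (g := fun _ => 2 * e1) fun i _ => ?_).trans (le_of_eq (by simp; ring)))
    rw [show a i ^ 2 - b i ^ 2 = (a i - b i) * (a i + b i) by ring, abs_mul, mul_comm (2 : ℝ)]
    refine mul_le_mul (he i) ((abs_add_le _ _).trans ?_) (abs_nonneg _) he0
    linarith [ha i, hb i]
  obtain ⟨s0, s1⟩ := gap_q_mem hb
  obtain ⟨t0, t1⟩ := gap_q_mem ha
  have hp : ((1 - qOf b) - (1 - qOf a)) * ((1 - qOf b) + (1 - qOf a)) ≤ 2 * e1 * 2 := by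
    refine (le_abs_self _).trans ?_
    rw [abs_mul]
    refine mul_le_mul ?_ ?_ (abs_nonneg _) (by linarith)
    · rw [show (1 - qOf b) - (1 - qOf a) = qOf a - qOf b by ring]; exact hq
    · rw [abs_of_nonneg (add_nonneg s0 t0)]; linarith
  have hθ2 : θ ^ 2 ≤ 1 := by nlinarith
  nlinarith [sq_nonneg θ]

/-- One law of small covariance. -/
theorem upper_one {θ Λ ρ ε e1 e2 α : ℝ} {g : Edge n → ℝ} (hn : 0 < n) (hk : 0 < k) (hθ0 : 0 ≤ θ)
    (hθ1 : θ ≤ 1) (hΛ0 : 0 ≤ Λ) (hΛ : OpBound g Λ) (hρ : 0 < ρ) (hε : 0 ≤ ε) (hα : 0 < α)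
    {m : Fin n → ℝ} (hm : ∀ i, |m i| < 1) {ν : (Fin n → Bool) → ℝ} (hν : IsLaw ν)
    (he1 : ∀ i, |bary ν i - m i| ≤ e1) (he2 : ∀ i, (bary ν i - m i) ^ 2 / (1 - m i ^ 2) ≤ e2)
    (hev : rep k θ m ρ g ≤ exp (k * n * (θ ^ 2 * (1 - qOf m) ^ 2 / 4 + ε))) :
    tap θ g (bary ν) ≤ freeE θ g ν
      + n * (e2 + Λ * e1 ^ 2 + e1 + ε + 1 / n
        + 2 * Λ * (((2 * k ^ 2 + k / α) * e1 ^ 4 + k * α / 2) / ρ ^ 2))
      + 2 * Λ * ((2 * k ^ 2 + k / α) / ρ ^ 2) * (covSq ν / n) := by
  have hn' : (0 : ℝ) < n := by exact_mod_cast hn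
  set A := (n : ℝ) * (θ ^ 2 * (1 - qOf m) ^ 2 / 4 + ε) with hA
  have hvar := replica_variational (A := A) (ρ := ρ) hk hθ0 hθ1 hΛ0 hΛ (by positivity) hm hν
    (by rw [hA, ← mul_assoc]; exact hev)
  have hbad := mul_le_mul_of_nonneg_left (bad_le (k := k) hν (fun i => (hm i).le) he1 hα hρ hn)
    (by positivity : 0 ≤ 2 * Λ * n)
  have hchi : ∑ i, binEnt (bary ν i) - ∑ i, (binEnt (m i) + slope (m i) * (bary ν i - m i)) ≤ n * e2 := by
    rw [← Finset.sum_sub_distrib]
    refine (Finset.sum_le_sum (g := fun _ => e2) fun i _ => ?_).trans (le_of_eq (by simp))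
    exact (binEnt_ref (abs_bary_le hν i) (hm i)).trans (he2 i)
  have hons := mul_le_mul_of_nonneg_left
    (onsager_diff hn hθ0 hθ1 (fun i => abs_bary_le hν i) (fun i => (hm i).le) he1) hn'.le
  have hΛd : -(n * (Λ * e1 ^ 2))
      ≤ θ / 2 * bil g (fun i => bary ν i - m i) fun i => bary ν i - m i := by
    have hd2 : ∑ i, (bary ν i - m i) ^ 2 ≤ n * e1 ^ 2 := by
      refine (Finset.sum_le_sum (g := fun _ => e1 ^ 2) fun i _ => ?_).trans (le_of_eq (by simp))
      rw [← sq_abs]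
      exact pow_le_pow_left₀ (abs_nonneg _) (he1 i) 2
    have h1 := mul_le_mul_of_nonneg_left (abs_le.1 (hΛ fun i => bary ν i - m i)).1 (by linarith : 0 ≤ θ / 2)
    have h2 := mul_le_mul_of_nonneg_left hd2 hΛ0
    have h3 : θ / 2 * (Λ * ∑ i, (bary ν i - m i) ^ 2) ≤ 1 * (n * (Λ * e1 ^ 2)) := by
      refine mul_le_mul (by linarith) (by linarith) (by positivity) zero_le_one
    linarith
  have hfin : 2 * Λ * ((2 * k ^ 2 + k / α) / ρ ^ 2) * (covSq ν / n)
      = 2 * Λ * n * ((2 * k ^ 2 + k / α) / ρ ^ 2 * (covSq ν / n ^ 2)) := by field_simp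
  have h1n : (n : ℝ) * (1 / n) = 1 := by field_simp
  rw [tap, freeE, mean_bil_spinv hν m, hfin]
  change _ - θ / 2 * bil g (bary ν) (bary ν) - _ ≤ _
  simp only [hA, mul_add] at hvar hons hbad ⊢
  linarith

/-- Every law, by pinning and convexity. -/
theorem upper_all {θ E K δ : ℝ} {g : Edge n → ℝ} (hn : 0 < n) (hK : 0 ≤ K) (hδ : 0 < δ)
    (hconv : ConvexOn ℝ (Set.Icc (-1 : Fin n → ℝ) 1) (tap θ g))
    (hone : ∀ μ, IsLaw μ → tap θ g (bary μ) ≤ freeE θ g μ + n * E + K * (covSq μ / n))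
    {ν : (Fin n → Bool) → ℝ} (hν : IsLaw ν) :
    tap θ g (bary ν) ≤ freeE θ g ν + n * (E + K * δ + (1 / δ + 1) / n) := by
  have hn' : (0 : ℝ) < n := by exact_mod_cast hn
  obtain ⟨κ, _, w, μ, ⟨hw, hμ, hmix⟩, hcov, hent⟩ := pin_decomp hν hδ
  have hb : bary ν = ∑ y, w y • bary (μ y) := by
    funext i
    simp only [bary, Finset.sum_apply, Pi.smul_apply, smul_eq_mul, Finset.mul_sum]
    rw [Finset.sum_comm]
    exact Finset.sum_congr rfl fun x _ => by simp only [← mul_assoc, ← Finset.sum_mul, hmix]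
  have hj : tap θ g (∑ y, w y • bary (μ y)) ≤ ∑ y, w y • tap θ g (bary (μ y)) :=
    hconv.map_sum_le (fun y _ => hw.1 y) hw.2 fun y _ =>
      ⟨fun i => (abs_le.1 (abs_bary_le (hμ y) i)).1, fun i => (abs_le.1 (abs_bary_le (hμ y) i)).2⟩
  have hlin : ∑ y, w y * ∑ x, μ y x * bil g (spinv x) (spinv x) = ∑ x, ν x * bil g (spinv x) (spinv x) := by
    simp only [Finset.mul_sum]
    rw [Finset.sum_comm]
    exact Finset.sum_congr rfl fun x _ => by simp only [← mul_assoc, ← Finset.sum_mul, hmix]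
  have hf : ∑ y, w y * freeE θ g (μ y) ≤ freeE θ g ν + (1 / δ + 1) := by
    have e : ∀ y, w y * freeE θ g (μ y) = w y * nent (μ y) + w y * (n * log 2)
        - θ / 2 * (w y * ∑ x, μ y x * bil g (spinv x) (spinv x)) := fun y => by rw [freeE]; ring
    rw [Finset.sum_congr rfl fun y _ => e y]
    simp only [Finset.sum_sub_distrib, Finset.sum_add_distrib, ← Finset.mul_sum, ← Finset.sum_mul, hw.2,
      hlin, one_mul, freeE]
    have h2 : (1 / δ + 1) * log 2 ≤ 1 / δ + 1 :=
      mul_le_of_le_one_right (by positivity) (by linarith [log_le_sub_one_of_pos (two_pos : (0 : ℝ) < 2)])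
    linarith
  have hs := Finset.sum_le_sum fun y (_ : y ∈ univ) => mul_le_mul_of_nonneg_left (hone _ (hμ y)) (hw.1 y)
  simp only [mul_add, Finset.sum_add_distrib, ← Finset.sum_mul, hw.2, one_mul, mul_left_comm (w _) K,
    ← Finset.mul_sum, ← mul_div_assoc, ← Finset.sum_div] at hs
  simp only [smul_eq_mul] at hj
  have hc : K * (∑ y, w y * covSq (μ y)) / n ≤ n * (K * δ) := by
    rw [div_le_iff₀ hn']
    nlinarith [mul_le_mul_of_nonneg_left hcov hK]
  have h1 : (n : ℝ) * ((1 / δ + 1) / n) = 1 / δ + 1 := by field_simp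
  rw [hb, mul_add, mul_add, h1]
  linarith

end Vale.Agent.P150.Beyond.Stability
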